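import Crest.Agent.R208.CW0b
import Crest.Agent.R275.C1a_509
import Crest.Agent.R266.Osgood

/-!
# X262 / Kah (helper93), file FS: smooth complex forms on `(M, A)`

* `FS A`   : compatible families of smooth forms read in the charts; a `ℂ`-algebra;
* `dF`, `cjF`, `invF` : exterior derivative, conjugation, grade involution;
* `EF A`   : smooth compatible fields of endomorphisms of the fibre, `EF.op`, `EF.ev`;
* `fnF`    : a smooth function as a form of degree zero.
-/

set_option autoImplicit false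
set_option linter.unusedSectionVars false
set_option linter.unusedVariables false

open Set Filter Topology
open scoped ContDiff

namespace Crest.Agent.X262.Kah

open Crest.Agent.R208.F Crest.Agent.R208.CW Crest.Agent.R275.Geo

noncomputable section

/-- the fibre -/
abbrev Fb (n : ℕ) : Type := CF (Cn n)

variable {n : ℕ} {M : Type} [TopologicalSpace M]

/-- transition map -/
def tr (A : Atl n M) (i j : A.ι) (z : Cn n) : Cn n := A.e j ((A.e i).symm z)

/-- real differential of the transition map -/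
def Dtr (A : Atl n M) (i j : A.ι) (z : Cn n) : Cn n →ₗ[ℝ] Cn n :=
  ((fderiv ℝ (tr A i j) z : Cn n →L[ℝ] Cn n) : Cn n →ₗ[ℝ] Cn n)

variable {A : Atl n M}

theorem isOpen_ov' (i j : A.ι) : IsOpen (A.ov i j) :=
  (A.e i).continuousOn_symm.isOpen_inter_preimage (A.e i).open_target (A.e j).open_source

theorem tr_mem {i j : A.ι} {z : Cn n} (hz : z ∈ A.ov i j) : tr A i j z ∈ (A.e j).target :=
  (A.e j).map_source hz.2

theorem symm_tr {i j : A.ι} {z : Cn n} (hz : z ∈ A.ov i j) :
    (A.e j).symm (tr A i j z) = (A.e i).symm z := (A.e j).left_inv hz.2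

theorem mem_ov {i j : A.ι} {x : M} (hx : x ∈ (A.e i).source ∩ (A.e j).source) :
    A.e i x ∈ A.ov i j :=
  ⟨(A.e i).map_source hx.1, by rw [(A.e i).left_inv hx.1]; exact hx.2⟩

theorem tr_e {i j : A.ι} {x : M} (hx : x ∈ (A.e i).source) : tr A i j (A.e i x) = A.e j x := by
  unfold tr; rw [(A.e i).left_inv hx]

theorem tr_holo {i j : A.ι} {z : Cn n} (hz : z ∈ A.ov i j) :
    ∀ᶠ y in 𝓝 z, DifferentiableAt ℂ (tr A i j) y := by
  filter_upwards [(isOpen_ov' i j).mem_nhds hz] with y hy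
  exact (A.holo i j y hy).differentiableAt ((isOpen_ov' i j).mem_nhds hy)

theorem tr_contDiffAt {i j : A.ι} {z : Cn n} (hz : z ∈ A.ov i j) :
    ContDiffAt ℝ ∞ (tr A i j) z := by
  have h : ContDiffOn ℂ ω (tr A i j) (A.ov i j) :=
    Crest.Agent.R266.SCV.contDiffOn_omega_of_differentiableOn (isOpen_ov' i j) (A.holo i j)
  exact ((h.contDiffAt ((isOpen_ov' i j).mem_nhds hz)).restrict_scalars ℝ).of_le le_top

theorem pullC_tr (i j : A.ι) (u : Cn n → Fb n) (z : Cn n) :
    pullC (tr A i j) u z = pbC (Dtr A i j z) (u (tr A i j z)) := rfl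

/-- smooth forms, as a subalgebra of all families -/
def FSs (A : Atl n M) : NonUnitalSubalgebra ℂ (A.ι → Cn n → Fb n) where
  carrier := {u | (∀ i, ∀ z ∈ (A.e i).target, CD ∞ (u i) z) ∧
    (∀ i, ∀ z ∉ (A.e i).target, u i z = 0) ∧
    ∀ i j, ∀ z ∈ A.ov i j, u i z = pullC (tr A i j) (u j) z}
  add_mem' := by
    rintro u v ⟨h1, h2, h3⟩ ⟨k1, k2, k3⟩
    refine ⟨fun i z hz => (h1 i z hz).add (k1 i z hz), fun i z hz => ?_, fun i j z hz => ?_⟩
    · simp [h2 i z hz, k2 i z hz]
    · simp [pullC_tr, h3 i j z hz, k3 i j z hz]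
  zero_mem' := ⟨fun i z _ => CD.const 0, fun i z _ => rfl, fun i j z _ => by simp [pullC_tr]⟩
  mul_mem' := by
    rintro u v ⟨h1, h2, h3⟩ ⟨k1, k2, k3⟩
    refine ⟨fun i z hz => (h1 i z hz).mul (k1 i z hz), fun i z hz => ?_, fun i j z hz => ?_⟩
    · simp [h2 i z hz]
    · simp [pullC_tr, h3 i j z hz, k3 i j z hz]
  smul_mem' := by
    rintro c u ⟨h1, h2, h3⟩
    refine ⟨fun i z hz => (h1 i z hz).csmul c, fun i z hz => ?_, fun i j z hz => ?_⟩
    · simp [h2 i z hz]
    · simp [pullC_tr, h3 i j z hz]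

/-- smooth forms -/
structure FS (A : Atl n M) : Type where
  f : A.ι → Cn n → Fb n
  mem : f ∈ FSs A

namespace FS

theorem f_inj : Function.Injective (FS.f : FS A → A.ι → Cn n → Fb n) := by
  rintro ⟨u, _⟩ ⟨v, _⟩ h
  congr

instance : Zero (FS A) := ⟨⟨0, zero_mem _⟩⟩
instance : Add (FS A) := ⟨fun u v => ⟨u.f + v.f, add_mem u.2 v.2⟩⟩
instance : Neg (FS A) := ⟨fun u => ⟨-u.f, neg_mem u.2⟩⟩
instance : Sub (FS A) := ⟨fun u v => ⟨u.f - v.f, sub_mem u.2 v.2⟩⟩
instance : Mul (FS A) := ⟨fun u v => ⟨u.f * v.f, mul_mem u.2 v.2⟩⟩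
instance : SMul ℕ (FS A) := ⟨fun k u => ⟨k • u.f, nsmul_mem u.2 k⟩⟩
instance : SMul ℤ (FS A) := ⟨fun k u => ⟨k • u.f, zsmul_mem u.2 k⟩⟩
instance : SMul ℂ (FS A) := ⟨fun c u => ⟨c • u.f, SMulMemClass.smul_mem c u.2⟩⟩

instance : NonUnitalRing (FS A) :=
  f_inj.nonUnitalRing FS.f rfl (fun _ _ => rfl) (fun _ _ => rfl) (fun _ => rfl) (fun _ _ => rfl)
    (fun _ _ => rfl) (fun _ _ => rfl)

instance : Module ℂ (FS A) :=
  Function.Injective.module ℂ
    ({ toFun := FS.f, map_zero' := rfl, map_add' := fun _ _ => rfl } :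
      FS A →+ (A.ι → Cn n → Fb n)) f_inj fun _ _ => rfl

theorem sm (u : FS A) {i : A.ι} {z : Cn n} (hz : z ∈ (A.e i).target) : CD ∞ (u.1 i) z :=
  u.2.1 i z hz

theorem off (u : FS A) {i : A.ι} {z : Cn n} (hz : z ∉ (A.e i).target) : u.1 i z = 0 :=
  u.2.2.1 i z hz

theorem tr' (u : FS A) {i j : A.ι} {z : Cn n} (hz : z ∈ A.ov i j) :
    u.1 i z = pbC (Dtr A i j z) (u.1 j (tr A i j z)) := u.2.2.2 i j z hz

theorem ext' {u v : FS A} (h : ∀ i, ∀ z ∈ (A.e i).target, u.1 i z = v.1 i z) : u = v := by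
  apply f_inj
  funext i z
  by_cases hz : z ∈ (A.e i).target
  · exact h i z hz
  · rw [u.off hz, v.off hz]

/-- it is enough to compare two forms in one chart at each point -/
theorem ext_of {u v : FS A}
    (h : ∀ x : M, ∃ j, x ∈ (A.e j).source ∧ u.1 j (A.e j x) = v.1 j (A.e j x)) : u = v := by
  refine ext' fun i z hz => ?_
  obtain ⟨j, hj, h1⟩ := h ((A.e i).symm z)
  have hz' : z ∈ A.ov i j := ⟨hz, hj⟩
  rw [u.tr' hz', v.tr' hz']
  exact congrArg _ h1

open Classical in
/-- cut a family off outside of the chart targets -/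
def cut (u : A.ι → Cn n → Fb n) : A.ι → Cn n → Fb n := fun i z =>
  if z ∈ (A.e i).target then u i z else 0

theorem cut_of_mem {u : A.ι → Cn n → Fb n} {i : A.ι} {z : Cn n} (hz : z ∈ (A.e i).target) :
    cut u i z = u i z := if_pos hz

theorem cut_ev (u : A.ι → Cn n → Fb n) {i : A.ι} {z : Cn n} (hz : z ∈ (A.e i).target) :
    cut u i =ᶠ[𝓝 z] u i := by
  filter_upwards [(A.e i).open_target.mem_nhds hz] with y hy using cut_of_mem hy

/-- a form from a family which is smooth and compatible on the chart targets -/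
def mk' (u : A.ι → Cn n → Fb n) (h1 : ∀ i, ∀ z ∈ (A.e i).target, CD ∞ (u i) z)
    (h3 : ∀ i j, ∀ z ∈ A.ov i j, u i z = pbC (Dtr A i j z) (u j (tr A i j z))) : FS A :=
  ⟨cut u, fun i z hz => (h1 i z hz).congr (cut_ev u hz), fun i z hz => if_neg hz,
    fun i j z hz => by rw [pullC_tr, cut_of_mem hz.1, cut_of_mem (tr_mem hz), h3 i j z hz]⟩

theorem mk'_apply {u : A.ι → Cn n → Fb n} {h1 h3} {i : A.ι} {z : Cn n}
    (hz : z ∈ (A.e i).target) : (mk' u h1 h3).1 i z = u i z := cut_of_mem hz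

theorem mk'_ev {u : A.ι → Cn n → Fb n} {h1 h3} {i : A.ι} {z : Cn n}
    (hz : z ∈ (A.e i).target) : (mk' u h1 h3).1 i =ᶠ[𝓝 z] u i := cut_ev u hz

instance : One (FS A) := ⟨mk' (fun _ _ => 1) (fun _ _ _ => CD.const 1) fun _ _ _ _ => by simp⟩

theorem one_apply {i : A.ι} {z : Cn n} (hz : z ∈ (A.e i).target) : (1 : FS A).1 i z = 1 :=
  mk'_apply hz

@[simp] theorem add_apply (u v : FS A) (i : A.ι) (z : Cn n) :
    (u + v).1 i z = u.1 i z + v.1 i z := rfl
@[simp] theorem sub_apply (u v : FS A) (i : A.ι) (z : Cn n) :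
    (u - v).1 i z = u.1 i z - v.1 i z := rfl
@[simp] theorem neg_apply (u : FS A) (i : A.ι) (z : Cn n) : (-u).1 i z = -u.1 i z := rfl
@[simp] theorem zero_apply (i : A.ι) (z : Cn n) : (0 : FS A).1 i z = 0 := rfl
@[simp] theorem mul_apply (u v : FS A) (i : A.ι) (z : Cn n) :
    (u * v).1 i z = u.1 i z * v.1 i z := rfl
@[simp] theorem smul_apply (c : ℂ) (u : FS A) (i : A.ι) (z : Cn n) :
    (c • u).1 i z = c • u.1 i z := rfl

instance : Ring (FS A) :=
  { (inferInstance : NonUnitalRing (FS A)) with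
    one := 1
    one_mul := fun u => ext' fun i z hz => by rw [mul_apply, one_apply hz, one_mul]
    mul_one := fun u => ext' fun i z hz => by rw [mul_apply, one_apply hz, mul_one] }

instance : Algebra ℂ (FS A) :=
  Algebra.ofModule (fun c u v => ext' fun i z _ => by simp)
    (fun c u v => ext' fun i z _ => by simp)

/-- the value of a form at a point of a chart -/
def ev (i : A.ι) (z : Cn n) : FS A →ₗ[ℂ] Fb n where
  toFun u := u.1 i z
  map_add' _ _ := rfl
  map_smul' _ _ := rfl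

theorem sum_apply {σ : Type*} (s : Finset σ) (u : σ → FS A) (i : A.ι) (z : Cn n) :
    (∑ t ∈ s, u t).1 i z = ∑ t ∈ s, (u t).1 i z := map_sum (ev i z) u s

end FS

/-! ### exterior derivative, conjugation, grade involution -/

theorem one_le_inf : (1 : WithTop ℕ∞) ≤ ∞ := by exact_mod_cast le_top
theorem two_le_inf : (2 : WithTop ℕ∞) ≤ ∞ := by
  have : ((2 : ℕ∞) : WithTop ℕ∞) ≤ ((⊤ : ℕ∞) : WithTop ℕ∞) := by exact_mod_cast le_top
  exact this

/-- exterior derivative of a form -/
def dF0 (u : FS A) : FS A :=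
  FS.mk' (fun i => dC (u.1 i)) (fun i z hz => (u.sm hz).dC (by simp)) fun i j z hz => by
    have h1 : u.1 i =ᶠ[𝓝 z] pullC (tr A i j) (u.1 j) := by
      filter_upwards [(isOpen_ov' i j).mem_nhds hz] with y hy using u.tr' hy
    rw [dC_congr h1, dC_pullC ((tr_contDiffAt hz).of_le two_le_inf)
      ((u.sm (tr_mem hz)).of_le one_le_inf)]
    rfl

/-- exterior derivative -/
def dF (A : Atl n M) : Module.End ℂ (FS A) where
  toFun := dF0
  map_add' u v := FS.ext' fun i z hz => by
    rw [FS.add_apply, dF0, dF0, dF0, FS.mk'_apply hz, FS.mk'_apply hz, FS.mk'_apply hz]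
    exact dC_add ((u.sm hz).of_le one_le_inf) ((v.sm hz).of_le one_le_inf)
  map_smul' c u := FS.ext' fun i z hz => by
    rw [RingHom.id_apply, FS.smul_apply, dF0, dF0, FS.mk'_apply hz, FS.mk'_apply hz]
    exact dC_csmul c ((u.sm hz).of_le one_le_inf)

theorem dF_apply (u : FS A) {i : A.ι} {z : Cn n} (hz : z ∈ (A.e i).target) :
    (dF A u).1 i z = dC (u.1 i) z := FS.cut_of_mem (u := fun i => dC (u.1 i)) hz

theorem dF_ev (u : FS A) {i : A.ι} {z : Cn n} (hz : z ∈ (A.e i).target) :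
    (dF A u).1 i =ᶠ[𝓝 z] dC (u.1 i) := FS.cut_ev (fun i => dC (u.1 i)) hz

theorem dF_dF (u : FS A) : dF A (dF A u) = 0 := FS.ext' fun i z hz => by
  rw [dF_apply _ hz, dC_congr (dF_ev u hz), dC_dC ((u.sm hz).of_le two_le_inf)]
  rfl

theorem pbC_conj {E F : Type*} [AddCommGroup E] [Module ℝ E] [AddCommGroup F] [Module ℝ F]
    (L : E →ₗ[ℝ] F) (c : CF F) : pbC L (Cx.conj c) = Cx.conj (pbC L c) := by
  refine Cx.ext ?_ ?_ <;> simp

theorem conj_smul' {E : Type*} [AddCommGroup E] [Module ℝ E] (z : ℂ) (c : CF E) :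
    Cx.conj (z • c) = (starRingEnd ℂ z) • Cx.conj c := by
  refine Cx.ext ?_ ?_
  · simp
  · simp; abel

/-- complex conjugation of forms -/
def cjF (A : Atl n M) : FS A →+* FS A where
  toFun u := ⟨fun i z => Cx.conj (u.1 i z),
    fun i z hz => ⟨(u.sm hz).re, (u.sm hz).im.neg⟩,
    fun i z hz => by simp only [u.off hz, map_zero],
    fun i j z hz => by rw [pullC_tr, pbC_conj, ← u.tr' hz]⟩
  map_one' := FS.ext' fun i z hz => by
    show Cx.conj ((1 : FS A).1 i z) = _
    rw [FS.one_apply hz, map_one]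
  map_mul' u v := FS.ext' fun i z hz => map_mul Cx.conj _ _
  map_zero' := FS.ext' fun i z hz => map_zero Cx.conj
  map_add' u v := FS.ext' fun i z hz => map_add Cx.conj _ _

@[simp] theorem cjF_apply (u : FS A) (i : A.ι) (z : Cn n) :
    (cjF A u).1 i z = Cx.conj (u.1 i z) := rfl

theorem cjF_cjF (u : FS A) : cjF A (cjF A u) = u := FS.ext' fun i z _ => Cx.conj_conj _

theorem cjF_smul (c : ℂ) (u : FS A) : cjF A (c • u) = (starRingEnd ℂ c) • cjF A u :=
  FS.ext' fun i z _ => conj_smul' c _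

theorem cjF_dF (u : FS A) : cjF A (dF A u) = dF A (cjF A u) := FS.ext' fun i z hz => by
  rw [cjF_apply, dF_apply _ hz, dF_apply _ hz]
  refine Cx.ext rfl ?_
  exact (d_neg (om := fun y => (u.1 i y).im)).symm

/-! ### fields of endomorphisms -/

/-- smooth fields of endomorphisms of the fibre in the charts (no compatibility) -/
def SmE (A : Atl n M) (a : A.ι → Cn n → Module.End ℂ (Fb n)) : Prop :=
  ∀ i, ∀ z ∈ (A.e i).target, ∀ c, CD ∞ (fun y => a i y c) z

/-- the complexified basis of the fibre -/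
def bR (E : Type*) [AddCommGroup E] [Module ℝ E] [FiniteDimensional ℝ E]
    (J : Finset (Fin (Module.finrank ℝ (Module.Dual ℝ E)))) : CF E := Cx.ofR (extBasis E J)

/-- coordinates with respect to `bR` -/
def coR {E : Type*} [AddCommGroup E] [Module ℝ E] [FiniteDimensional ℝ E]
    (J : Finset (Fin (Module.finrank ℝ (Module.Dual ℝ E)))) : CF E →ₗ[ℂ] ℂ where
  toFun c := ⟨(extBasis E).coord J c.re, (extBasis E).coord J c.im⟩
  map_add' a b := by apply Complex.ext <;> simp
  map_smul' z a := by apply Complex.ext <;> simp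

theorem sum_coR {E : Type*} [AddCommGroup E] [Module ℝ E] [FiniteDimensional ℝ E] (c : CF E) :
    ∑ J, coR J c • bR E J = c := by
  refine Cx.ext ?_ ?_
  · simp [coR, bR]
  · simp [coR, bR]

theorem CD_coR {E G : Type*} [NormedAddCommGroup E] [NormedSpace ℝ E] [FiniteDimensional ℝ E]
    [NormedAddCommGroup G] [NormedSpace ℝ G] {k : WithTop ℕ∞} {om : G → CF E} {x : G}
    (h : CD k om x) (J : Finset (Fin (Module.finrank ℝ (Module.Dual ℝ E)))) :
    ContDiffAt ℝ k (fun y => coR J (om y)) x := by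
  have h1 : ContDiffAt ℝ k (fun y => (extBasis E).coord J (om y).re) x :=
    (LinearMap.toContinuousLinearMap ((extBasis E).coord J)).contDiff.contDiffAt.comp x h.re
  have h2 : ContDiffAt ℝ k (fun y => (extBasis E).coord J (om y).im) x :=
    (LinearMap.toContinuousLinearMap ((extBasis E).coord J)).contDiff.contDiffAt.comp x h.im
  have e : (fun y => coR J (om y)) = fun y => (((extBasis E).coord J (om y).re : ℝ) : ℂ) +
      (((extBasis E).coord J (om y).im : ℝ) : ℂ) * Complex.I := by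
    funext y
    apply Complex.ext <;> simp [coR]
  rw [e]
  exact (Complex.ofRealCLM.contDiff.contDiffAt.comp x h1).add
    ((Complex.ofRealCLM.contDiff.contDiffAt.comp x h2).mul contDiffAt_const)

theorem CD_fsmul {E G : Type*} [NormedAddCommGroup E] [NormedSpace ℝ E] [FiniteDimensional ℝ E]
    [NormedAddCommGroup G] [NormedSpace ℝ G] {k : WithTop ℕ∞} {g : G → ℂ} {om : G → CF E} {x : G}
    (hg : ContDiffAt ℝ k g x) (h : CD k om x) : CD k (fun y => g y • om y) x := by
  have := (CD.of_fun (E := E) hg).mul h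
  simpa only [← Algebra.smul_def] using this

/-- a smooth field of linear maps applied to a smooth form -/
theorem CD_app {E E' G : Type*} [NormedAddCommGroup E] [NormedSpace ℝ E] [FiniteDimensional ℝ E]
    [NormedAddCommGroup E'] [NormedSpace ℝ E'] [FiniteDimensional ℝ E']
    [NormedAddCommGroup G] [NormedSpace ℝ G] {k : WithTop ℕ∞} {a : G → CF E →ₗ[ℂ] CF E'}
    {om : G → CF E} {x : G} (ha : ∀ c, CD k (fun y => a y c) x) (h : CD k om x) :
    CD k (fun y => a y (om y)) x := by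
  have e : (fun y => a y (om y)) = fun y => ∑ J, coR J (om y) • a y (bR E J) := by
    funext y
    conv_lhs => rw [← sum_coR (om y)]
    simp only [map_sum, map_smul]
  rw [e]
  exact CD.sum fun J _ => CD_fsmul (CD_coR h J) (ha _)

/-- a linear functional of a smooth form -/
theorem CD_fun {E G : Type*} [NormedAddCommGroup E] [NormedSpace ℝ E] [FiniteDimensional ℝ E]
    [NormedAddCommGroup G] [NormedSpace ℝ G] {k : WithTop ℕ∞} (t : CF E →ₗ[ℂ] ℂ)
    {om : G → CF E} {x : G} (h : CD k om x) : ContDiffAt ℝ k (fun y => t (om y)) x := by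
  have e : (fun y => t (om y)) = fun y => ∑ J, coR J (om y) * t (bR E J) := by
    funext y
    conv_lhs => rw [← sum_coR (om y)]
    simp only [map_sum, map_smul, smul_eq_mul]
  rw [e]
  exact ContDiffAt.sum fun J _ => (CD_coR h J).mul contDiffAt_const

namespace SmE

variable {a b : A.ι → Cn n → Module.End ℂ (Fb n)}

theorem const (c : Module.End ℂ (Fb n)) : SmE A (fun _ _ => c) := fun _ _ _ _ => CD.const _
theorem add (ha : SmE A a) (hb : SmE A b) : SmE A (a + b) :=
  fun i z hz c => (ha i z hz c).add (hb i z hz c)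
theorem mul (ha : SmE A a) (hb : SmE A b) : SmE A (a * b) :=
  fun i z hz c => CD_app (a := a i) (om := fun y => b i y c) (ha i z hz) (hb i z hz c)
theorem smul (s : ℂ) (ha : SmE A a) : SmE A (s • a) := fun i z hz c => (ha i z hz c).csmul s

end SmE

/-- smooth compatible fields of endomorphisms (no condition off the chart targets) -/
def EF (A : Atl n M) : Subalgebra ℂ (A.ι → Cn n → Module.End ℂ (Fb n)) where
  carrier := {a | SmE A a ∧ ∀ i j, ∀ z ∈ A.ov i j, ∀ c,
    a i z (pbC (Dtr A i j z) c) = pbC (Dtr A i j z) (a j (tr A i j z) c)}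
  mul_mem' := by
    rintro a b ⟨h1, h2⟩ ⟨k1, k2⟩
    refine ⟨h1.mul k1, fun i j z hz c => ?_⟩
    simp only [Pi.mul_apply, Module.End.mul_apply]
    rw [k2 i j z hz, h2 i j z hz]
  add_mem' := by
    rintro a b ⟨h1, h2⟩ ⟨k1, k2⟩
    refine ⟨h1.add k1, fun i j z hz c => ?_⟩
    simp only [Pi.add_apply, LinearMap.add_apply, map_add]
    rw [k2 i j z hz, h2 i j z hz]
  algebraMap_mem' s := ⟨SmE.const _, fun i j z hz c => by simp⟩

namespace EF

/-- action on forms -/
def act (a : EF A) (u : FS A) : FS A :=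
  ⟨fun i z => a.1 i z (u.1 i z), fun i z hz => CD_app (a.2.1 i z hz) (u.sm hz),
    fun i z hz => by simp only [u.off hz, map_zero],
    fun i j z hz => by rw [pullC_tr, ← a.2.2 i j z hz, ← u.tr' hz]⟩

/-- fields of endomorphisms as operators on forms -/
def op (A : Atl n M) : EF A →ₐ[ℂ] Module.End ℂ (FS A) where
  toFun a :=
    { toFun := act a
      map_add' := fun u v => FS.ext' fun i z _ => map_add (a.1 i z) _ _
      map_smul' := fun c u => FS.ext' fun i z _ => map_smul (a.1 i z) _ _ }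
  map_one' := LinearMap.ext fun u => FS.ext' fun i z _ => rfl
  map_mul' a b := LinearMap.ext fun u => FS.ext' fun i z _ => rfl
  map_zero' := LinearMap.ext fun u => FS.ext' fun i z _ => rfl
  map_add' a b := LinearMap.ext fun u => FS.ext' fun i z _ => rfl
  commutes' s := LinearMap.ext fun u => FS.ext' fun i z _ => rfl

@[simp] theorem op_apply (a : EF A) (u : FS A) (i : A.ι) (z : Cn n) :
    (op A a u).1 i z = a.1 i z (u.1 i z) := rfl

/-- value of a field at a point of a chart -/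
def ev (i : A.ι) (z : Cn n) : EF A →ₐ[ℂ] Module.End ℂ (Fb n) :=
  ((Pi.evalAlgHom ℂ (fun _ : Cn n => Module.End ℂ (Fb n)) z).comp
    (Pi.evalAlgHom ℂ (fun _ : A.ι => Cn n → Module.End ℂ (Fb n)) i)).comp (EF A).val

@[simp] theorem ev_apply (i : A.ι) (z : Cn n) (a : EF A) : ev i z a = a.1 i z := rfl

theorem op_ext {a b : EF A} (h : ∀ i, ∀ z ∈ (A.e i).target, a.1 i z = b.1 i z) :
    op A a = op A b :=
  LinearMap.ext fun u => FS.ext' fun i z hz => by rw [op_apply, op_apply, h i z hz]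

/-- left multiplication by a form -/
def lmul (w : FS A) : EF A :=
  ⟨fun i z => LinearMap.mulLeft ℂ (w.1 i z), fun i z hz c => (w.sm hz).mul (CD.const c),
    fun i j z hz c => by
      simp only [LinearMap.mulLeft_apply, map_mul]
      rw [← w.tr' hz]⟩

theorem op_lmul (w u : FS A) : op A (lmul w) u = w * u := rfl

end EF

theorem Dtr_eq {i j : A.ι} {z : Cn n} (hz : z ∈ A.ov i j) :
    Dtr A i j z = ((fderiv ℂ (tr A i j) z : Cn n →L[ℂ] Cn n) : Cn n →ₗ[ℂ] Cn n).restrictScalars ℝ := by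
  unfold Dtr
  rw [((tr_holo hz).self_of_nhds).fderiv_restrictScalars ℝ]
  rfl

/-- a constant endomorphism commuting with all complex linear pull-backs -/
def EF.cst (A : Atl n M) (T : Module.End ℂ (Fb n))
    (hT : ∀ (L : Cn n →ₗ[ℂ] Cn n) (c : Fb n),
      T (pbC (L.restrictScalars ℝ) c) = pbC (L.restrictScalars ℝ) (T c)) : EF A :=
  ⟨fun _ _ => T, SmE.const T, fun i j z hz c => by rw [Dtr_eq hz]; exact hT _ c⟩

/-- the grade involution of the fibre as a linear map -/
def invL' (n : ℕ) : Module.End ℂ (Fb n) where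
  toFun := invC
  map_add' := map_add _
  map_smul' := invC_smul

/-- grade involution -/
def invF (A : Atl n M) : Module.End ℂ (FS A) :=
  EF.op A (EF.cst A (invL' n) fun L c => (pbC_invC _ c).symm)

@[simp] theorem invF_apply (u : FS A) (i : A.ι) (z : Cn n) :
    (invF A u).1 i z = invC (u.1 i z) := rfl

theorem invF_mul (u v : FS A) : invF A (u * v) = invF A u * invF A v :=
  FS.ext' fun i z _ => map_mul invC _ _

theorem invF_invF (u : FS A) : invF A (invF A u) = u := FS.ext' fun i z _ => invC_invC _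

theorem dF_mul (u v : FS A) : dF A (u * v) = dF A u * v + invF A u * dF A v :=
  FS.ext' fun i z hz => by
    rw [FS.add_apply, FS.mul_apply, FS.mul_apply, dF_apply _ hz, dF_apply _ hz, dF_apply _ hz,
      invF_apply]
    exact dC_mul ((u.sm hz).of_le one_le_inf) ((v.sm hz).of_le one_le_inf)

theorem dF_invF (u : FS A) : dF A (invF A u) = -invF A (dF A u) := FS.ext' fun i z hz => by
  rw [FS.neg_apply, invF_apply, dF_apply _ hz, dF_apply _ hz]
  exact dC_invC ((u.sm hz).of_le one_le_inf)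

/-- a smooth function as a form of degree zero -/
def fnF (f : M → ℂ) (hf : A.Sm f) : FS A :=
  FS.mk' (fun i z => algebraMap ℂ (Fb n) (f ((A.e i).symm z)))
    (fun i z hz => CD.of_fun ((hf i).contDiffAt ((A.e i).open_target.mem_nhds hz)))
    fun i j z hz => by rw [pbC_algebraMap, symm_tr hz]

theorem fnF_mul {f : M → ℂ} (hf : A.Sm f) (u : FS A) (i : A.ι) (z : Cn n) :
    (fnF f hf * u).1 i z = f ((A.e i).symm z) • u.1 i z := by
  by_cases hz : z ∈ (A.e i).target
  · rw [FS.mul_apply, fnF, FS.mk'_apply hz, Algebra.smul_def]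
  · rw [FS.off _ hz, u.off hz, smul_zero]

end

end Crest.Agent.X262.Kah
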