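import Crest.Agent.X262.Kah.ClsT

/-!
# X262 / Kah (helper20), file ClsC: first Chern classes have type `(1,1)`

* `exists_reemb` : `b + O(1)` is the hyperplane divisor of a smooth model if `b` is free on `P`;
* `c1Ty_of`.
-/

set_option autoImplicit false
set_option linter.unusedSectionVars false
set_option linter.style.haveILetI false

noncomputable section

namespace Crest.Agent.X262.Kah

open Crest.Agent.X277 Crest.Agent.X277.Lef Crest.Agent.X277.AN.G1 Crest.Agent.X277.BD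
open Crest.Agent.X277.BD.Br Crest.Agent.X277.Cns
open Crest.Agent.X262.Coh Crest.Agent.X262.Man

theorem exists_reemb {F : Type} [Field F] [Algebra ℂ F] {P : PModel ℂ F} {b : BD ℂ F}
    (hb : b ∈ On P) (hf : Free b) : ∃ Q : PModel ℂ F, oP Q = b + oP P := by
  obtain ⟨r, s, h0, h1, rfl⟩ := exists_gn hb hf
  let w : Fin (r + 1) × Fin (P.N + 1) → F := fun p => s p.1 * P.y p.2
  have hw : ∀ l, w l ≠ 0 := fun l => mul_ne_zero (h0 _) (P.y_ne _)
  have hy : ∀ l j, P.y j / P.y l.2 ∈ chI ℂ w l := fun l j => by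
    have := div_mem_chI ℂ w l (l.1, j)
    rwa [mul_div_mul_left _ _ (h0 _)] at this
  have hA : ∀ l, P.A l.2 ≤ chI ℂ w l := fun l =>
    Algebra.adjoin_le (Set.range_subset_iff.2 (hy l))
  have hfr : ∀ l (f : F), ∃ a ∈ chI ℂ w l, ∃ c ∈ chI ℂ w l, c ≠ 0 ∧ f = a / c := fun l f => by
    obtain ⟨a, ha, c, hc, h⟩ := P.frac' l.2 f
    exact ⟨a, hA l ha, c, hA l hc, h⟩
  have hsm : ∀ l, Algebra.Smooth ℂ (chI ℂ w l) := fun l => smooth_of_lp _ fun L hL => by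
    obtain ⟨x, -, hx⟩ := exists_dom (P := P) (i := l.2) L fun j => hL.le (hy l j)
    rw [← eq_of_dom_of hx hL (chI_le ((h1.mul gn_y).div_mem hx (hw l)
      fun j => hL.le (div_mem_chI ℂ w l j)))]
    exact lp_fs x
  refine ⟨ofFam w hw hfr hsm, (eq_mxf (fun i => ?_) fun V => ?_).symm⟩
  · exact mul_mem_Sec (mem_Sec_mxf s _) (y_mem_Sec _)
  · obtain ⟨i, hi⟩ := exists_val_mxf (k := ℂ) ⟨0, h0 0⟩ V
    obtain ⟨j, hj⟩ := exists_val_mxf (k := ℂ) ⟨0, P.y_ne 0⟩ V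
    refine ⟨(eI _).symm (i, j), ?_⟩
    rw [ofFam_y_symm, val_add, ← hi, oP, ← hj, ← map_mul]

theorem c1Ty_of {c1 : ∀ X : SV, BD ℂ X.F → HP X.P} (h : C1Ax c1)
    (hk : ∀ X : SV, c1 X X.h ∈ typP X 1 1) : C1Ty c1 := fun X a ha => by
  obtain ⟨b, hb, N, hf, rfl⟩ := exists_sub_On ha
  obtain ⟨Q, hQ⟩ := exists_reemb hb hf
  let c : X.On →+ HP X.P := AddMonoidHom.mk' (fun a => c1 X a) fun a b => h.add X _ a.2 _ b.2
  have h1 : oP Q ∈ On X.P := hQ ▸ add_mem hb oP_mem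
  let μ : Hom X (sv Q) := morOf (AlgHom.id ℂ X.F) (by rw [pb_id]; exact h1)
  have h2 : pullH μ (c1 (sv Q) (oP Q)) = c1 X (oP Q) :=
    h.pb μ _ oP_mem _ ⟨1, fun x g hg => by
      have := At.pb (μ := μ) rfl hg
      rw [pb_id] at this
      rw [div_one]
      exact this⟩
  have h3 : (⟨b - N • oP X.P, ha⟩ : X.On) = ⟨oP Q, h1⟩ - (N + 1) • ⟨oP X.P, oP_mem⟩ :=
    Subtype.ext (by simp only [hQ, AddSubgroupClass.coe_sub, AddSubgroupClass.coe_nsmul]; module)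
  change c ⟨_, ha⟩ ∈ _
  rw [h3, map_sub, map_nsmul]
  exact sub_mem (h2 ▸ typP_pb μ (hk (sv Q)) : c1 X (oP Q) ∈ _) (nsmul_mem (hk X) _)

theorem KahC1.typ {c1 : ∀ X : SV, BD ℂ X.F → HP X.P} (hk : KahC1 c1) (h : C1Ax c1)
    (Lam : ∀ X : SV, AddSubgroup (HP X.P)) : (thOf typP c1 Lam).TYP :=
  typ_of Lam hk.kah (c1Ty_of h hk.mem)

end Crest.Agent.X262.Kah
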