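import Crest.Agent.X262.Kah.ClsD
import Crest.Agent.X262.Man.Th

/-!
# X262 / Kah (helper20), file ClsT: `TYP`, `HL`, `HR`, `PD` for the de Rham theory

* `typP X p q` : the Hodge types of the de Rham theory; `typP_eq` (any atlas);
* `IntBr`, `KahP`, `KahC1 c1`, `C1Ty c1` : the inputs;
* `typ_of`, `hl_of`, `hr_of`, `pd_of`.
-/

set_option autoImplicit false
set_option linter.unusedSectionVars false
set_option linter.style.haveILetI false

noncomputable section

namespace Crest.Agent.X262.Kah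

open Crest.Agent.R208.CW Crest.Agent.R208.T
open Crest.Agent.X277 Crest.Agent.X277.Lef Crest.Agent.X277.AN.G1 Crest.Agent.X277.BD
open Crest.Agent.X262.Coh Crest.Agent.X262.Man

/-- **the Hodge types** -/
def typP (X : SV) (p q : ℕ) : Submodule ℂ (HP X.P) := typH (em X.P) p q

theorem typP_pb {X Y : SV} (μ : Hom X Y) {p q : ℕ} {a : HP Y.P} (ha : a ∈ typP Y p q) :
    pullH μ a ∈ typP X p q :=
  typH_map (em X.P) (em Y.P) (μ.holMap (an X.P) (an Y.P)) (smapM μ) (ambM_j μ) ha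

theorem typH_emb_le {F : Type} [Field F] [Algebra ℂ F] {P : PModel ℂ F} {n m : ℕ} (X : AnP P n)
    (X' : AnP P m) (p q : ℕ) : typH (emb X) p q ≤ typH (emb X') p q := fun a ha => by
  have := typH_map (emb X') (emb X) (holMap_id X' X) (SMap.id _) (fun _ => rfl) ha
  exact (congrArg (· ∈ typH (emb X') p q) (H.map_id (X := XP P) a)).mp this

/-- the types can be read in any atlas -/
theorem typP_eq (X : SV) {n : ℕ} (A : AnP X.P n) (p q : ℕ) : typP X p q = typH (emb A) p q :=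
  le_antisymm (typH_emb_le _ _ p q) (typH_emb_le _ _ p q)

instance {F : Type} [Field F] [Algebra ℂ F] {P : PModel ℂ F} {n : ℕ} (X : AnP P n) :
    Finite X.A.ι := X.fin

/-- the class of an even closed form -/
def clP (X : SV) : ZF (an X.P).A →ₐ[ℂ] HP X.P := toH (em X.P)

/-- the Kaehler class -/
def wP (X : SV) (K : KF (an X.P).A) : HP X.P := K.w (em X.P)

/-- the two integrals agree up to a positive constant -/
def IntBr : Prop := ∀ X : SV, ∃ c : ℝ, 0 < c ∧ ∀ u : ZF (an X.P).A,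
  intP X.P (clP X u) = c * IntF (an X.P).PA (tpT _) u.1

/-- projective manifolds are Kaehler -/
def KahP : Prop := ∀ X : SV, Nonempty (KF (an X.P).A)

/-- the hyperplane class is a Kaehler class -/
def KahC1 (c1 : ∀ X : SV, BD ℂ X.F → HP X.P) : Prop :=
  ∀ X : SV, ∃ (K : KF (an X.P).A) (r : ℝ), 0 < r ∧ c1 X X.h = (r : ℂ) • wP X K

/-- first Chern classes have type `(1,1)` -/
def C1Ty (c1 : ∀ X : SV, BD ℂ X.F → HP X.P) : Prop :=
  ∀ X : SV, ∀ a ∈ X.On, c1 X a ∈ typP X 1 1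

variable {c1 : ∀ X : SV, BD ℂ X.F → HP X.P} (Lam : ∀ X : SV, AddSubgroup (HP X.P))

theorem KahC1.kah (h : KahC1 c1) : KahP := fun X => ⟨(h X).choose⟩

theorem KahC1.mem (h : KahC1 c1) (X : SV) : c1 X X.h ∈ typP X 1 1 := by
  obtain ⟨K, r, -, e⟩ := h X
  rw [e]
  exact Submodule.smul_mem _ _ (K.w_mem _)

theorem typ_of (h : KahP) (h1 : C1Ty c1) : (thOf typP c1 Lam).TYP where
  int X := (h X).elim fun K => K.typ_int (em X.P) (an X.P).PA
  le X _ _ _ h := typH_le (em X.P) h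
  odd X _ _ h := typH_odd (em X.P) h
  gt X _ q h := typH_gt (em X.P) q h
  mul X _ _ _ _ _ _ ha hb := typH_mul (em X.P) ha hb
  pb μ _ _ _ ha := typP_pb μ ha
  cj X _ _ _ ha := typH_conj (em X.P) ha
  c1 := h1

theorem hl_of (h : KahC1 c1) : (thOf typP c1 Lam).HL := fun X k j hj a ha h0 => by
  obtain ⟨K, r, hr, e⟩ := h X
  refine K.hl (em X.P) (an X.P).PA (dg := dgP X.P) HD_isInternal.submodule_iSupIndep
    (fun _ _ _ h => typH_le (em X.P) h) hj ha ?_
  change c1 X X.h ^ j * a = 0 at h0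
  rw [e, smul_pow, smul_mul_assoc, smul_eq_zero] at h0
  exact h0.resolve_left (pow_ne_zero _ (by exact_mod_cast hr.ne'))

theorem hr_of (hi : IntBr) (h : KahC1 c1) : (thOf typP c1 Lam).HR :=
  fun X p q j hj a ha hne h0 => by
  obtain ⟨K, r, hr, e⟩ := h X
  obtain ⟨c, hc, hi⟩ := hi X
  change c1 X X.h ^ (j + 1) * a = 0 at h0
  rw [e, smul_pow, smul_mul_assoc, smul_eq_zero] at h0
  have h1 : 0 < ((-1) ^ p * intP X.P (wP X K ^ j * (a * H.conj _ a))).re := K.hr (em X.P)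
    (an X.P).PA hc hi hj ha hne
    (h0.resolve_left (pow_ne_zero _ (by exact_mod_cast hr.ne')))
  change 0 < ((-1) ^ p * intP X.P (c1 X X.h ^ j * (a * H.conj _ a))).re
  rw [e, smul_pow, smul_mul_assoc, map_smul, smul_eq_mul, mul_left_comm, ← Complex.ofReal_pow,
    Complex.re_ofReal_mul]
  exact mul_pos (pow_pos hr j) h1

theorem pd_of (typ : ∀ X : SV, ℕ → ℕ → Submodule ℂ (HP X.P)) (hi : IntBr) (h : KahP) :
    (thOf typ c1 Lam).PD := fun X => by
  obtain ⟨K⟩ := h X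
  obtain ⟨c, hc, hi⟩ := hi X
  exact ⟨K.fin (em X.P) (an X.P).PA, fun a ha => K.pd (em X.P) (an X.P).PA hc hi ha⟩

end Crest.Agent.X262.Kah
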