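import Crest.Agent.X262.Kah.PS

/-!
# X262 / Kah (helper20), file KP: the abstract Kaehler package, definitions and analysis

* `KA n S`  : paired Lefschetz module with `∂`, `∂̄`, Stokes;
* `KP n S`  : moreover `hp` is positive definite, `∂̄` has a bounded homotopy with finite rank
              remainder and closed elements have approximately harmonic representatives;
* `IsN G N` : the properties of the space `N` of elements with zero harmonic part;
* `KP.exists_N`.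
-/

set_option autoImplicit false
set_option linter.unusedSectionVars false
set_option linter.style.haveILetI false

open Complex Filter Topology
open scoped ComplexConjugate ComplexOrder InnerProductSpace

namespace Crest.Agent.X262.Kah

noncomputable section

/-- the algebraic part of a Kaehler package -/
structure KA (n : ℕ) (S : Type*) [AddCommGroup S] [Module ℂ S] extends PS n S where
  del : Module.End ℂ S
  db : Module.End ℂ S
  sh_del : toGS.Sh 1 0 del
  sh_db : toGS.Sh 0 1 db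
  db_db : ∀ u, db (db u) = 0
  del_db : ∀ u, del (db u) = - db (del u)
  L_db : ∀ u, L (db u) = db (L u)
  cj_del : ∀ u, cj (del u) = db (cj u)
  β_db : ∀ u v, β (db u) v = - β (toGS.par u) (db v)

namespace KA

variable {n : ℕ} {S : Type*} [AddCommGroup S] [Module ℂ S] (G : KA n S)

/-- `∂̄* = - i [Λ, ∂]` -/
def dbs : Module.End ℂ S := (-I) • (G.Λ * G.del - G.del * G.Λ)

/-- `∂* = i [Λ, ∂̄]` -/
def dels : Module.End ℂ S := I • (G.Λ * G.db - G.db * G.Λ)

/-- `d = ∂ + ∂̄` -/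
def d : Module.End ℂ S := G.del + G.db

/-- the norm of the Hermitian product -/
def nrm (u : S) : ℝ := Real.sqrt (G.hp u u).re

theorem d_apply (u : S) : G.d u = G.del u + G.db u := rfl

theorem cj_db (u : S) : G.cj (G.db u) = G.del (G.cj u) := by
  conv_lhs => rw [← G.cj_cj u, ← G.cj_del, G.cj_cj]

theorem del_del (u : S) : G.del (G.del u) = 0 := by
  rw [← G.cj_cj (G.del (G.del u)), G.cj_del, G.cj_del, G.db_db, map_zero]

theorem db_del (u : S) : G.db (G.del u) = - G.del (G.db u) := by rw [G.del_db, neg_neg]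

theorem L_del (u : S) : G.L (G.del u) = G.del (G.L u) := by
  rw [← G.cj_cj (G.L (G.del u)), G.cj_L, G.cj_del, G.L_db, ← G.cj_L, G.cj_db, G.cj_cj]

theorem β_del (u v : S) : G.β (G.del u) v = - G.β (G.par u) (G.del v) := by
  have h := G.β_db (G.cj u) (G.cj v)
  rw [← G.cj_del, ← G.cj_del, ← G.cj_par, G.β_cj, G.β_cj, ← map_neg] at h
  exact (starRingEnd ℂ).injective h

theorem d_d (u : S) : G.d (G.d u) = 0 := by
  simp only [d_apply, map_add, G.del_del, G.db_db, G.del_db]; abel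

theorem cj_d (u : S) : G.cj (G.d u) = G.d (G.cj u) := by
  rw [d_apply, d_apply, map_add, G.cj_del, G.cj_db, add_comm]

theorem L_d (u : S) : G.L (G.d u) = G.d (G.L u) := by
  rw [d_apply, d_apply, map_add, G.L_del, G.L_db]

theorem β_d (u v : S) : G.β (G.d u) v = - G.β (G.par u) (G.d v) := by
  rw [d_apply, d_apply, map_add, map_add, LinearMap.add_apply, G.β_del, G.β_db]; ring

theorem L_del' : G.L * G.del = G.del * G.L := LinearMap.ext G.L_del
theorem L_db' : G.L * G.db = G.db * G.L := LinearMap.ext G.L_db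

theorem hp_db (u v : S) : G.hp (G.db u) v = G.hp u (G.dbs v) := by
  have := G.adj10 (X := G.del) (Xb := G.db) G.sh_del G.L_del' G.cj_del (ε := -1)
    (fun u v => by rw [G.β_db]; simp) u v
  rw [this]; congr 1; simp [dbs, GS.br]

theorem hp_del (u v : S) : G.hp (G.del u) v = G.hp u (G.dels v) := by
  have := G.adj01 (X := G.db) (Xb := G.del) G.sh_db G.L_db' G.cj_db (ε := -1)
    (fun u v => by rw [G.β_del]; simp) u v
  rw [this]; congr 1; simp [dels, GS.br]

theorem dbs_apply (u : S) : G.dbs u = (-I) • (G.Λ (G.del u) - G.del (G.Λ u)) := rfl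
theorem dels_apply (u : S) : G.dels u = I • (G.Λ (G.db u) - G.db (G.Λ u)) := rfl

/-- `Δ_∂ = Δ_∂̄` -/
theorem lap (u : S) : G.del (G.dels u) + G.dels (G.del u) = G.db (G.dbs u) + G.dbs (G.db u) := by
  simp only [dbs_apply, dels_apply, map_smul, map_sub, G.del_db, map_neg]
  module

theorem cj_dels (u : S) : G.cj (G.dels u) = G.dbs (G.cj u) := by
  rw [dels_apply, dbs_apply, map_smulₛₗ, map_sub, G.cj_Λ, G.cj_db, G.cj_db, G.cj_Λ, conj_I]

theorem sh_dbs : G.Sh 0 (-1) G.dbs := (G.sh_del.br.smul (-I)).cast (by norm_num) (by norm_num)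

theorem dbs_Λ (u : S) : G.dbs (G.Λ u) = G.Λ (G.dbs u) := by
  have := (G.tri.doublet G.L_del' (by rw [G.sh_del.H]; simp)).2
  have h := LinearMap.congr_fun this u
  rw [dbs, LinearMap.smul_apply, LinearMap.smul_apply, map_smul]
  exact congrArg _ h.symm

theorem dbs_L (u : S) : G.dbs (G.L u) = G.L (G.dbs u) + I • G.del u := by
  have := (G.tri.doublet G.L_del' (by rw [G.sh_del.H]; simp)).1
  have h := LinearMap.congr_fun this u
  rw [dbs, LinearMap.smul_apply, LinearMap.smul_apply, map_smul, ← h]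
  simp only [LinearMap.sub_apply, Module.End.mul_apply]
  module

theorem db_Λ (u : S) : G.db (G.Λ u) = G.Λ (G.db u) + I • G.dels u := by
  rw [dels_apply, smul_smul, I_mul_I]; module

end KA

/-- a Kaehler package -/
structure KP (n : ℕ) (S : Type*) [AddCommGroup S] [Module ℂ S] extends KA n S where
  herm : ∀ u v, toPS.hp v u = conj (toPS.hp u v)
  pos : ∀ u, u ≠ 0 → 0 < toPS.hp u u
  htpy : ∃ (H K : Module.End ℂ S) (C : ℝ), (∀ u, u - H u = db (K u) + K (db u)) ∧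
    (∀ u, db (H u) = 0) ∧ (∀ u, H (db u) = 0) ∧ FiniteDimensional ℂ (LinearMap.range H) ∧
    (∀ u, toKA.nrm (H u) ≤ C * toKA.nrm u) ∧ (∀ u, toKA.nrm (K u) ≤ C * toKA.nrm u)
  approx : ∀ z, db z = 0 → ∃ y c : ℕ → S,
    (∀ ε > 0, ∃ N, ∀ m ≥ N, ∀ m' ≥ N, toKA.nrm (c m - c m') < ε) ∧
    Tendsto (fun m => toKA.nrm (c m - (z - db (y m)))) atTop (𝓝 0) ∧
    Tendsto (fun m => toKA.nrm (db (c m))) atTop (𝓝 0) ∧
    Tendsto (fun m => toKA.nrm (toKA.dbs (c m))) atTop (𝓝 0)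

/-- the properties of the space of elements without harmonic part -/
structure IsN {n : ℕ} {S : Type*} [AddCommGroup S] [Module ℂ S] (G : KA n S)
    (N : Submodule ℂ S) : Prop where
  pr : ∀ p q, N ≤ N.comap (G.pr p q)
  L : N ≤ N.comap G.L
  Λ : N ≤ N.comap G.Λ
  cj : ∀ u ∈ N, G.cj u ∈ N
  db : ∀ u, G.db u ∈ N
  exact : ∀ z ∈ N, G.db z = 0 → ∃ y, G.db y = z
  rep : ∀ u, ∃ z, G.db z = 0 ∧ u - z ∈ N
  fin : FiniteDimensional ℂ (S ⧸ N)
  pos : ∀ z t, G.db z = 0 → (∀ y, G.hp (G.db y) t = 0) → z - t ∈ N → z ∉ N → 0 < G.hp z t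

section analysis

variable {n : ℕ} {S : Type*} [NormedAddCommGroup S] [InnerProductSpace ℂ S]

/-- bounded additive maps -/
def Bd (T : S → S) : Prop := ∃ C : ℝ, ∀ u, ‖T u‖ ≤ C * ‖u‖

theorem Bd.tendsto {T : S → S} (h : Bd T) {u : ℕ → S} (hu : Tendsto u atTop (𝓝 0)) :
    Tendsto (fun m => T (u m)) atTop (𝓝 0) := by
  obtain ⟨C, hC⟩ := h
  rw [tendsto_zero_iff_norm_tendsto_zero] at hu ⊢
  exact squeeze_zero (fun _ => norm_nonneg _) (fun m => hC _) (by simpa using hu.const_mul C)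

theorem Bd.continuous {F : Type*} [FunLike F S S] [AddMonoidHomClass F S S] {T : F} (h : Bd T) :
    UniformContinuous T := by
  obtain ⟨C, hC⟩ := h
  exact (AddMonoidHomClass.lipschitz_of_bound T C hC).uniformContinuous

theorem bd_of_adj {T T' : S → S} (h : Bd T) (ha : ∀ u v, ⟪T' u, v⟫_ℂ = ⟪u, T v⟫_ℂ) : Bd T' := by
  obtain ⟨C, hC⟩ := h
  refine ⟨|C|, fun u => ?_⟩
  have h1 : ‖T' u‖ * ‖T' u‖ ≤ (|C| * ‖u‖) * ‖T' u‖ := by
    calc ‖T' u‖ * ‖T' u‖ = ‖⟪T' u, T' u⟫_ℂ‖ := by rw [inner_self_eq_norm_sq_to_K]; simp [sq]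
      _ ≤ ‖u‖ * ‖T (T' u)‖ := by rw [ha]; exact norm_inner_le_norm _ _
      _ ≤ ‖u‖ * (|C| * ‖T' u‖) := by
        gcongr
        exact (hC _).trans (by gcongr; exact le_abs_self C)
      _ = _ := by ring
  rcases (norm_nonneg (T' u)).eq_or_lt with h0 | h0
  · rw [← h0]; positivity
  · exact le_of_mul_le_mul_right h1 h0

variable (G : KA n S) (hip : ∀ u v, ⟪v, u⟫_ℂ = G.hp u v)
include hip

namespace KA

theorem ip_pr (p q : ℤ) (u v : S) : ⟪G.pr p q u, v⟫_ℂ = ⟪u, G.pr p q v⟫_ℂ := by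
  rw [hip, hip, G.hp_pr]
theorem ip_Λ (u v : S) : ⟪G.Λ u, v⟫_ℂ = ⟪u, G.L v⟫_ℂ := by rw [hip, hip, G.hp_L]
theorem ip_L (u v : S) : ⟪G.L u, v⟫_ℂ = ⟪u, G.Λ v⟫_ℂ := by
  rw [← inner_conj_symm, ← ip_Λ G hip, inner_conj_symm]
theorem ip_dbs (u v : S) : ⟪G.dbs u, v⟫_ℂ = ⟪u, G.db v⟫_ℂ := by rw [hip, hip, G.hp_db]
theorem ip_db (u v : S) : ⟪G.db u, v⟫_ℂ = ⟪u, G.dbs v⟫_ℂ := by
  rw [← inner_conj_symm, ← ip_dbs G hip, inner_conj_symm]
theorem ip_dels (u v : S) : ⟪G.dels u, v⟫_ℂ = ⟪u, G.del v⟫_ℂ := by rw [hip, hip, G.hp_del]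
theorem ip_del (u v : S) : ⟪G.del u, v⟫_ℂ = ⟪u, G.dels v⟫_ℂ := by
  rw [← inner_conj_symm, ← ip_dels G hip, inner_conj_symm]
theorem ip_cj (u v : S) : ⟪G.cj u, G.cj v⟫_ℂ = conj ⟪u, v⟫_ℂ := by rw [hip, hip, G.hp_cj]

theorem norm_cj (u : S) : ‖G.cj u‖ = ‖u‖ := by
  rw [norm_eq_sqrt_re_inner (𝕜 := ℂ), norm_eq_sqrt_re_inner (𝕜 := ℂ), ip_cj G hip]
  simp

theorem bd_cj : Bd G.cj := ⟨1, fun u => by rw [norm_cj G hip, one_mul]⟩

theorem norm_pr (p q : ℤ) (u : S) : ‖G.pr p q u‖ ≤ ‖u‖ := by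
  have h1 : ‖G.pr p q u‖ * ‖G.pr p q u‖ ≤ ‖u‖ * ‖G.pr p q u‖ := by
    calc ‖G.pr p q u‖ * ‖G.pr p q u‖ = ‖⟪G.pr p q u, G.pr p q u⟫_ℂ‖ := by
          rw [inner_self_eq_norm_sq_to_K]; simp [sq]
      _ ≤ _ := by rw [ip_pr G hip, G.ty_pr]; exact norm_inner_le_norm _ _
  rcases (norm_nonneg (G.pr p q u)).eq_or_lt with h0 | h0
  · rw [← h0]; positivity
  · exact le_of_mul_le_mul_right h1 h0

theorem bd_pr (p q : ℤ) : Bd (G.pr p q) := ⟨1, fun u => by rw [one_mul]; exact norm_pr G hip p q u⟩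

theorem bd_L_ty (k : ℕ) : ∃ C : ℝ, 0 ≤ C ∧ ∀ p q : ℤ, p < k → ∀ u, G.Ty p q u →
    ‖G.L u‖ ≤ C * ‖u‖ := by
  induction k with
  | zero =>
    refine ⟨0, le_rfl, fun p q hp u hu => ?_⟩
    rw [hu.eq_zero fun hb => by have := (mem_box.1 hb).1.1; omega]
    simp
  | succ k ih =>
    obtain ⟨C, hC0, hC⟩ := ih
    refine ⟨C + n + 1, by positivity, fun p q hp u hu => ?_⟩
    by_cases hb : (p, q) ∈ box n
    swap
    · rw [hu.eq_zero hb]; simp
    rw [mem_box] at hb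
    have h1 : ‖G.L (G.Λ u)‖ ≤ C * ‖G.Λ u‖ :=
      hC _ _ (by push_cast at hp; omega) _ (G.sh_Λ.ty hu)
    have h2 : ‖G.Λ u‖ ≤ C * ‖u‖ := by
      have h3 : ‖G.Λ u‖ * ‖G.Λ u‖ ≤ (C * ‖u‖) * ‖G.Λ u‖ := by
        calc ‖G.Λ u‖ * ‖G.Λ u‖ = ‖⟪G.Λ u, G.Λ u⟫_ℂ‖ := by
              rw [inner_self_eq_norm_sq_to_K]; simp [sq]
          _ ≤ ‖u‖ * ‖G.L (G.Λ u)‖ := by rw [ip_Λ G hip]; exact norm_inner_le_norm _ _
          _ ≤ ‖u‖ * (C * ‖G.Λ u‖) := by gcongr
          _ = _ := by ring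
      rcases (norm_nonneg (G.Λ u)).eq_or_lt with h0 | h0
      · rw [← h0]; positivity
      · exact le_of_mul_le_mul_right h3 h0
    have h4 : ⟪G.L u, G.L u⟫_ℂ = ⟪G.Λ u, G.Λ u⟫_ℂ - ((p + q - n : ℤ) : ℂ) * ⟪u, u⟫_ℂ := by
      rw [ip_L G hip, ip_Λ G hip, GS.LΛ_apply hu, inner_add_right, inner_smul_right]; ring
    simp only [inner_self_eq_norm_sq_to_K] at h4
    have h5 : ‖G.L u‖ ^ 2 = ‖G.Λ u‖ ^ 2 - ((p + q - n : ℤ) : ℝ) * ‖u‖ ^ 2 := by
      have : ((‖G.L u‖ ^ 2 : ℝ) : ℂ) =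
          ((‖G.Λ u‖ ^ 2 - ((p + q - n : ℤ) : ℝ) * ‖u‖ ^ 2 : ℝ) : ℂ) := by
        push_cast at h4 ⊢; exact h4
      exact_mod_cast this
    have h6 : -(n : ℝ) ≤ ((p + q - n : ℤ) : ℝ) := by
      have : -(n : ℤ) ≤ p + q - n := by omega
      exact_mod_cast this
    refine abs_le_of_sq_le_sq' ?_ (by positivity) |>.2
    have h7 : ‖G.Λ u‖ ^ 2 ≤ (C * ‖u‖) ^ 2 := by gcongr
    have hn : (0 : ℝ) ≤ n := Nat.cast_nonneg n
    have h8 : 0 ≤ ‖u‖ ^ 2 := sq_nonneg _
    have h9 : C ^ 2 + n ≤ (C + n + 1) ^ 2 := by nlinarith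
    calc ‖G.L u‖ ^ 2 ≤ (C ^ 2 + n) * ‖u‖ ^ 2 := by nlinarith
      _ ≤ (C + n + 1) ^ 2 * ‖u‖ ^ 2 := by gcongr
      _ = _ := by ring

theorem bd_L : Bd G.L := by
  obtain ⟨C, hC0, hC⟩ := bd_L_ty G hip (n + 1)
  refine ⟨∑ _x ∈ box n, C, fun u => ?_⟩
  conv_lhs => rw [← G.sum_pr u, map_sum]
  rw [Finset.sum_mul]
  refine (norm_sum_le _ _).trans (Finset.sum_le_sum fun x hx => ?_)
  have hb := (mem_box (p := x.1) (q := x.2)).1 hx
  refine (hC _ _ (by push_cast; omega) _ (G.ty_pr _ _ u)).trans ?_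
  gcongr
  exact norm_pr G hip _ _ u

theorem bd_Λ : Bd G.Λ := bd_of_adj (bd_L G hip) (ip_Λ G hip)

theorem energy (u : S) : ‖G.del u‖ ^ 2 + ‖G.dels u‖ ^ 2 = ‖G.db u‖ ^ 2 + ‖G.dbs u‖ ^ 2 := by
  have h : ⟪u, G.del (G.dels u) + G.dels (G.del u)⟫_ℂ = ⟪u, G.db (G.dbs u) + G.dbs (G.db u)⟫_ℂ := by
    rw [G.lap u]
  rw [inner_add_right, inner_add_right, ← ip_dels G hip u, ← ip_del G hip u, ← ip_dbs G hip u,
    ← ip_db G hip u] at h
  simp only [inner_self_eq_norm_sq_to_K] at h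
  have : ((‖G.dels u‖ ^ 2 + ‖G.del u‖ ^ 2 : ℝ) : ℂ) = ((‖G.dbs u‖ ^ 2 + ‖G.db u‖ ^ 2 : ℝ) : ℂ) := by
    push_cast; exact h
  have := ofReal_injective this
  linarith

omit hip in
/-- approximately harmonic sequences -/
def AH (u : ℕ → S) : Prop :=
  Tendsto (fun m => G.db (u m)) atTop (𝓝 0) ∧ Tendsto (fun m => G.dbs (u m)) atTop (𝓝 0)

theorem AH.del {u : ℕ → S} (h : G.AH u) : Tendsto (fun m => G.del (u m)) atTop (𝓝 0) ∧
    Tendsto (fun m => G.dels (u m)) atTop (𝓝 0) := by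
  have h1 := tendsto_zero_iff_norm_tendsto_zero.1 h.1
  have h2 := tendsto_zero_iff_norm_tendsto_zero.1 h.2
  have h3 : Tendsto (fun m => ‖G.db (u m)‖ + ‖G.dbs (u m)‖) atTop (𝓝 0) := by
    simpa using h1.add h2
  constructor <;> rw [tendsto_zero_iff_norm_tendsto_zero] <;>
    refine squeeze_zero (fun _ => norm_nonneg _) (fun m => ?_) h3 <;>
    refine (abs_le_of_sq_le_sq' ?_ (by positivity)).2 <;>
    nlinarith [energy G hip (u m), norm_nonneg (G.db (u m)), norm_nonneg (G.dbs (u m)),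
      sq_nonneg ‖G.del (u m)‖, sq_nonneg ‖G.dels (u m)‖]

theorem AH.pr {u : ℕ → S} (h : G.AH u) (p q : ℤ) : G.AH fun m => G.pr p q (u m) := by
  constructor
  · simp only [G.sh_db.apply]; exact (bd_pr G hip _ _).tendsto h.1
  · simp only [G.sh_dbs.apply]; exact (bd_pr G hip _ _).tendsto h.2

theorem AH.L {u : ℕ → S} (h : G.AH u) : G.AH fun m => G.L (u m) := by
  constructor
  · simp only [← G.L_db]; exact (bd_L G hip).tendsto h.1
  · simp only [G.dbs_L]
    simpa using ((bd_L G hip).tendsto h.2).add ((h.del G hip).1.const_smul I)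

theorem AH.Λ {u : ℕ → S} (h : G.AH u) : G.AH fun m => G.Λ (u m) := by
  constructor
  · simp only [G.db_Λ]
    simpa using ((bd_Λ G hip).tendsto h.1).add ((h.del G hip).2.const_smul I)
  · simp only [G.dbs_Λ]; exact (bd_Λ G hip).tendsto h.2

theorem AH.cj {u : ℕ → S} (h : G.AH u) : G.AH fun m => G.cj (u m) := by
  constructor
  · simp only [← G.cj_del]; exact (bd_cj G hip).tendsto (h.del G hip).1
  · simp only [← G.cj_dels]; exact (bd_cj G hip).tendsto (h.del G hip).2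

omit hip in
/-- the isometric embedding in the completion -/
abbrev ι (S : Type*) [NormedAddCommGroup S] [InnerProductSpace ℂ S] :
    S →ₗᵢ[ℂ] UniformSpace.Completion S := UniformSpace.Completion.toComplₗᵢ

omit hip in
/-- harmonic elements of the completion -/
def Har : Submodule ℂ (UniformSpace.Completion S) where
  carrier := {h | ∃ u : ℕ → S, G.AH u ∧ Tendsto (fun m => ι S (u m)) atTop (𝓝 h)}
  add_mem' := by
    rintro h h' ⟨u, ⟨a1, a2⟩, a3⟩ ⟨v, ⟨b1, b2⟩, b3⟩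
    refine ⟨fun m => u m + v m, ⟨?_, ?_⟩, ?_⟩
    · simpa using a1.add b1
    · simpa using a2.add b2
    · simpa only [map_add] using a3.add b3
  zero_mem' := ⟨fun _ => 0, ⟨by simp, by simp⟩, by simp⟩
  smul_mem' := by
    rintro c h ⟨u, ⟨a1, a2⟩, a3⟩
    refine ⟨fun m => c • u m, ⟨?_, ?_⟩, ?_⟩
    · simpa using a1.const_smul c
    · simpa using a2.const_smul c
    · simpa only [map_smul] using a3.const_smul c

omit hip in
/-- elements without harmonic part -/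
def NN : Submodule ℂ S := (G.Harᗮ).comap (ι S).toLinearMap

omit hip in
theorem mem_NN {a : S} : a ∈ G.NN ↔ ∀ h ∈ G.Har, ⟪h, ι S a⟫_ℂ = 0 := Iff.rfl

omit hip in
theorem mem_NN_iff {a : S} : a ∈ G.NN ↔ ∀ u : ℕ → S, G.AH u → CauchySeq u →
    Tendsto (fun m => ⟪u m, a⟫_ℂ) atTop (𝓝 0) := by
  rw [mem_NN]
  constructor
  · intro H u hu hc
    obtain ⟨h, hh⟩ := cauchySeq_tendsto_of_complete
      ((ι S).isometry.uniformContinuous.comp_cauchySeq hc)
    have := hh.inner (𝕜 := ℂ) (tendsto_const_nhds (x := ι S a))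
    rw [H h ⟨u, hu, hh⟩] at this
    simpa only [Function.comp, LinearIsometry.inner_map_map] using this
  · rintro H h ⟨u, hu, hh⟩
    have hc : CauchySeq u := by
      have := hh.cauchySeq
      rw [Metric.cauchySeq_iff] at this ⊢
      simpa only [(ι S).isometry.dist_eq] using this
    have := hh.inner (𝕜 := ℂ) (tendsto_const_nhds (x := ι S a))
    simp only [LinearIsometry.inner_map_map] at this
    exact tendsto_nhds_unique this (H u hu hc)

omit hip in
theorem stab {T T' : Module.End ℂ S} (hb : Bd T') (ha : ∀ u v, ⟪T' u, v⟫_ℂ = ⟪u, T v⟫_ℂ)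
    (hh : ∀ u, G.AH u → G.AH fun m => T' (u m)) : G.NN ≤ G.NN.comap T := by
  intro a hA
  rw [Submodule.mem_comap, mem_NN_iff]
  intro u hu hc
  simp only [← ha]
  exact G.mem_NN_iff.1 hA _ (hh u hu) (hb.continuous.comp_cauchySeq hc)

theorem cj_NN {a : S} (hA : a ∈ G.NN) : G.cj a ∈ G.NN := by
  rw [mem_NN_iff]
  intro u hu hc
  have := G.mem_NN_iff.1 hA _ (hu.cj G hip) ((bd_cj G hip).continuous.comp_cauchySeq hc)
  have h2 := (continuous_conj.tendsto _).comp this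
  rw [map_zero] at h2
  refine h2.congr fun m => ?_
  simp only [Function.comp]
  rw [← ip_cj G hip, G.cj_cj]

theorem db_NN (y : S) : G.db y ∈ G.NN := by
  rw [mem_NN_iff]
  intro u hu _
  simp only [← ip_dbs G hip]
  simpa using hu.2.inner (𝕜 := ℂ) (tendsto_const_nhds (x := y))

theorem har_zero {H K : Module.End ℂ S} (h1 : ∀ u, u - H u = G.db (K u) + K (G.db u))
    (hK : Bd K) {h : UniformSpace.Completion S} (hh : h ∈ G.Har)
    (h0 : ∀ x, ⟪h, ι S (H x)⟫_ℂ = 0) : h = 0 := by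
  obtain ⟨u, hu, hl⟩ := id hh
  have e1 : Tendsto (fun m => ⟪h, ι S (u m)⟫_ℂ) atTop (𝓝 ⟪h, h⟫_ℂ) := tendsto_const_nhds.inner hl
  have e2 : ∀ m, ⟪h, ι S (u m)⟫_ℂ = ⟪h, ι S (K (G.db (u m)))⟫_ℂ := by
    intro m
    have : u m = H (u m) + G.db (K (u m)) + K (G.db (u m)) := by rw [add_assoc, ← h1]; abel
    conv_lhs => rw [this]
    rw [map_add, map_add, inner_add_right, inner_add_right, h0, G.mem_NN.1 (db_NN G hip _) h hh]
    simp
  have e3 : Tendsto (fun m => ι S (K (G.db (u m)))) atTop (𝓝 0) := by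
    have := ((ι S).continuous.tendsto 0).comp (hK.tendsto hu.1)
    rwa [map_zero] at this
  have e4 := (tendsto_const_nhds (x := h)).inner (𝕜 := ℂ) e3
  simp only [← e2, inner_zero_right] at e4
  exact inner_self_eq_zero.1 (tendsto_nhds_unique e1 e4)

theorem isN_NN {H K : Module.End ℂ S} (h1 : ∀ u, u - H u = G.db (K u) + K (G.db u))
    (h2 : ∀ u, G.db (H u) = 0) (h3 : ∀ u, H (G.db u) = 0)
    [FiniteDimensional ℂ (LinearMap.range H)] (hH : Bd H) (hK : Bd K)
    (hap : ∀ z, G.db z = 0 → ∃ y c : ℕ → S, CauchySeq c ∧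
      Tendsto (fun m => c m - (z - G.db (y m))) atTop (𝓝 0) ∧ G.AH c) : IsN G G.NN := by
  -- harmonic part of a closed element
  have hpart : ∀ z, G.db z = 0 → ∃ h ∈ G.Har, ∃ y : ℕ → S,
      Tendsto (fun m => ι S (G.db (y m))) atTop (𝓝 (ι S z - h)) := by
    intro z hz
    obtain ⟨y, c, hc, hl, ha⟩ := hap z hz
    obtain ⟨h, hh⟩ := cauchySeq_tendsto_of_complete
      ((ι S).isometry.uniformContinuous.comp_cauchySeq hc)
    refine ⟨h, ⟨c, ha, hh⟩, y, ?_⟩
    have e := ((ι S).continuous.tendsto 0).comp hl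
    have := (e.add (tendsto_const_nhds (x := ι S z))).sub hh
    rw [map_zero, zero_add] at this
    refine this.congr fun m => ?_
    simp only [Function.comp, map_sub]; abel
  have hperp : ∀ {z h : UniformSpace.Completion S} {y : ℕ → S},
      Tendsto (fun m => ι S (G.db (y m))) atTop (𝓝 z) → (∀ y, ⟪h, ι S (G.db y)⟫_ℂ = 0) →
      ⟪h, z⟫_ℂ = 0 := by
    intro z h y hy h0
    have := (tendsto_const_nhds (x := h)).inner (𝕜 := ℂ) hy
    simp only [h0] at this
    exact tendsto_nhds_unique this tendsto_const_nhds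
  let F : Submodule ℂ (UniformSpace.Completion S) := (LinearMap.range H).map (ι S).toLinearMap
  have hfin : FiniteDimensional ℂ G.Har := by
    refine FiniteDimensional.of_injective
      ((F.orthogonalProjectionOnto : _ →ₗ[ℂ] F) ∘ₗ G.Har.subtype) ?_
    rw [injective_iff_map_eq_zero]
    intro h hh
    have : h.1 ∈ Fᗮ := Submodule.orthogonalProjectionOnto_eq_zero_iff.1 hh
    refine Subtype.ext (har_zero G hip h1 hK h.2 fun x => ?_)
    exact Submodule.inner_left_of_mem_orthogonal (K := F) ⟨H x, ⟨x, rfl⟩, rfl⟩ this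
  have hrep : ∀ u, ∃ x, u - H x ∈ G.NN := by
    intro u
    let f : S →ₗ[ℂ] G.Har := (G.Har.orthogonalProjectionOnto : _ →ₗ[ℂ] G.Har) ∘ₗ (ι S).toLinearMap ∘ₗ H
    have hf : LinearMap.range f = ⊤ := by
      rw [← Submodule.orthogonal_eq_bot_iff, Submodule.eq_bot_iff]
      intro h hh
      refine Subtype.ext (har_zero G hip h1 hK h.2 fun x => ?_)
      have := Submodule.inner_left_of_mem_orthogonal (LinearMap.mem_range_self f x) hh
      rw [← this]
      exact (Submodule.inner_orthogonalProjectionOnto_eq_of_mem_left h (ι S (H x))).symm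
    obtain ⟨x, hx⟩ := LinearMap.range_eq_top.1 hf (G.Har.orthogonalProjectionOnto (ι S u))
    refine ⟨x, ?_⟩
    change ι S (u - H x) ∈ G.Harᗮ
    rw [← Submodule.orthogonalProjectionOnto_eq_zero_iff, map_sub, map_sub, sub_eq_zero]
    exact hx.symm
  refine ⟨fun p q => G.stab (bd_pr G hip p q) (ip_pr G hip p q) fun u hu => hu.pr G hip p q,
    G.stab (bd_Λ G hip) (ip_Λ G hip) fun u hu => hu.Λ G hip,
    G.stab (bd_L G hip) (ip_L G hip) fun u hu => hu.L G hip,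
    fun u hu => cj_NN G hip hu, db_NN G hip, fun z hN hz => ?_,
    fun u => (hrep u).elim fun x hx => ⟨H x, h2 x, hx⟩, ?_, fun z t hz ht hzt hN => ?_⟩
  · obtain ⟨h, hh, y, hy⟩ := hpart z hz
    have e := hperp hy fun y => db_NN G hip y h hh
    rw [inner_sub_right, G.mem_NN.1 hN h hh, zero_sub, neg_eq_zero, inner_self_eq_zero] at e
    rw [e, sub_zero] at hy
    have hy' : Tendsto (fun m => G.db (y m) - z) atTop (𝓝 0) := by
      rw [tendsto_iff_norm_sub_tendsto_zero] at hy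
      rw [tendsto_zero_iff_norm_tendsto_zero]
      simpa only [← map_sub, LinearIsometry.norm_map] using hy
    have := hH.tendsto hy'
    simp only [map_sub, h3, zero_sub] at this
    have hz0 : H z = 0 := neg_eq_zero.1 (tendsto_nhds_unique tendsto_const_nhds this)
    have := h1 z
    rw [hz0, hz, map_zero, sub_zero, add_zero] at this
    exact ⟨K z, this.symm⟩
  · refine Module.Finite.of_surjective (G.NN.mkQ ∘ₗ (LinearMap.range H).subtype) fun q => ?_
    obtain ⟨u, rfl⟩ := G.NN.mkQ_surjective q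
    obtain ⟨x, hx⟩ := hrep u
    exact ⟨⟨H x, x, rfl⟩, ((Submodule.Quotient.eq _).2 hx).symm⟩
  · obtain ⟨h, hh, y, hy⟩ := hpart z hz
    have e1 := hperp (h := ι S t) hy fun y => by rw [LinearIsometry.inner_map_map, hip, ht]
    have e2 := hperp hy fun y => db_NN G hip y h hh
    have e3 := G.mem_NN.1 hzt h hh
    rw [inner_sub_right, sub_eq_zero, LinearIsometry.inner_map_map] at e1
    rw [inner_sub_right, sub_eq_zero] at e2
    rw [map_sub, inner_sub_right, sub_eq_zero] at e3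
    have h0 : h ≠ 0 := by
      rintro rfl
      rw [sub_zero] at hy
      exact hN fun h' hh' => hperp hy fun y => db_NN G hip y h' hh'
    rw [← hip, e1, ← inner_conj_symm, ← e3, e2, inner_conj_symm, inner_self_eq_norm_sq_to_K]
    have := norm_pos_iff.2 h0
    exact pow_pos (Complex.zero_lt_real.2 this) 2

end KA

end analysis

/-- the inner product of a Kaehler package -/
@[reducible] def KP.core {n : ℕ} {S : Type*} [AddCommGroup S] [Module ℂ S] (G : KP n S) :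
    InnerProductSpace.Core ℂ S where
  inner v u := G.hp u v
  conj_inner_symm u v := (G.herm u v).symm
  re_inner_nonneg u := by
    by_cases h : u = 0
    · simp [h, PS.hp_zero_left]
    · exact (Complex.pos_iff.1 (G.pos u h)).1.le
  add_left u v w := G.hp_add_right _ _ _
  smul_left u v c := G.hp_smul_right _ _ _
  definite u h := by
    by_contra h0
    exact (G.pos u h0).ne' h

/-- **the harmonic projection**, in terms of its kernel -/
theorem KP.exists_N {n : ℕ} {S : Type*} [AddCommGroup S] [Module ℂ S] (G : KP n S) :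
    ∃ N, IsN G.toKA N := by
  letI : NormedAddCommGroup S := G.core.toNormedAddCommGroup
  letI : InnerProductSpace ℂ S := .ofCore G.core.toCore
  have n0 : ∀ u : S, G.toKA.nrm u = ‖u‖ := fun u => rfl
  obtain ⟨H, K, C, h1, h2, h3, h4, h5, h6⟩ := G.htpy
  refine ⟨_, KA.isN_NN G.toKA (fun _ _ => rfl) h1 h2 h3 ⟨C, h5⟩ ⟨C, h6⟩ fun z hz => ?_⟩
  obtain ⟨y, c, a1, a2, a3, a4⟩ := G.approx z hz
  simp only [n0] at a1 a2 a3 a4
  refine ⟨y, c, ?_, tendsto_zero_iff_norm_tendsto_zero.2 a2,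
    tendsto_zero_iff_norm_tendsto_zero.2 a3, tendsto_zero_iff_norm_tendsto_zero.2 a4⟩
  rw [Metric.cauchySeq_iff]
  simpa only [dist_eq_norm] using a1

end

end Crest.Agent.X262.Kah
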