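import Crest.Agent.X262.Kah.BunC
import Crest.Agent.X262.Kah.KP

/-!
# X262 / Kah (helper93), file BunK: from the algebraic package to the Kaehler package

* `Hrm.seq`  : approximately harmonic sequences;
* `Fld P t G` : the operators of `G : KA n (FS A)` are given by fields of endomorphisms;
* `KA.toKP`  : then `G` is a Kaehler package.
-/

set_option autoImplicit false
set_option linter.unusedSectionVars false
set_option linter.unusedVariables false

open Set Filter Topology Complex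
open scoped ContDiff ComplexConjugate Matrix ComplexOrder

namespace Crest.Agent.X262.Kah

open Crest.Agent.R208.F Crest.Agent.R208.CW Crest.Agent.R275.Geo Crest.Agent.X262.Kah.Fib
open Crest.Agent.R275 Crest.Agent.R275.Pai323 Crest.Agent.R273.DnInt_505
open Crest.Agent.R273.Mol_106 Crest.Agent.R273.NormC_505 Crest.Agent.R273.HodgeH_803
open Crest.Agent.R273.KRL2_803 Crest.Agent.R273.L2K_774

noncomputable section

section alg

variable {R R' : Type*} [Ring R] [Algebra ℂ R] [Ring R'] [Algebra ℂ R']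

theorem map_exS (f : R →ₐ[ℂ] R') (N : ℕ) (a : R) : f (exS N a) = exS N (f a) := by
  simp only [exS, map_sum, map_smul, map_pow]

/-- the operator `W` as a polynomial in `L`, `Λ` and the projectors -/
def WW (n : ℕ) (L Λ : R) (pr : ℤ → ℤ → R) : R :=
  exS (n + 1) Λ * exS (n + 1) (-L) * exS (n + 1) Λ * ∑ x ∈ box n, cc n x.1 x.2 • pr x.1 x.2

theorem map_WW (f : R →ₐ[ℂ] R') (n : ℕ) (L Λ : R) (pr : ℤ → ℤ → R) :
    f (WW n L Λ pr) = WW n (f L) (f Λ) fun p q => f (pr p q) := by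
  simp only [WW, map_mul, map_exS, map_neg, map_sum, map_smul]

theorem GS.W_eq {n : ℕ} {V : Type*} [AddCommGroup V] [Module ℂ V] (G : GS n V) :
    G.W = WW n G.L G.Λ G.pr := by
  have h1 : G.Λ ^ (n + 1) = 0 := G.sh_Λ.nil (by norm_num)
  have h2 : (-G.L) ^ (n + 1) = 0 := by rw [neg_pow, G.sh_L.nil one_ne_zero, mul_zero]
  rw [GS.W, GS.w, wey, ex_eq h1, ex_eq h2]
  rfl

end alg

variable {n : ℕ} {M : Type} [TopologicalSpace M] {A : Atl n M}
variable [T2Space M] [Finite A.ι]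

/-- **approximately harmonic sequences** -/
theorem Hrm.seq [CompactSpace M] {t : Tp n} (h : Hrm A t) (P : Part A)
    {ds : Module.End ℂ (FS A)} (hds : Ord1 ds)
    (hadj : ∀ u w, h.hp P (dbF A u) w = h.hp P u (ds w)) (z : FS A) (hz : dbF A z = 0) :
    ∃ y c : ℕ → FS A, (∀ ε > 0, ∃ N, ∀ m ≥ N, ∀ m' ≥ N, h.nr P (c m - c m') < ε) ∧
      Tendsto (fun m => h.nr P (c m - (z - dbF A (y m)))) atTop (𝓝 0) ∧
      Tendsto (fun m => h.nr P (dbF A (c m))) atTop (𝓝 0) ∧
      Tendsto (fun m => h.nr P (ds (c m))) atTop (𝓝 0) := by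
  obtain ⟨D, hD⟩ := hds
  have hp := h.den_pos
  obtain ⟨C1, h10, h1⟩ := sn_JN_le P h.den hp
  obtain ⟨C2, h20, h2⟩ := (FOp.nab (BA A)).sn_comm_le P h.den hp h.den
  obtain ⟨C3, h30, h3⟩ := D.sn_comm_le P h.den hp h.den
  have hmax : ∀ {C a b : ℝ}, a ≤ C * b → 0 ≤ b → C ≤ max C1 (max C2 C3) →
      a ≤ max C1 (max C2 C3) * b := fun hab hb hC => hab.trans (mul_le_mul_of_nonneg_right hC hb)
  have hadj' : ∀ u w : Sec (BA A), h.den.ip P (nabL (BA A) u).1 w.1 = h.den.ip P u.1 (D.T w).1 := by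
    intro u w
    obtain ⟨u, rfl⟩ := (eS A).surjective u
    obtain ⟨w, rfl⟩ := (eS A).surjective w
    rw [nab_eS, hD, ← Hrm.hp_eq, ← Hrm.hp_eq, Hrm.hp_herm, hadj, ← Hrm.hp_herm]
  obtain ⟨y, c, -, k1, k2, -, k3, k4, -⟩ := Crest.Agent.R273.AbsStep392.exists_seq_core
    (h.den.core P hp) (h.den.core P hp) (h.den.core P hp)
    (nabL (BA A)) (nabL (BA A)) D.T hadj' nab_sq (JN P (BA A)) (JN P (BA A)) (JN P (BA A))
    (max C1 (max C2 C3))
    (fun N u => hmax (h1 N u) (h.den.sn_nonneg P u) (le_max_left _ _))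
    (fun u => tendsto_sn_JN P h.den u)
    (fun N u => hmax (h2 N u) (h.den.sn_nonneg P u) ((le_max_left _ _).trans (le_max_right _ _)))
    (fun u => (FOp.nab (BA A)).tendsto_sn_comm P h.den u)
    (fun N u => hmax (h3 N u) (h.den.sn_nonneg P u) ((le_max_right _ _).trans (le_max_right _ _)))
    (fun u => D.tendsto_sn_comm P h.den u)
    (fun N => JN_finite P h.den hp N) (eS A z) (by rw [nab_eS, hz, map_zero])
  refine ⟨fun m => (eS A).symm (y m), fun m => (eS A).symm (c m), ?_, ?_, ?_, ?_⟩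
  · simp only [Hrm.nr_eq, map_sub, LinearEquiv.apply_symm_apply]; exact k1
  · simp only [Hrm.nr_eq, map_sub, ← nab_eS, LinearEquiv.apply_symm_apply]; exact k2
  · simp only [Hrm.nr_eq, ← nab_eS, LinearEquiv.apply_symm_apply]; exact k3
  · simp only [Hrm.nr_eq, ← hD, LinearEquiv.apply_symm_apply]; exact k4

/-- the operators of `G` are given by fields of endomorphisms, positive at every point -/
structure Fld (P : Part A) (t : Tp n) (G : KA n (FS A)) where
  Lf : EF A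
  Lamf : EF A
  prf : ℤ → ℤ → EF A
  L : G.L = EF.op A Lf
  Lam : G.Λ = EF.op A Lamf
  pr : ∀ p q, G.pr p q = EF.op A (prf p q)
  db : G.db = dbF A
  del : G.del = dlF A
  cj : ∀ u, G.cj u = cjF A u
  β : ∀ u v, G.β u v = IntF P t (u * v)
  fib : ∀ i, ∀ z ∈ (A.e i).target, ∃ F : PS n (Fb n), F.L = Lf.1 i z ∧ F.Λ = Lamf.1 i z ∧
    (∀ p q, F.pr p q = (prf p q).1 i z) ∧ (∀ c, F.cj c = Cx.conj c) ∧
    (∀ c c', F.β c c' = t.t (c * c')) ∧ (∀ c c', F.hp c' c = conj (F.hp c c')) ∧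
    ∀ c, c ≠ 0 → 0 < F.hp c c

namespace Fld

variable {P : Part A} {t : Tp n} {G : KA n (FS A)} (h : Fld P t G)

/-- the field of the operator `W` -/
def Wf : EF A := WW n h.Lf h.Lamf h.prf

theorem W_eq : G.W = EF.op A h.Wf := by
  refine Eq.trans ?_ (map_WW (EF.op A) n h.Lf h.Lamf h.prf).symm
  rw [GS.W_eq, ← h.L, ← h.Lam]
  congr 1
  funext p q
  exact h.pr p q

theorem exists_fib {i : A.ι} {z : Cn n} (hz : z ∈ (A.e i).target) : ∃ F : PS n (Fb n),
    (∀ c c', F.hp c c' = t.t (c * Cx.conj (h.Wf.1 i z c'))) ∧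
    (∀ c c', F.hp c' c = conj (F.hp c c')) ∧ ∀ c, c ≠ 0 → 0 < F.hp c c := by
  obtain ⟨F, h1, h2, h3, h4, h5, h6, h7⟩ := h.fib i z hz
  refine ⟨F, fun c c' => ?_, h6, h7⟩
  have : F.W = h.Wf.1 i z := by
    refine Eq.trans ?_ (map_WW (EF.ev (A := A) i z) n h.Lf h.Lamf h.prf).symm
    rw [GS.W_eq, h1, h2]
    congr 1
    funext p q
    exact h3 p q
  rw [PS.hp, h5, h4, this]

/-- the Hermitian field -/
def hrm : Hrm A t where
  S := h.Wf
  herm i z hz c c' := by
    obtain ⟨F, h1, h2, -⟩ := h.exists_fib hz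
    rw [← h1, ← h1, h2]
  pos i z hz c hc := by
    obtain ⟨F, h1, -, h3⟩ := h.exists_fib hz
    rw [← h1]
    exact h3 c hc

theorem hp_eq (u v : FS A) : G.hp u v = h.hrm.hp P u v := by
  rw [PS.hp, h.β, h.cj, h.W_eq]
  rfl

theorem nrm_eq (u : FS A) : G.nrm u = h.hrm.nr P u := by rw [KA.nrm, h.hp_eq]; rfl

include h in
theorem ord1_dbs : Ord1 G.dbs := by
  rw [KA.dbs, h.Lam, h.del]
  exact ((Ord1.dlF.ef_left _).sub (Ord1.dlF.ef_right _)).smul _

end Fld

/-- **the Kaehler package** -/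
def KA.toKP [CompactSpace M] {P : Part A} {t : Tp n} (G : KA n (FS A)) (h : Fld P t G) :
    KP n (FS A) where
  toKA := G
  herm u v := by rw [h.hp_eq, h.hp_eq, Hrm.hp_herm]
  pos u hu := by
    rw [h.hp_eq]
    refine Complex.pos_iff.2 ⟨lt_of_le_of_ne (h.hrm.hp_nonneg P u) fun h0 => hu ?_, ?_⟩
    · exact h.hrm.eq_zero P h0.symm
    · exact (conj_eq_iff_im.1 (h.hrm.hp_herm P u u).symm).symm
  htpy := by
    obtain ⟨H, K, h1, h2, h3, h4, C, -, h5⟩ := h.hrm.htpy P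
    simp only [h.nrm_eq, h.db]
    exact ⟨H, K, C, h1, h2, h3, h4, fun u => (h5 u).1, fun u => (h5 u).2⟩
  approx := by
    simp only [h.nrm_eq, h.db]
    exact h.hrm.seq P h.ord1_dbs fun u w => by rw [← h.hp_eq, ← h.hp_eq, ← h.db, G.hp_db]

theorem KA.toKP_toKA [CompactSpace M] {P : Part A} {t : Tp n} (G : KA n (FS A)) (h : Fld P t G) :
    (G.toKP h).toKA = G := rfl

end

end Crest.Agent.X262.Kah
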