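import Crest.Agent.X262.Kah.BunD1
import Crest.Agent.X262.Kah.BunK

/-!
# X262 / Kah (helper60), file BunE: the Kaehler package of a compact Kaehler manifold

* `K.kp P : KP n (FS A)` for a closed positive `(1,1)`-form `K : KF A`; `kp P K` for `K : Kah A`.
-/

set_option autoImplicit false
set_option linter.unusedSectionVars false
set_option linter.unusedVariables false

open Set Complex
open scoped ComplexConjugate ComplexOrder

namespace Crest.Agent.X262.Kah

open Crest.Agent.R208.F Crest.Agent.R208.CW Crest.Agent.R275.Geo Crest.Agent.X262.Kah.Fib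

noncomputable section

variable {n : ℕ} {M : Type} [TopologicalSpace M] {A : Atl n M}

/-- pointwise type of a form -/
def TyF (p q : ℕ) (u : FS A) : Prop := ∀ i, ∀ z ∈ (A.e i).target, u.1 i z ∈ Ty p q

theorem TyF.mul {p q p' q' : ℕ} {u v : FS A} (hu : TyF p q u) (hv : TyF p' q' v) :
    TyF (p + p') (q + q') (u * v) := fun i z hz => Ty.mul (hu i z hz) (hv i z hz)

theorem TyF.one : TyF 0 0 (1 : FS A) := fun i z hz => by rw [FS.one_apply hz]; exact one_mem_Ty

theorem TyF.cj {p q : ℕ} {u : FS A} (hu : TyF p q u) : TyF q p (cjF A u) :=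
  fun i z hz => Ty.conj_mem (hu i z hz)

theorem prF_mul {p q p' q' : ℤ} {u v : FS A} (hu : EF.op A (prF A p q) u = u)
    (hv : EF.op A (prF A p' q') v = v) : EF.op A (prF A (p + p') (q + q')) (u * v) = u * v :=
  FS.ext' fun i z _ => by
    have h1 : prZ p q (u.1 i z) = u.1 i z := congrArg (fun w : FS A => w.1 i z) hu
    have h2 : prZ p' q' (v.1 i z) = v.1 i z := congrArg (fun w : FS A => w.1 i z) hv
    rw [prF_apply, FS.mul_apply]
    rcases prZ_cases p q (u.1 i z) with h | ⟨a, b, rfl, rfl, h⟩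
    · rw [← h1, h, zero_mul, map_zero]
    rcases prZ_cases p' q' (v.1 i z) with h' | ⟨c, d, rfl, rfl, h'⟩
    · rw [← h2, h', mul_zero, map_zero]
    rw [h1] at h
    rw [h2] at h'
    rw [prZ_of_mem (Ty.mul h h'), if_pos ⟨by push_cast; rfl, by push_cast; rfl⟩]

namespace KF

variable (K : KF A) [T2Space M] [Finite A.ι] (P : Part A)

/-- the operators of `kaA` are fields -/
def fld : Fld P (tpT n) (K.kaA P) where
  Lf := K.LF
  Lamf := K.LamF
  prf := prF A
  L := rfl
  Lam := rfl
  pr _ _ := rfl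
  db := rfl
  del := rfl
  cj _ := rfl
  β _ _ := rfl
  fib i z hz := ⟨(fib n).ps (K.pos i z hz), rfl, rfl, fun _ _ => rfl, fun _ => rfl, fun _ _ => rfl,
    (fib n).hp_herm _, fun _ hc => (fib n).hp_pos _ hc⟩

variable [CompactSpace M]

/-- **the Kaehler package of smooth forms** -/
def kp : KP n (FS A) := (K.kaA P).toKP (K.fld P)

theorem kp_toKA : (K.kp P).toKA = K.kaA P := rfl
theorem kp_pr (p q : ℤ) : (K.kp P).pr p q = EF.op A (prF A p q) := rfl
theorem kp_L (u : FS A) : (K.kp P).L u = K.om * u := K.LF_apply u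
theorem kp_L_pow (k : ℕ) (u : FS A) : ((K.kp P).L ^ k) u = K.om ^ k * u := K.kaA_L_pow P k u
theorem kp_del : (K.kp P).del = dlF A := rfl
theorem kp_db : (K.kp P).db = dbF A := rfl
theorem kp_d (u : FS A) : (K.kp P).d u = dF A u := (dF_eq u).symm
theorem kp_d' : (K.kp P).d = dF A := LinearMap.ext (K.kp_d P)
theorem kp_cj (u : FS A) : (K.kp P).cj u = cjF A u := rfl
theorem kp_β (u v : FS A) : (K.kp P).β u v = IntF P (tpT n) (u * v) := rfl
theorem kp_par (u : FS A) : (K.kp P).par u = invF A u := K.gsA_par u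
theorem kp_Ty {p q : ℕ} {u : FS A} : (K.kp P).Ty p q u ↔ TyF p q u := prF_eq_iff

theorem kp_ty_mul {p q p' q' : ℤ} {u v : FS A} (hu : (K.kp P).Ty p q u)
    (hv : (K.kp P).Ty p' q' v) : (K.kp P).Ty (p + p') (q + q') (u * v) := prF_mul hu hv

theorem kp_ty_one : (K.kp P).Ty 0 0 1 := (K.kp_Ty P (p := 0) (q := 0)).2 TyF.one

end KF

/-- the Kaehler package of a Kaehler metric -/
def kp [T2Space M] [Finite A.ι] [CompactSpace M] (P : Part A)
    (K : Crest.Agent.R273.Kah_333.Kah A) : KP n (FS A) := (KF.ofKah K).kp P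

end

end Crest.Agent.X262.Kah
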