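import Crest.Agent.X262.Kah.Cls
import Crest.Agent.X262.Kah.BrgA
import Crest.Agent.X262.Kah.BunE
import Crest.Agent.R208.CW1c

/-!
# X262 / Kah (helper20), file ClsH: Hodge types of de Rham classes

* `typH ε p q` : classes in `H ε.X` of closed forms of type `(p,q)`; `typH_mul`, `typH_conj`,
  `typH_map`, `typH_odd`, `typH_gt` (no Kaehler condition);
* `Cmp G ω`    : the Kaehler package `G` is the one of the forms with Kaehler form `ω`;
* `Cmp.cl`, `Cmp.typ_int`, `Cmp.hl`, `Cmp.hr`, `Cmp.pd`, `Cmp.fin`;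
* `KF.w`, `KF.typ_int`, `KF.hl`, `KF.hr`, `KF.pd`, `KF.fin` : the same for a Kaehler form.
-/

set_option autoImplicit false
set_option linter.unusedSectionVars false

open Set Filter Topology Function
open scoped ContDiff ComplexConjugate

noncomputable section

namespace Crest.Agent.X262.Kah

open Crest.Agent.R208.F Crest.Agent.R208.FI Crest.Agent.R208.CW
open Crest.Agent.R275.Geo (Cn RI rc Atl)
open Crest.Agent.R273.Map_835 (HolMap rd dm)
open Crest.Agent.X262.Man (Emb)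

variable {n m : ℕ} {M N : Type} [TopologicalSpace M] [TopologicalSpace N] {A : Atl n M}
  {B : Atl m N}

namespace TyF

variable {p q p' q' : ℕ} {u v : FS A}

theorem zero (p q : ℕ) : TyF p q (0 : FS A) := fun _ _ _ => zero_mem _
theorem add (h : TyF p q u) (h' : TyF p q v) : TyF p q (u + v) :=
  fun i z hz => add_mem (h i z hz) (h' i z hz)
theorem sub (h : TyF p q u) (h' : TyF p q v) : TyF p q (u - v) :=
  fun i z hz => sub_mem (h i z hz) (h' i z hz)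
theorem smul (c : ℂ) (h : TyF p q u) : TyF p q (c • u) :=
  fun i z hz => Submodule.smul_mem _ c (h i z hz)
theorem eq_zero (h : TyF p q u) (ho : n < p ∨ n < q) : u = 0 :=
  FS.ext' fun i z hz => Fib.Ty.eq_zero (h i z hz) ho
theorem inv (h : TyF p q u) : invF A u = (-1 : ℂ) ^ (p + q) • u :=
  FS.ext' fun i z hz => Fib.Ty.invC_eq (h i z hz)

/-- it is enough to look at one chart at each point -/
theorem of_local
    (h : ∀ x : M, ∃ j, x ∈ (A.e j).source ∧ u.1 j (A.e j x) ∈ Fib.Ty p q) : TyF p q u := by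
  intro i z hz
  obtain ⟨j, hj, h1⟩ := h ((A.e i).symm z)
  have hz' : z ∈ A.ov i j := ⟨hz, hj⟩
  rw [u.tr' hz', Dtr_eq hz']
  exact Fib.Ty.pb_mem (fun v => LinearMap.map_smul _ Complex.I v) h1

theorem mem_ZF [CompactSpace M] (h : TyF p q u) (he : Even (p + q)) (hd : dF A u = 0) : u ∈ ZF A :=
  ⟨by rw [h.inv, he.neg_one_pow, one_smul], hd⟩

end TyF

variable {E E' : Type} [NormedAddCommGroup E] [NormedSpace ℝ E] [FiniteDimensional ℝ E]
  [NormedAddCommGroup E'] [NormedSpace ℝ E'] [FiniteDimensional ℝ E']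
  (ε : Emb A E) (ε' : Emb B E') [CompactSpace M]

/-- **classes of type `(p,q)`** -/
def typH (p q : ℕ) : Submodule ℂ (H ε.X) where
  carrier := {c | ∃ u : ZF A, TyF p q u.1 ∧ toH ε u = c}
  add_mem' := by
    rintro _ _ ⟨u, hu, rfl⟩ ⟨v, hv, rfl⟩
    exact ⟨u + v, hu.add hv, map_add _ _ _⟩
  zero_mem' := ⟨0, TyF.zero _ _, map_zero _⟩
  smul_mem' := by
    rintro c _ ⟨u, hu, rfl⟩
    exact ⟨c • u, hu.smul c, map_smul _ _ _⟩

theorem mem_typH {p q : ℕ} {c : H ε.X} :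
    c ∈ typH ε p q ↔ ∃ u : ZF A, TyF p q u.1 ∧ toH ε u = c := Iff.rfl

theorem cls_mem_typH {p q : ℕ} {w : E → CF E} (h : w ∈ Z ε.X)
    (ht : ∀ i, ∀ z ∈ (A.e i).target, pullC (ε.par i) w z ∈ Fib.Ty p q) : cls w h ∈ typH ε p q :=
  ⟨_, fun i z hz => by
    change (res0 ε w h.2.1).1 i z ∈ _
    rw [res0_apply ε _ hz]; exact ht i z hz, toH_res ε h⟩

theorem typH_mul {p q p' q' : ℕ} {a b : H ε.X} (ha : a ∈ typH ε p q) (hb : b ∈ typH ε p' q') :
    a * b ∈ typH ε (p + p') (q + q') := by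
  obtain ⟨u, hu, rfl⟩ := ha
  obtain ⟨v, hv, rfl⟩ := hb
  exact ⟨u * v, hu.mul hv, map_mul _ _ _⟩

theorem typH_one : (1 : H ε.X) ∈ typH ε 0 0 := ⟨1, TyF.one, map_one _⟩

theorem typH_odd {p q : ℕ} (h : Odd (p + q)) : typH ε p q = ⊥ := by
  rw [eq_bot_iff]
  rintro _ ⟨u, hu, rfl⟩
  have h1 := hu.inv
  rw [u.2.1, h.neg_one_pow, neg_one_smul, eq_neg_iff_add_eq_zero, ← two_smul ℂ,
    smul_eq_zero] at h1
  rw [show u = 0 from Subtype.ext (h1.resolve_left two_ne_zero), map_zero]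
  exact zero_mem _

theorem typH_out {p q : ℕ} (h : n < p ∨ n < q) : typH ε p q = ⊥ := by
  rw [eq_bot_iff]
  rintro _ ⟨u, hu, rfl⟩
  rw [show u = 0 from Subtype.ext (hu.eq_zero h), map_zero]
  exact zero_mem _

theorem typH_gt {p : ℕ} (q : ℕ) (h : n < p) : typH ε p q = ⊥ := typH_out ε (Or.inl h)

theorem conj_toH (u : ZF A) : H.conj ε.X (toH ε u) = toH ε ⟨cjF A u.1, cjF_mem u.2⟩ := by
  obtain ⟨w, h, e⟩ := H.exists_rep (toH ε u)
  rw [toH_conj ε h e.symm, ← e]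
  rfl

theorem typH_conj {p q : ℕ} {a : H ε.X} (ha : a ∈ typH ε p q) : H.conj ε.X a ∈ typH ε q p := by
  obtain ⟨u, hu, rfl⟩ := ha
  exact ⟨_, hu.cj, (conj_toH ε u).symm⟩

/-- holomorphic maps preserve the types -/
theorem typH_map [CompactSpace N] {f : M → N} (hf : HolMap A B f) {g : E → E'}
    (hg : SMap ε.X ε'.X g) (hj : ∀ y, g (ε.j y) = ε'.j (f y)) {p q : ℕ} {a : H ε'.X}
    (ha : a ∈ typH ε' p q) : H.map hg a ∈ typH ε p q := by
  obtain ⟨u, hu, rfl⟩ := ha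
  obtain ⟨w, h, e⟩ := exists_Z ε' u
  rw [toH_eq ε' h e, H.map_cls]
  refine ⟨_, fun i z hz => ?_, toH_res ε (pullC_mem_Z hg h)⟩
  obtain ⟨k, hk⟩ := exists_dm (B := B) f hz
  have := res0_pull ε ε' hf hg hj h.2.1 hk
  rw [e] at this
  refine this.symm ▸ ?_
  exact Fib.Ty.pb_mem (rd_lin hf hk) (hu k _ ((B.e k).map_source hk.2))

/-- `G` is the Kaehler package of the forms, with Kaehler form `ω` -/
structure Cmp (G : KP n (FS A)) (om : FS A) : Prop where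
  d : ∀ u, G.d u = dF A u
  pr : ∀ (p q : ℤ) (u : FS A) i, ∀ z ∈ (A.e i).target, (G.pr p q u).1 i z = Fib.prZ p q (u.1 i z)
  L : ∀ u, G.L u = om * u
  cj : ∀ u, G.cj u = cjF A u

namespace Cmp

variable {G : KP n (FS A)} {om : FS A} (h : Cmp G om)

include h

theorem ty {p q : ℕ} {u : FS A} : G.Ty p q u ↔ TyF p q u := by
  refine ⟨fun h1 i z hz => Fib.prZ_eq_self_iff.1 ?_, fun h1 => FS.ext' fun i z hz => ?_⟩
  · rw [← h.pr p q u i z hz, h1]
  · rw [h.pr p q u i z hz]; exact Fib.prZ_eq_self_iff.2 (h1 i z hz)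

theorem par (u : FS A) : G.par u = invF A u := FS.ext' fun i z hz => by
  rw [invF_apply, ← Fib.par_apply, GS.par, GS.dg, LinearMap.sum_apply, LinearMap.sum_apply,
    FS.sum_apply]
  exact Finset.sum_congr rfl fun x _ => by
    rw [LinearMap.smul_apply, LinearMap.smul_apply, FS.smul_apply, h.pr _ _ u i z hz]

theorem ex {u : FS A} : G.Ex u ↔ ∃ v, dF A v = u := exists_congr fun v => by rw [h.d]

theorem om_ty : TyF 1 1 om := by
  have := G.sh_L.ty (h.ty.2 TyF.one)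
  rw [h.L, mul_one] at this
  exact h.ty.1 this

theorem om_mem : om ∈ ZF A := h.om_ty.mem_ZF (by decide) (by
  have := G.L_d 1
  rw [h.d, dF_one, map_zero, h.L, mul_one, h.d] at this
  exact this.symm)

/-- the presentation of `H ε.X` -/
def cl : CL G (H ε.X) where
  Z := ZF A
  mem_Z u := by rw [mem_ZF, h.par, h.d]
  cl := toH ε
  surj := toH_surj ε
  ker u := by rw [toH_eq_zero_iff, h.ex]
  om := ⟨om, h.om_mem⟩
  L_eq := h.L
  ty_one := h.ty.2 TyF.one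
  ty_mul hu hv := h.ty.2 ((h.ty.1 hu).mul (h.ty.1 hv))

theorem cl_typ (p q : ℕ) : (h.cl ε).typ p q = typH ε p q :=
  Submodule.ext fun _ => exists_congr fun _ => and_congr_left fun _ => h.ty

/-- the Kaehler class -/
def w : H ε.X := toH ε ⟨om, h.om_mem⟩

theorem cl_w : (h.cl ε).w = h.w ε := rfl

theorem cl_cj (u : (h.cl ε).Z) :
    H.conj ε.X ((h.cl ε).cl u) = (h.cl ε).cl ⟨G.cj u.1, (h.cl ε).cj_mem u⟩ :=
  (conj_toH ε u).trans (congrArg (toH ε) (Subtype.ext (h.cj u.1).symm))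

theorem w_mem : h.w ε ∈ typH ε 1 1 := ⟨_, h.om_ty, rfl⟩

/-- **Hodge decomposition** -/
theorem typ_int : DirectSum.IsInternal fun i : ℕ × ℕ => typH ε i.1 i.2 := by
  simpa only [h.cl_typ] using (h.cl ε).typ_int

theorem hl_typ {p q j : ℕ} (hj : p + q + j = n) {a : H ε.X} (ha : a ∈ typH ε p q)
    (h0 : h.w ε ^ j * a = 0) : a = 0 :=
  (h.cl ε).hl_typ hj (by rwa [h.cl_typ]) h0

theorem hl_surj {p q j : ℕ} (hj : p + q + j = n) {b : H ε.X} (hb : b ∈ typH ε (p + j) (q + j)) :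
    ∃ a ∈ typH ε p q, b = h.w ε ^ j * a := by
  simpa only [h.cl_typ, h.cl_w] using (h.cl ε).hl_surj hj (b := b) (by rwa [h.cl_typ])

theorem dec_dg {dg : ℕ → Submodule ℂ (H ε.X)} (hd : iSupIndep dg)
    (hle : ∀ p q k : ℕ, p + q = 2 * k → typH ε p q ≤ dg k) {k : ℕ} {a : H ε.X} (ha : a ∈ dg k) :
    ∃ x : ℕ × ℕ → H ε.X, (∀ i, x i ∈ typH ε i.1 i.2) ∧
      a = ∑ i ∈ Finset.HasAntidiagonal.antidiagonal (2 * k), x i := by
  simpa only [h.cl_typ] using (h.cl ε).dec_dg hd (by simpa only [h.cl_typ] using hle) ha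

/-- **hard Lefschetz** -/
theorem hl {dg : ℕ → Submodule ℂ (H ε.X)} (hd : iSupIndep dg)
    (hle : ∀ p q k : ℕ, p + q = 2 * k → typH ε p q ≤ dg k) {k j : ℕ} (hj : 2 * k + j = n)
    {a : H ε.X} (ha : a ∈ dg k) (h0 : h.w ε ^ j * a = 0) : a = 0 :=
  (h.cl ε).hl hd (by simpa only [h.cl_typ] using hle) hj ha h0

theorem fin : FiniteDimensional ℂ (H ε.X) := (h.cl ε).fin

variable {itg : H ε.X →ₗ[ℂ] ℂ} {c : ℝ} (hc : 0 < c)
  (hi : ∀ u v : ZF A, itg (toH ε (u * v)) = c * G.β u.1 v.1)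

include hc hi in
/-- **Hodge-Riemann** -/
theorem hr {p q j : ℕ} (hj : p + q + j = n) {a : H ε.X} (ha : a ∈ typH ε p q) (hne : a ≠ 0)
    (h0 : h.w ε ^ (j + 1) * a = 0) :
    0 < ((-1) ^ p * itg (h.w ε ^ j * (a * H.conj ε.X a))).re :=
  (h.cl ε).hr_re (h.cl_cj ε) hc hi hj (by rwa [h.cl_typ]) hne h0

include hc hi in
/-- **Poincaré duality** -/
theorem pd {a : H ε.X} (h0 : ∀ b, itg (a * b) = 0) : a = 0 := (h.cl ε).pd hc hi h0

include hi in
theorem itg_typ {p q : ℕ} (hpq : (p, q) ≠ (n, n)) {a : H ε.X} (ha : a ∈ typH ε p q) :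
    itg a = 0 := (h.cl ε).itg_typ hi hpq (by rwa [h.cl_typ])

end Cmp

namespace KF

open Crest.Agent.R275.Geo (Part)

variable (K : KF A)

theorem om_mem : K.om ∈ ZF A := ⟨K.invF_om, K.closed⟩

/-- the Kaehler class -/
def w : H ε.X := toH ε ⟨K.om, K.om_mem⟩

theorem w_mem : K.w ε ∈ typH ε 1 1 :=
  ⟨_, fun i z hz => by
    change K.om.1 i z ∈ _
    rw [K.eq i z hz]; exact Fib.om_mem _, rfl⟩

theorem conj_w : H.conj ε.X (K.w ε) = K.w ε :=
  (conj_toH ε _).trans (congrArg (toH ε) (Subtype.ext K.cjF_om))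

variable [T2Space M] [Finite A.ι] (P : Part A)

theorem cmp : Cmp (K.kp P) K.om := ⟨K.kp_d P, fun _ _ _ _ _ _ => rfl, K.kp_L P, K.kp_cj P⟩

/-- the presentation of `H ε.X` -/
def cl : CL (K.kp P) (H ε.X) := (K.cmp P).cl ε

include K P

/-- **Hodge decomposition** -/
theorem typ_int : DirectSum.IsInternal fun i : ℕ × ℕ => typH ε i.1 i.2 := (K.cmp P).typ_int ε

theorem fin : FiniteDimensional ℂ (H ε.X) := (K.cmp P).fin ε

theorem hl_typ {p q j : ℕ} (hj : p + q + j = n) {a : H ε.X} (ha : a ∈ typH ε p q)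
    (h0 : K.w ε ^ j * a = 0) : a = 0 := (K.cmp P).hl_typ ε hj ha h0

theorem hl_surj {p q j : ℕ} (hj : p + q + j = n) {b : H ε.X} (hb : b ∈ typH ε (p + j) (q + j)) :
    ∃ a ∈ typH ε p q, b = K.w ε ^ j * a := (K.cmp P).hl_surj ε hj hb

/-- **hard Lefschetz** -/
theorem hl {dg : ℕ → Submodule ℂ (H ε.X)} (hd : iSupIndep dg)
    (hle : ∀ p q k : ℕ, p + q = 2 * k → typH ε p q ≤ dg k) {k j : ℕ} (hj : 2 * k + j = n)
    {a : H ε.X} (ha : a ∈ dg k) (h0 : K.w ε ^ j * a = 0) : a = 0 :=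
  (K.cmp P).hl ε hd hle hj ha h0

variable {itg : H ε.X →ₗ[ℂ] ℂ} {c : ℝ} (hc : 0 < c)
  (hi : ∀ u : ZF A, itg (toH ε u) = c * IntF P (tpT n) u.1)

include hc hi in
/-- **Hodge-Riemann** -/
theorem hr {p q j : ℕ} (hj : p + q + j = n) {a : H ε.X} (ha : a ∈ typH ε p q) (hne : a ≠ 0)
    (h0 : K.w ε ^ (j + 1) * a = 0) :
    0 < ((-1) ^ p * itg (K.w ε ^ j * (a * H.conj ε.X a))).re :=
  (K.cmp P).hr ε hc (fun u v => hi (u * v)) hj ha hne h0

include hc hi in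
/-- **Poincaré duality** -/
theorem pd {a : H ε.X} (h0 : ∀ b, itg (a * b) = 0) : a = 0 :=
  (K.cmp P).pd ε hc (fun u v => hi (u * v)) h0

include hi in
theorem itg_typ {p q : ℕ} (hpq : (p, q) ≠ (n, n)) {a : H ε.X} (ha : a ∈ typH ε p q) :
    itg a = 0 := (K.cmp P).itg_typ ε (fun u v => hi (u * v)) hpq ha

end KF

end Crest.Agent.X262.Kah
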