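import Crest.Agent.X262.Kah.PS

/-!
# X262 / Kah (helper20), file Fk: Fock modules and the pointwise Hermitian product

* `Fk n V`     : creation / annihilation operators, types, conjugation, pairing, vacuum;
* `Lg g`, `Lam g` : `L = i ∑ g_{ab} e_a ē_b`, `Λ = - i ∑ (g⁻¹)_{dc} ī_d i_c`;
* `ps hg`      : the paired Lefschetz module of a positive definite matrix `g`;
* `hp_herm`, `hp_pos` : its Hermitian product is positive definite.
-/

set_option autoImplicit false
set_option linter.unusedSectionVars false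

open Finset Complex
open scoped ComplexConjugate ComplexOrder Matrix MatrixOrder

namespace Crest.Agent.X262.Kah

noncomputable section

/-- Fock module -/
structure Fk (n : ℕ) (V : Type*) [AddCommGroup V] [Module ℂ V] where
  pr : ℤ → ℤ → Module.End ℂ V
  pr_pr : ∀ p q, pr p q * pr p q = pr p q
  pr_ne : ∀ p q p' q', (p, q) ≠ (p', q') → pr p q * pr p' q' = 0
  pr_out : ∀ p q, (p, q) ∉ box n → pr p q = 0
  pr_sum : ∑ x ∈ box n, pr x.1 x.2 = 1
  e : Fin n → Module.End ℂ V
  eb : Fin n → Module.End ℂ V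
  i : Fin n → Module.End ℂ V
  ib : Fin n → Module.End ℂ V
  e_pr : ∀ a p q, e a * pr p q = pr (p + 1) q * e a
  eb_pr : ∀ a p q, eb a * pr p q = pr p (q + 1) * eb a
  i_pr : ∀ a p q, i a * pr p q = pr (p + -1) q * i a
  ib_pr : ∀ a p q, ib a * pr p q = pr p (q + -1) * ib a
  e_e : ∀ a b, e a * e b + e b * e a = 0
  e_eb : ∀ a b, e a * eb b + eb b * e a = 0
  eb_eb : ∀ a b, eb a * eb b + eb b * eb a = 0
  i_ib : ∀ a b, i a * ib b + ib b * i a = 0
  e_i : ∀ a b, e a * i b + i b * e a = if a = b then 1 else 0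
  eb_ib : ∀ a b, eb a * ib b + ib b * eb a = if a = b then 1 else 0
  e_ib : ∀ a b, e a * ib b + ib b * e a = 0
  eb_i : ∀ a b, eb a * i b + i b * eb a = 0
  num : ∀ p q, (∑ a, e a * i a) * pr p q = (p : ℂ) • pr p q
  numb : ∀ p q, (∑ a, eb a * ib a) * pr p q = (q : ℂ) • pr p q
  cj : V →ₛₗ[starRingEnd ℂ] V
  cj_cj : ∀ u, cj (cj u) = u
  cj_pr : ∀ p q u, cj (pr p q u) = pr q p (cj u)
  cj_e : ∀ a u, cj (e a u) = eb a (cj u)
  cj_i : ∀ a u, cj (i a u) = ib a (cj u)
  β : V →ₗ[ℂ] V →ₗ[ℂ] ℂ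
  β_pr : ∀ p q u v, β (pr p q u) v = β u (pr (n - p) (n - q) v)
  β_cj : ∀ u v, β (cj u) (cj v) = conj (β u v)
  β_e : ∀ a u v, β (e a u) v = β ((∑ x ∈ box n, (-1 : ℂ) ^ (x.1 + x.2) • pr x.1 x.2) u) (e a v)
  β_eb : ∀ a u v, β (eb a u) v = β ((∑ x ∈ box n, (-1 : ℂ) ^ (x.1 + x.2) • pr x.1 x.2) u) (eb a v)
  vac : V
  cj_vac : cj vac = vac
  pr_vac : pr 0 0 vac = vac
  span_vac : ∀ u, ∃ c : ℂ, pr 0 0 u = c • vac
  vol : ∀ g : Matrix (Fin n) (Fin n) ℂ, g.PosDef →
    0 < β vac (((I • ∑ a, ∑ b, g a b • (e a * eb b)) ^ n) vac)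

namespace Fk

variable {n : ℕ} {V : Type*} [AddCommGroup V] [Module ℂ V] (F : Fk n V)

/-- exterior multiplication by `ω = i ∑ g_{ab} dz_a ∧ dz̄_b` -/
def Lg (g : Matrix (Fin n) (Fin n) ℂ) : Module.End ℂ V := I • ∑ a, ∑ b, g a b • (F.e a * F.eb b)

/-- the dual Lefschetz operator -/
def Lam (g : Matrix (Fin n) (Fin n) ℂ) : Module.End ℂ V :=
  (-I) • ∑ d, ∑ c, g⁻¹ d c • (F.ib d * F.i c)

theorem cj_eb (a : Fin n) (u : V) : F.cj (F.eb a u) = F.e a (F.cj u) := by
  conv_lhs => rw [← F.cj_cj u, ← F.cj_e, F.cj_cj]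

theorem cj_ib (a : Fin n) (u : V) : F.cj (F.ib a u) = F.i a (F.cj u) := by
  conv_lhs => rw [← F.cj_cj u, ← F.cj_i, F.cj_cj]

theorem ibi_e (d c a : Fin n) :
    F.ib d * F.i c * F.e a - F.e a * (F.ib d * F.i c) = if a = c then F.ib d else 0 := by
  have h1 : F.i c * F.e a = (if a = c then 1 else 0) - F.e a * F.i c := by
    rw [← F.e_i a c]; abel
  have h2 : F.ib d * F.e a = - (F.e a * F.ib d) := eq_neg_of_add_eq_zero_right (F.e_ib a d)
  rw [mul_assoc, h1, mul_sub, ← mul_assoc (F.ib d), h2]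
  split_ifs <;> noncomm_ring

theorem ibi_eb (d c b : Fin n) :
    F.ib d * F.i c * F.eb b - F.eb b * (F.ib d * F.i c) = if b = d then - F.i c else 0 := by
  have h1 : F.i c * F.eb b = - (F.eb b * F.i c) := eq_neg_of_add_eq_zero_right (F.eb_i b c)
  have h2 : F.ib d * F.eb b = (if b = d then 1 else 0) - F.eb b * F.ib d := by
    rw [← F.eb_ib b d]; abel
  rw [mul_assoc, h1, mul_neg, ← mul_assoc (F.ib d), h2]
  split_ifs <;> noncomm_ring

theorem Lam_e (g : Matrix (Fin n) (Fin n) ℂ) (a : Fin n) :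
    F.Lam g * F.e a - F.e a * F.Lam g = (-I) • ∑ d, g⁻¹ d a • F.ib d := by
  unfold Lam
  rw [smul_mul_assoc, mul_smul_comm, ← smul_sub, Finset.sum_mul, Finset.mul_sum,
    ← Finset.sum_sub_distrib]
  congr 1
  refine Finset.sum_congr rfl fun d _ => ?_
  rw [Finset.sum_mul, Finset.mul_sum, ← Finset.sum_sub_distrib]
  simp only [smul_mul_assoc, mul_smul_comm, ← smul_sub, ibi_e]
  rw [Finset.sum_eq_single a (fun c _ h => by rw [if_neg (Ne.symm h), smul_zero]) (by simp),
    if_pos rfl]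

theorem Lam_eb (g : Matrix (Fin n) (Fin n) ℂ) (b : Fin n) :
    F.Lam g * F.eb b - F.eb b * F.Lam g = I • ∑ c, g⁻¹ b c • F.i c := by
  unfold Lam
  rw [smul_mul_assoc, mul_smul_comm, ← smul_sub, Finset.sum_mul, Finset.mul_sum,
    ← Finset.sum_sub_distrib, neg_smul, ← smul_neg]
  congr 1
  rw [Finset.sum_eq_single b _ (by simp)]
  · rw [Finset.sum_mul, Finset.mul_sum, ← Finset.sum_sub_distrib]
    simp only [smul_mul_assoc, mul_smul_comm, ← smul_sub, ibi_eb, if_true, smul_neg,
      Finset.sum_neg_distrib, neg_neg]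
  · intro d _ h
    rw [Finset.sum_mul, Finset.mul_sum, ← Finset.sum_sub_distrib]
    simp only [smul_mul_assoc, mul_smul_comm, ← smul_sub, ibi_eb, if_neg (Ne.symm h), smul_zero,
      Finset.sum_const_zero]

theorem Lg_e (g : Matrix (Fin n) (Fin n) ℂ) (c : Fin n) : F.Lg g * F.e c = F.e c * F.Lg g := by
  unfold Lg
  simp only [smul_mul_assoc, mul_smul_comm, Finset.sum_mul, Finset.mul_sum]
  congr 1
  refine Finset.sum_congr rfl fun a _ => Finset.sum_congr rfl fun b _ => ?_
  have h1 : F.eb b * F.e c = - (F.e c * F.eb b) := eq_neg_of_add_eq_zero_right (F.e_eb c b)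
  have h2 : F.e a * F.e c = - (F.e c * F.e a) := eq_neg_of_add_eq_zero_left (F.e_e a c)
  rw [mul_assoc, h1, mul_neg, ← mul_assoc, h2]
  noncomm_ring

theorem Lg_eb (g : Matrix (Fin n) (Fin n) ℂ) (c : Fin n) : F.Lg g * F.eb c = F.eb c * F.Lg g := by
  unfold Lg
  simp only [smul_mul_assoc, mul_smul_comm, Finset.sum_mul, Finset.mul_sum]
  congr 1
  refine Finset.sum_congr rfl fun a _ => Finset.sum_congr rfl fun b _ => ?_
  have h1 : F.eb b * F.eb c = - (F.eb c * F.eb b) := eq_neg_of_add_eq_zero_left (F.eb_eb b c)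
  have h2 : F.e a * F.eb c = - (F.eb c * F.e a) := eq_neg_of_add_eq_zero_left (F.e_eb a c)
  rw [mul_assoc, h1, mul_neg, ← mul_assoc, h2]
  noncomm_ring

theorem Lg_Lam {g : Matrix (Fin n) (Fin n) ℂ} (hg : IsUnit g.det) :
    F.Lg g * F.Lam g - F.Lam g * F.Lg g =
      ∑ a, F.e a * F.i a + ∑ a, F.eb a * F.ib a - (n : ℂ) • 1 := by
  have key : ∀ a b, F.e a * F.eb b * F.Lam g - F.Lam g * (F.e a * F.eb b) =
      I • ((∑ d, g⁻¹ d a • F.ib d) * F.eb b) - I • (F.e a * ∑ c, g⁻¹ b c • F.i c) := by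
    intro a b
    have : F.e a * F.eb b * F.Lam g - F.Lam g * (F.e a * F.eb b) =
        - ((F.Lam g * F.e a - F.e a * F.Lam g) * F.eb b) -
          F.e a * (F.Lam g * F.eb b - F.eb b * F.Lam g) := by noncomm_ring
    rw [this, Lam_e, Lam_eb, smul_mul_assoc, mul_smul_comm, neg_smul, neg_neg]
  have s1 : ∑ a, ∑ b, g a b • ((∑ d, g⁻¹ d a • F.ib d) * F.eb b) = ∑ b, F.ib b * F.eb b := by
    rw [Finset.sum_comm]
    refine Finset.sum_congr rfl fun b _ => ?_
    simp only [Finset.sum_mul, smul_mul_assoc, Finset.smul_sum, smul_smul]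
    rw [Finset.sum_comm]
    simp only [← Finset.sum_smul, mul_comm (g _ b), ← Matrix.mul_apply, Matrix.nonsing_inv_mul _ hg,
      Matrix.one_apply]
    simp
  have s2 : ∑ a, ∑ b, g a b • (F.e a * ∑ c, g⁻¹ b c • F.i c) = ∑ a, F.e a * F.i a := by
    refine Finset.sum_congr rfl fun a _ => ?_
    simp only [Finset.mul_sum, mul_smul_comm, Finset.smul_sum, smul_smul]
    rw [Finset.sum_comm]
    simp only [← Finset.sum_smul, ← Matrix.mul_apply, Matrix.mul_nonsing_inv _ hg,
      Matrix.one_apply]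
    simp
  have s3 : ∑ b, F.ib b * F.eb b = (n : ℂ) • 1 - ∑ a, F.eb a * F.ib a := by
    rw [eq_sub_iff_add_eq, ← Finset.sum_add_distrib]
    simp only [add_comm (F.ib _ * _), F.eb_ib, if_true]
    simp [Nat.cast_smul_eq_nsmul]
  have e1 : F.Lg g * F.Lam g - F.Lam g * F.Lg g = I • ∑ a, ∑ b, g a b •
      (F.e a * F.eb b * F.Lam g - F.Lam g * (F.e a * F.eb b)) := by
    unfold Lg
    simp only [smul_mul_assoc, mul_smul_comm, Finset.sum_mul, Finset.mul_sum, smul_sub,
      Finset.sum_sub_distrib]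
  rw [e1]
  simp only [key, smul_sub, Finset.sum_sub_distrib, smul_comm (g _ _) I, ← Finset.smul_sum]
  rw [s1, s2, s3]
  simp only [smul_smul I I, I_mul_I]
  module

/-- the Lefschetz module of an invertible matrix -/
def gs {g : Matrix (Fin n) (Fin n) ℂ} (hg : IsUnit g.det) : GS n V where
  pr := F.pr
  pr_pr := F.pr_pr
  pr_ne := F.pr_ne
  pr_out := F.pr_out
  pr_sum := F.pr_sum
  L := F.Lg g
  Λ := F.Lam g
  L_pr p q := by
    unfold Lg
    simp only [smul_mul_assoc, mul_smul_comm, Finset.sum_mul, Finset.mul_sum, mul_assoc, F.eb_pr]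
    simp only [← mul_assoc, F.e_pr]
  Λ_pr p q := by
    unfold Lam
    simp only [smul_mul_assoc, mul_smul_comm, Finset.sum_mul, Finset.mul_sum, mul_assoc, F.i_pr]
    simp only [← mul_assoc, F.ib_pr]
  comm p q := by
    rw [F.Lg_Lam hg, sub_mul, add_mul, F.num, F.numb, smul_mul_assoc, one_mul]
    push_cast
    module

theorem det_unit {g : Matrix (Fin n) (Fin n) ℂ} (hg : g.PosDef) : IsUnit g.det :=
  (Matrix.isUnit_iff_isUnit_det g).1 hg.isUnit

variable {g : Matrix (Fin n) (Fin n) ℂ}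

theorem sh_e (hg : IsUnit g.det) (a : Fin n) : (F.gs hg).Sh 1 0 (F.e a) := fun p q => by
  rw [add_zero]; exact F.e_pr a p q
theorem sh_eb (hg : IsUnit g.det) (a : Fin n) : (F.gs hg).Sh 0 1 (F.eb a) := fun p q => by
  rw [add_zero]; exact F.eb_pr a p q
theorem sh_i (hg : IsUnit g.det) (a : Fin n) : (F.gs hg).Sh (-1) 0 (F.i a) := fun p q => by
  rw [add_zero]; exact F.i_pr a p q
theorem sh_ib (hg : IsUnit g.det) (a : Fin n) : (F.gs hg).Sh 0 (-1) (F.ib a) := fun p q => by
  rw [add_zero]; exact F.ib_pr a p q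

/-- the paired Lefschetz module of a positive definite matrix -/
def ps (hg : g.PosDef) : PS n V where
  toGS := F.gs (det_unit hg)
  cj := F.cj
  cj_cj := F.cj_cj
  cj_pr := F.cj_pr
  cj_L u := by
    change F.cj (F.Lg g u) = F.Lg g (F.cj u)
    unfold Lg
    simp only [LinearMap.smul_apply, LinearMap.sum_apply, map_smulₛₗ, map_sum, conj_I,
      Module.End.mul_apply, F.cj_e, F.cj_eb]
    rw [Finset.sum_comm, neg_smul, ← smul_neg, ← Finset.sum_neg_distrib]
    congr 1
    refine Finset.sum_congr rfl fun a _ => ?_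
    rw [← Finset.sum_neg_distrib]
    refine Finset.sum_congr rfl fun b _ => ?_
    have h1 := LinearMap.congr_fun (eq_neg_of_add_eq_zero_left (F.e_eb a b)) (F.cj u)
    rw [Module.End.mul_apply] at h1
    rw [h1, show conj (g b a) = g a b from hg.isHermitian.apply a b]
    simp
  cj_Λ u := by
    change F.cj (F.Lam g u) = F.Lam g (F.cj u)
    unfold Lam
    simp only [LinearMap.smul_apply, LinearMap.sum_apply, map_smulₛₗ, map_sum, conj_I, map_neg,
      Module.End.mul_apply, F.cj_i, F.cj_ib, neg_neg]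
    rw [Finset.sum_comm, neg_smul, ← smul_neg, ← Finset.sum_neg_distrib]
    congr 1
    refine Finset.sum_congr rfl fun a _ => ?_
    rw [← Finset.sum_neg_distrib]
    refine Finset.sum_congr rfl fun b _ => ?_
    have h1 := LinearMap.congr_fun (eq_neg_of_add_eq_zero_right (F.i_ib b a)) (F.cj u)
    rw [Module.End.mul_apply] at h1
    rw [h1, show conj (g⁻¹ b a) = g⁻¹ a b from hg.inv.isHermitian.apply a b]
    simp
  β := F.β
  β_pr := F.β_pr
  β_L u v := by
    change F.β (F.Lg g u) v = F.β u (F.Lg g v)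
    unfold Lg
    simp only [LinearMap.smul_apply, LinearMap.sum_apply, map_smul, map_sum, Module.End.mul_apply]
    congr 1
    refine Finset.sum_congr rfl fun a _ => Finset.sum_congr rfl fun b _ => ?_
    congr 1
    set G := F.gs (det_unit hg)
    have h1 : G.par (F.eb b u) = - F.eb b (G.par u) := by
      have := LinearMap.congr_fun (F.sh_eb (det_unit hg) b).par u
      simpa using this
    have h2 : G.par (G.par u) = u := by
      rw [← Module.End.mul_apply, GS.par, G.dg_mul]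
      simp only [← mul_zpow]
      simp [G.dg_one]
    have h3 := LinearMap.congr_fun (eq_neg_of_add_eq_zero_left (F.e_eb a b)) v
    rw [Module.End.mul_apply] at h3
    rw [F.β_e, h3]
    change F.β (G.par (F.eb b u)) _ = _
    rw [h1, map_neg, LinearMap.neg_apply, F.β_eb]
    change - F.β (G.par (G.par u)) _ = _
    rw [h2]
    simp
  β_cj := F.β_cj

theorem hp_e (hg : g.PosDef) (b : Fin n) (u v : V) :
    (F.ps hg).hp (F.e b u) v = (F.ps hg).hp u (∑ c, g⁻¹ b c • F.i c v) := by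
  have := (F.ps hg).adj01 (X := F.eb b) (Xb := F.e b) (F.sh_eb (det_unit hg) b) (F.Lg_eb g b) (F.cj_eb b)
    (ε := 1) (fun u v => by rw [ofReal_one, one_mul]; exact F.β_e b u v) u v
  rw [this]
  congr 1
  have h : (F.ps hg).br (F.eb b) = I • ∑ c, g⁻¹ b c • F.i c := F.Lam_eb g b
  rw [h, LinearMap.smul_apply, smul_smul]
  simp [LinearMap.sum_apply]

theorem hp_vac (hg : g.PosDef) : 0 < (F.ps hg).hp F.vac F.vac := by
  have h0 : (F.ps hg).Ty 0 0 F.vac := F.pr_vac
  have hΛ : (F.ps hg).Λ F.vac = 0 :=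
    ((F.ps hg).sh_Λ.ty h0).eq_zero fun hb => by have := (mem_box.1 hb).1.1; simp at this
  rw [PS.hp, GS.W_prim (r := n) (by simp) h0 hΛ, map_smulₛₗ,
    (F.ps hg).cj_pow (F.ps hg).cj_L, map_smul]
  have e : conj (cc n 0 0 * ((-1 : ℂ) ^ n * ((n.factorial : ℂ))⁻¹)) =
      (((n.factorial : ℝ)⁻¹ : ℝ) : ℂ) := by
    simp [cc, ← mul_assoc, ← mul_pow]
  rw [e, show (F.ps hg).cj F.vac = F.vac from F.cj_vac, smul_eq_mul]
  refine mul_pos ?_ (F.vol g hg)
  exact_mod_cast inv_pos.2 (Nat.cast_pos.2 n.factorial_pos : (0 : ℝ) < n.factorial)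

theorem hp_step (hg : g.PosDef) {C : Matrix (Fin n) (Fin n) ℂ} (hC : g⁻¹ = Cᴴ * C) {p q : ℤ}
    {u : V} (hu : (F.ps hg).Ty p q u) (v : V) :
    (p : ℂ) * (F.ps hg).hp u v =
      ∑ k, (F.ps hg).hp (∑ b, C k b • F.i b u) (∑ b, C k b • F.i b v) := by
  have h1 := LinearMap.congr_fun (F.num p q) u
  rw [Module.End.mul_apply, LinearMap.smul_apply, show F.pr p q u = u from hu,
    LinearMap.sum_apply] at h1
  rw [← PS.hp_smul_left, ← h1, PS.hp_sum_left]
  simp only [Module.End.mul_apply, hp_e, PS.hp_sum_left, PS.hp_sum_right, PS.hp_smul_left,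
    PS.hp_smul_right, hC, Matrix.mul_apply, Matrix.conjTranspose_apply, map_sum, Finset.sum_mul,
    Finset.mul_sum]
  rw [Finset.sum_comm]
  conv_rhs => rw [Finset.sum_comm]
  refine Finset.sum_congr rfl fun c _ => ?_
  rw [Finset.sum_comm]
  refine Finset.sum_congr rfl fun k _ => Finset.sum_congr rfl fun b _ => ?_
  simp only [map_mul, RCLike.star_def, conj_conj]
  ring

theorem hp_ty (hg : g.PosDef) (k : ℕ) : ∀ p q : ℤ, p + q = k → ∀ u, (F.ps hg).Ty p q u →
    (∀ v, (F.ps hg).Ty p q v → (F.ps hg).hp v u = conj ((F.ps hg).hp u v)) ∧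
      (u ≠ 0 → 0 < (F.ps hg).hp u u) := by
  obtain ⟨C, hC⟩ := CStarAlgebra.nonneg_iff_eq_star_mul_self.mp hg.inv.posSemidef.nonneg
  rw [Matrix.star_eq_conjTranspose] at hC
  have hCu : IsUnit C.det := by
    have := det_unit hg.inv
    rw [hC, Matrix.det_mul] at this
    exact isUnit_of_mul_isUnit_right this
  set G := F.ps hg with hG
  induction k with
  | zero =>
    intro p q hpq u hu
    by_cases hb : (p, q) ∈ box n
    swap
    · rw [hu.eq_zero hb]
      exact ⟨fun v _ => by simp [PS.hp_zero_left, PS.hp_zero_right], fun h => absurd rfl h⟩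
    rw [mem_box] at hb
    obtain rfl : p = 0 := by omega
    obtain rfl : q = 0 := by omega
    obtain ⟨c, hc⟩ := F.span_vac u
    rw [show F.pr 0 0 u = u from hu] at hc
    have hv := F.hp_vac hg
    rw [← hG] at hv
    refine ⟨fun v hv' => ?_, fun hne => ?_⟩
    · obtain ⟨c', hc'⟩ := F.span_vac v
      rw [show F.pr 0 0 v = v from hv'] at hc'
      rw [hc, hc']
      simp only [PS.hp_smul_left, PS.hp_smul_right, map_mul, conj_conj]
      rw [conj_eq_iff_im.2 (Complex.pos_iff.1 hv).2.symm]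
      ring
    · rw [hc, PS.hp_smul_left, PS.hp_smul_right, ← mul_assoc, mul_conj]
      refine mul_pos ?_ hv
      have : c ≠ 0 := fun h => hne (by rw [hc, h, zero_smul])
      exact_mod_cast normSq_pos.2 this
  | succ k ih =>
    have main : ∀ p q : ℤ, p + q = (k + 1 : ℕ) → 0 < p → ∀ u, G.Ty p q u →
        (∀ v, G.Ty p q v → G.hp v u = conj (G.hp u v)) ∧ (u ≠ 0 → 0 < G.hp u u) := by
      intro p q hpq hp u hu
      have hty : ∀ {v}, G.Ty p q v → ∀ j, G.Ty (p + -1) q (∑ b, C j b • F.i b v) := by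
        intro v hv j
        refine Finset.sum_induction _ _ (fun _ _ => GS.Ty.add) (GS.Ty.zero _ _) fun b _ => ?_
        have := ((F.sh_i (det_unit hg) b).ty hv).smul (C j b)
        rw [add_zero] at this
        exact this
      have hk : p + -1 + q = k := by push_cast at hpq; omega
      have hp0 : (p : ℂ) ≠ 0 := by exact_mod_cast hp.ne'
      refine ⟨fun v hv => ?_, fun hne => ?_⟩
      · apply mul_left_cancel₀ hp0
        have e : (p : ℂ) * conj (G.hp u v) = conj ((p : ℂ) * G.hp u v) := by simp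
        rw [e, F.hp_step hg hC hu, F.hp_step hg hC hv, map_sum]
        exact Finset.sum_congr rfl fun j _ => (ih _ _ hk _ (hty hu j)).1 _ (hty hv j)
      · have h1 : 0 < (p : ℂ) * G.hp u u := by
          rw [F.hp_step hg hC hu]
          have hnn : ∀ j, 0 ≤ G.hp (∑ b, C j b • F.i b u) (∑ b, C j b • F.i b u) := by
            intro j
            by_cases h0 : ∑ b, C j b • F.i b u = 0
            · rw [h0, PS.hp_zero_left]
            · exact ((ih _ _ hk _ (hty hu j)).2 h0).le
          by_cases hall : ∀ j, ∑ b, C j b • F.i b u = 0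
          · exfalso
            have hi : ∀ a, F.i a u = 0 := by
              intro a
              have : ∑ j, C⁻¹ a j • ∑ b, C j b • F.i b u = F.i a u := by
                simp only [Finset.smul_sum, smul_smul]
                rw [Finset.sum_comm]
                simp only [← Finset.sum_smul, ← Matrix.mul_apply, Matrix.nonsing_inv_mul _ hCu,
                  Matrix.one_apply]
                simp
              rw [← this]
              simp [hall]
            have h1 := LinearMap.congr_fun (F.num p q) u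
            rw [Module.End.mul_apply, LinearMap.smul_apply, show F.pr p q u = u from hu,
              LinearMap.sum_apply] at h1
            simp only [Module.End.mul_apply, hi, map_zero, Finset.sum_const_zero] at h1
            exact hne ((smul_eq_zero.1 h1.symm).resolve_left hp0)
          · push Not at hall
            obtain ⟨j, hj⟩ := hall
            exact Finset.sum_pos' (fun j _ => hnn j)
              ⟨j, Finset.mem_univ _, (ih _ _ hk _ (hty hu j)).2 hj⟩
        have hp' : (0 : ℂ) < p := by exact_mod_cast hp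
        exact (mul_pos_iff_of_pos_left hp').1 h1
    intro p q hpq u hu
    by_cases hp : 0 < p
    · exact main p q hpq hp u hu
    by_cases hb : (p, q) ∈ box n
    swap
    · rw [hu.eq_zero hb]
      exact ⟨fun v _ => by simp [PS.hp_zero_left, PS.hp_zero_right], fun h => absurd rfl h⟩
    rw [mem_box] at hb
    have hq : 0 < q := by push_cast at hpq; omega
    have m := main q p (by rw [add_comm]; exact hpq) hq _ (G.cj_ty hu)
    refine ⟨fun v hv => ?_, fun hne => ?_⟩
    · have := m.1 _ (G.cj_ty hv)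
      rw [G.hp_cj, G.hp_cj, conj_conj] at this
      rw [← this, conj_conj]
    · have := m.2 fun h => hne (by rw [← G.cj_cj u, h, map_zero])
      rw [G.hp_cj] at this
      have h2 := (Complex.pos_iff.1 this).2
      rwa [conj_eq_iff_im.2 (by simpa using h2.symm)] at this

theorem hp_ty' (hg : g.PosDef) (x : ℤ × ℤ) (hx : x ∈ box n) (u : V)
    (hu : (F.ps hg).Ty x.1 x.2 u) :
    (∀ v, (F.ps hg).Ty x.1 x.2 v → (F.ps hg).hp v u = conj ((F.ps hg).hp u v)) ∧
      (u ≠ 0 → 0 < (F.ps hg).hp u u) := by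
  have hb := (mem_box (p := x.1) (q := x.2)).1 hx
  exact F.hp_ty hg (x.1 + x.2).toNat _ _ (by omega) u hu

theorem hp_eq_sum (hg : g.PosDef) (u v : V) : (F.ps hg).hp u v =
    ∑ x ∈ box n, (F.ps hg).hp ((F.ps hg).pr x.1 x.2 u) ((F.ps hg).pr x.1 x.2 v) := by
  conv_lhs => rw [← (F.ps hg).sum_pr u, PS.hp_sum_left]
  refine Finset.sum_congr rfl fun x _ => ?_
  rw [← PS.hp_pr, (F.ps hg).ty_pr]

/-- the pointwise product is Hermitian -/
theorem hp_herm (hg : g.PosDef) (u v : V) : (F.ps hg).hp v u = conj ((F.ps hg).hp u v) := by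
  rw [hp_eq_sum, hp_eq_sum, map_sum]
  exact Finset.sum_congr rfl fun x hx =>
    (F.hp_ty' hg x hx _ ((F.ps hg).ty_pr _ _ u)).1 _ ((F.ps hg).ty_pr _ _ v)

/-- the pointwise product is positive definite -/
theorem hp_pos (hg : g.PosDef) {u : V} (hu : u ≠ 0) : 0 < (F.ps hg).hp u u := by
  rw [hp_eq_sum]
  refine Finset.sum_pos' (fun x hx => ?_) ?_
  · by_cases h0 : (F.ps hg).pr x.1 x.2 u = 0
    · rw [h0, PS.hp_zero_left]
    · exact ((F.hp_ty' hg x hx _ ((F.ps hg).ty_pr _ _ u)).2 h0).le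
  · by_contra hall
    push Not at hall
    apply hu
    rw [← (F.ps hg).sum_pr u]
    refine Finset.sum_eq_zero fun x hx => ?_
    by_contra h0
    exact hall x hx ((F.hp_ty' hg x hx _ ((F.ps hg).ty_pr _ _ u)).2 h0)

end Fk

end

end Crest.Agent.X262.Kah
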