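import Crest.Agent.X262.Kah.FibC
import Crest.Agent.X262.Kah.Fk
import Crest.Agent.X262.Frm.Typ

/-!
# X262 / Kah (helper60), file FibD: the fibre of forms as a Fock module

* `prZ p q` type projections with integer indices; `om g = i ∑ g_{ab} dz_a dz̄_b`;
* `fib n : Fk n (V n)`; `fib_par`, `fib_Lg`, naturality under complex linear pull-backs.
-/

set_option autoImplicit false
set_option linter.unusedSectionVars false
set_option linter.unusedSimpArgs false

open Module Complex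
open scoped ComplexConjugate ComplexOrder Matrix MatrixOrder

noncomputable section

namespace Crest.Agent.X262.Kah.Fib

open Crest.Agent.R208.F Crest.Agent.R208.CW
open Crest.Agent.R275.Geo (Cn)

variable {n : ℕ} {x y : V n}

/-! ### Hodge types of `Frm` -/

theorem P10_zc (a : Fin n) : Frm.P10 (Frm.Jc (Cn n)) (zc a) = zc a :=
  Frm.P10_eq_self fun v => by simp

theorem P10_zcb (a : Fin n) : Frm.P10 (Frm.Jc (Cn n)) (zcb a) = 0 :=
  Frm.P10_eq_zero fun v => by simp

theorem prj_Jc (p q : ℕ) : Frm.prj (Frm.P10 (Frm.Jc (Cn n))) p q = pr p q :=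
  prj_eq P10_zc P10_zcb p q

theorem isType_iff {p q : ℕ} : Frm.IsType (Frm.Jc (Cn n)) p q x ↔ x ∈ Ty p q := by
  rw [Frm.IsType, frm_Ty_eq P10_zc P10_zcb]

/-! ### integer indices -/

/-- type projections, integer indices -/
def prZ (p q : ℤ) : Module.End ℂ (V n) := if 0 ≤ p ∧ 0 ≤ q then pr p.toNat q.toNat else 0

@[simp] theorem prZ_nat (p q : ℕ) : (prZ p q : Module.End ℂ (V n)) = pr p q := by
  simp [prZ]

theorem prZ_neg {p q : ℤ} (h : p < 0 ∨ q < 0) : (prZ p q : Module.End ℂ (V n)) = 0 :=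
  if_neg (by omega)

theorem prZ_of_mem {a b : ℕ} (hx : x ∈ Ty a b) (p q : ℤ) :
    prZ p q x = if (a : ℤ) = p ∧ (b : ℤ) = q then x else 0 := by
  unfold prZ
  by_cases h : 0 ≤ p ∧ 0 ≤ q
  · rw [if_pos h, pr_of_mem hx]
    exact if_congr (by omega) rfl rfl
  · rw [if_neg h, if_neg (by omega)]; rfl

theorem prZ_eq_self_iff {p q : ℕ} : prZ p q x = x ↔ x ∈ Ty p q := by
  rw [prZ_nat, mem_Ty_iff_pr]

theorem prZ_cases (p q : ℤ) (x : V n) :
    prZ p q x = 0 ∨ ∃ a b : ℕ, (a : ℤ) = p ∧ (b : ℤ) = q ∧ prZ p q x ∈ Ty a b := by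
  by_cases h : 0 ≤ p ∧ 0 ≤ q
  · refine Or.inr ⟨p.toNat, q.toNat, by omega, by omega, ?_⟩
    rw [prZ, if_pos h]; exact pr_mem _ _ _
  · left; rw [prZ, if_neg h]; rfl

theorem prZ_out {p q : ℤ} (h : (p, q) ∉ box n) : (prZ p q : Module.End ℂ (V n)) = 0 := by
  rw [mem_box] at h
  unfold prZ
  split_ifs with h'
  · exact pr_eq_zero (by omega)
  · rfl

theorem sum_box {a b : ℕ} (hx : x ∈ Ty a b) (c : ℤ → ℤ → ℂ) :
    (∑ z ∈ box n, c z.1 z.2 • prZ z.1 z.2) x = c a b • x := by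
  rw [LinearMap.sum_apply, Finset.sum_eq_single ((a : ℤ), (b : ℤ))]
  · rw [LinearMap.smul_apply, prZ_of_mem hx, if_pos ⟨rfl, rfl⟩]
  · intro z _ hz
    rw [LinearMap.smul_apply, prZ_of_mem hx, if_neg fun h => hz (Prod.ext h.1.symm h.2.symm),
      smul_zero]
  · intro h
    rw [prZ_out h, smul_zero, LinearMap.zero_apply]

theorem sum_prZ : ∑ z ∈ box n, (prZ z.1 z.2 : Module.End ℂ (V n)) = 1 := by
  refine ext_Ty fun a b x hx => ?_
  simpa using sum_box hx fun _ _ => 1

theorem par_apply (x : V n) :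
    (∑ z ∈ box n, (-1 : ℂ) ^ (z.1 + z.2) • prZ z.1 z.2) x = invC x := by
  induction x using ind_Ty with
  | h0 => rw [map_zero, map_zero]
  | hadd x y hx hy => rw [map_add, map_add, hx, hy]
  | h a b x hx =>
    rw [sum_box hx fun p q => (-1 : ℂ) ^ (p + q), Ty.invC_eq hx, ← Nat.cast_add, zpow_natCast]

/-- operators shifting the type -/
theorem prZ_shift {m : ℕ} {T : V m →+ V n} {s t : ℤ}
    (hT : ∀ a b : ℕ, ∀ x ∈ Ty a b, T x = 0 ∨ ∃ c d : ℕ, (c : ℤ) = a + s ∧ (d : ℤ) = b + t ∧ T x ∈ Ty c d)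
    (p q : ℤ) (x : V m) : T (prZ p q x) = prZ (p + s) (q + t) (T x) := by
  induction x using ind_Ty with
  | h0 => simp
  | hadd x y hx hy => simp only [map_add, hx, hy]
  | h a b x hx =>
    rw [prZ_of_mem hx]
    rcases hT a b x hx with h | ⟨c, d, h1, h2, h⟩
    · rw [h, map_zero]; split_ifs <;> simp [h]
    · rw [prZ_of_mem h, apply_ite T, map_zero]
      exact if_congr (by omega) rfl rfl

theorem ez_prZ (a : Fin n) (p q : ℤ) : ez a * prZ p q = prZ (p + 1) q * ez a :=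
  LinearMap.ext fun x => by
    simpa using prZ_shift (T := (ez a).toAddMonoidHom) (s := 1) (t := 0)
      (fun c d x hx => Or.inr ⟨c + 1, d, by simp, by simp, Ty.ez_mem a hx⟩) p q x

theorem ezb_prZ (a : Fin n) (p q : ℤ) : ezb a * prZ p q = prZ p (q + 1) * ezb a :=
  LinearMap.ext fun x => by
    simpa using prZ_shift (T := (ezb a).toAddMonoidHom) (s := 0) (t := 1)
      (fun c d x hx => Or.inr ⟨c, d + 1, by simp, by simp, Ty.ezb_mem a hx⟩) p q x

theorem iz_prZ (a : Fin n) (p q : ℤ) : iz a * prZ p q = prZ (p + -1) q * iz a :=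
  LinearMap.ext fun x => by
    simpa using prZ_shift (T := (iz a).toAddMonoidHom) (s := -1) (t := 0)
      (fun c d x hx => by
        cases c with
        | zero => exact Or.inl (Ty.iz_eq_zero a hx)
        | succ c => exact Or.inr ⟨c, d, by simp, by simp, Ty.iz_mem a hx⟩) p q x

theorem izb_prZ (a : Fin n) (p q : ℤ) : izb a * prZ p q = prZ p (q + -1) * izb a :=
  LinearMap.ext fun x => by
    simpa using prZ_shift (T := (izb a).toAddMonoidHom) (s := 0) (t := -1)
      (fun c d x hx => by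
        cases d with
        | zero => exact Or.inl (Ty.izb_eq_zero a hx)
        | succ d => exact Or.inr ⟨c, d, by simp, by simp, Ty.izb_mem a hx⟩) p q x

theorem prZ_pbC {m : ℕ} {L : Cn m →ₗ[ℝ] Cn n} (hL : ∀ v, L (I • v) = I • L v) (p q : ℤ) (x : V n) :
    prZ p q (pbC L x) = pbC L (prZ p q x) := by
  unfold prZ
  split_ifs
  · exact pr_pbC hL _ _ x
  · simp

theorem prZ_pbC' {m : ℕ} (L : Cn m →ₗ[ℂ] Cn n) (p q : ℤ) (x : V n) :
    prZ p q (pbC (L.restrictScalars ℝ) x) = pbC (L.restrictScalars ℝ) (prZ p q x) :=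
  prZ_pbC (fun v => L.map_smul I v) p q x

theorem conj_prZ (p q : ℤ) (x : V n) : Cx.conj (prZ p q x) = prZ q p (Cx.conj x) := by
  unfold prZ
  simp only [and_comm (a := 0 ≤ q)]
  split_ifs
  · exact (pr_conj _ _ x).symm
  · simp

theorem tpC_prZ (p q : ℤ) (x y : V n) :
    tpC n (prZ p q x * y) = tpC n (x * prZ (n - p) (n - q) y) := by
  induction x using ind_Ty with
  | h0 => simp
  | hadd x z hx hz => simp only [map_add, add_mul, hx, hz]
  | h a b x hx =>
    induction y using ind_Ty with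
    | h0 => simp
    | hadd y z hy hz => simp only [map_add, mul_add, hy, hz]
    | h c d y hy =>
      rw [prZ_of_mem hx, prZ_of_mem hy]
      by_cases h : a + c = n ∧ b + d = n
      · simp only [ite_mul, mul_ite, zero_mul, mul_zero]
        congr 1
        exact if_congr (by omega) rfl rfl
      · have h0 := tpC_of_mem (Ty.mul hx hy) h
        split_ifs <;> simp [h0]

/-! ### positive `(1,1)`-forms -/

/-- the form `i ∑ g_{ab} dz_a dz̄_b` -/
def om (g : Matrix (Fin n) (Fin n) ℂ) : V n := I • ∑ a, ∑ b, g a b • (dz a * dzb b)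

theorem dz_dzb_mem (a b : Fin n) : dz a * dzb b ∈ Ty 1 1 := by
  simpa using Ty.mul (dz_mem a) (dzb_mem b)

theorem om_mem (g : Matrix (Fin n) (Fin n) ℂ) : om g ∈ Ty 1 1 :=
  Submodule.smul_mem _ _ (Submodule.sum_mem _ fun a _ => Submodule.sum_mem _ fun b _ =>
    Submodule.smul_mem _ _ (dz_dzb_mem a b))

theorem invC_om (g : Matrix (Fin n) (Fin n) ℂ) : invC (om g) = om g := by
  rw [Ty.invC_eq (om_mem g)]; simp

theorem om_one : om (1 : Matrix (Fin n) (Fin n) ℂ) = omg n := by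
  simp [om, omg, Matrix.one_apply, Finset.smul_sum]

theorem conj_om (g : Matrix (Fin n) (Fin n) ℂ) : Cx.conj (om g) = om gᴴ := by
  have h : ∀ a b : Fin n, dzb a * dz b = - (dz b * dzb a) := fun a b => th_anti (.inr a) (.inl b)
  simp only [om, conj_smul, map_sum, map_mul, conj_dz, conj_dzb, h, conj_I, smul_neg,
    Finset.sum_neg_distrib, neg_smul, neg_neg, Matrix.conjTranspose_apply, star_def]
  rw [Finset.sum_comm]

/-- the matrix `L_{ba} = (L ε_a)_b` of a map `ℂᵐ → ℂⁿ` -/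
def mat {m : ℕ} (L : Cn m →ₗ[ℝ] Cn n) : Matrix (Fin n) (Fin m) ℂ := Matrix.of fun b a => L (ep a) b

theorem pbC_om {m : ℕ} {L : Cn m →ₗ[ℝ] Cn n} (hL : ∀ v, L (I • v) = I • L v)
    (g : Matrix (Fin n) (Fin n) ℂ) :
    pbC L (om g) = om ((mat L)ᵀ * g * (mat L).map conj) := by
  simp only [om, pbC_smul, map_sum, map_mul, pbC_dz hL, pbC_dzb hL, Finset.sum_mul, Finset.mul_sum,
    smul_mul_assoc, mul_smul_comm, Finset.smul_sum, smul_smul, Matrix.mul_apply, Finset.sum_smul,
    Matrix.transpose_apply, Matrix.map_apply, mat, Matrix.of_apply]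
  rw [Finset.sum_comm]
  conv_lhs => enter [2, b]; rw [Finset.sum_comm]
  conv_lhs => enter [2, b, 2, d]; rw [Finset.sum_comm]
  conv_rhs => rw [Finset.sum_comm]
  rw [Finset.sum_comm]
  refine Finset.sum_congr rfl fun d _ => ?_
  rw [Finset.sum_comm]
  refine Finset.sum_congr rfl fun c _ => Finset.sum_congr rfl fun b _ =>
    Finset.sum_congr rfl fun a _ => ?_
  congr 1
  ring

/-- the complex linear map with matrix `B` -/
def lin {m : ℕ} (B : Matrix (Fin n) (Fin m) ℂ) : Cn m →ₗ[ℂ] Cn n := Matrix.toEuclideanLin B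

theorem mat_lin {m : ℕ} (B : Matrix (Fin n) (Fin m) ℂ) : mat ((lin B).restrictScalars ℝ) = B := by
  ext b a
  simp [mat, lin, ep, Matrix.toEuclideanLin, Matrix.toLpLin_apply]

theorem det_lin (B : Matrix (Fin n) (Fin n) ℂ) : LinearMap.det (lin B) = B.det := by
  rw [lin, Matrix.toEuclideanLin, Matrix.toLpLin_eq_toLin, LinearMap.det_toLin]

theorem om_eq_pbC (B : Matrix (Fin n) (Fin n) ℂ) :
    om (Bᴴ * B) = pbC ((lin (B.map conj)).restrictScalars ℝ) (omg n) := by
  rw [← om_one, pbC_om fun v => (lin (B.map conj)).map_smul I v, mat_lin, Matrix.mul_one]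
  congr 2
  ext a b; simp

theorem tpC_om_pow {g : Matrix (Fin n) (Fin n) ℂ} (hg : g.PosSemidef) :
    tpC n (om g ^ n) = 2 ^ n * n.factorial * g.det := by
  obtain ⟨B, rfl⟩ := CStarAlgebra.nonneg_iff_eq_star_mul_self.mp hg.nonneg
  rw [Matrix.star_eq_conjTranspose, om_eq_pbC, ← map_pow, tpC_pbC, tpC_omg_pow, det_lin,
    Matrix.det_mul, Matrix.det_conjTranspose, ← RingHom.mapMatrix_apply, ← RingHom.map_det,
    normSq_conj, normSq_eq_conj_mul_self, star_def]
  ring

theorem tpC_om_pos {g : Matrix (Fin n) (Fin n) ℂ} (hg : g.PosDef) : 0 < tpC n (om g ^ n) := by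
  rw [tpC_om_pow hg.posSemidef]
  have h1 : (0 : ℂ) < 2 ^ n := pow_pos two_pos n
  have h2 : (0 : ℂ) < n.factorial := by exact_mod_cast n.factorial_pos
  exact mul_pos (mul_pos h1 h2) hg.det_pos

theorem Lg_apply (g : Matrix (Fin n) (Fin n) ℂ) (u : V n) :
    (I • ∑ a, ∑ b, g a b • (ez a * ezb b) : Module.End ℂ (V n)) u = om g * u := by
  simp only [om, LinearMap.smul_apply, LinearMap.sum_apply, Module.End.mul_apply, ez_apply,
    ezb_apply, smul_mul_assoc, Finset.sum_mul, mul_assoc]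

theorem Lg_pow_apply (g : Matrix (Fin n) (Fin n) ℂ) (k : ℕ) (u : V n) :
    ((I • ∑ a, ∑ b, g a b • (ez a * ezb b) : Module.End ℂ (V n)) ^ k) u = om g ^ k * u := by
  induction k with
  | zero => simp
  | succ k ih => rw [pow_succ', Module.End.mul_apply, ih, Lg_apply, pow_succ', mul_assoc]

/-! ### the Fock module -/

variable (n) in
/-- conjugation as a semilinear map -/
def cjL : V n →ₛₗ[starRingEnd ℂ] V n where
  toFun := Cx.conj
  map_add' := map_add _
  map_smul' := conj_smul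

@[simp] theorem cjL_apply (u : V n) : cjL n u = Cx.conj u := rfl

variable (n) in
/-- forms at a point of `ℂⁿ` as a Fock module -/
def fib : Fk n (V n) where
  pr := prZ
  pr_pr p q := ext_Ty fun a b x hx => by
    rw [Module.End.mul_apply, prZ_of_mem hx]
    split_ifs with h
    · rw [prZ_of_mem hx, if_pos h]
    · exact map_zero _
  pr_ne p q p' q' hne := ext_Ty fun a b x hx => by
    rw [Module.End.mul_apply, prZ_of_mem hx]
    split_ifs with h
    · rw [prZ_of_mem hx, if_neg fun h' => hne (Prod.ext (h'.1.symm.trans h.1) (h'.2.symm.trans h.2))]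
      rfl
    · exact map_zero _
  pr_out _ _ := prZ_out
  pr_sum := sum_prZ
  e := ez
  eb := ezb
  i := iz
  ib := izb
  e_pr := ez_prZ
  eb_pr := ezb_prZ
  i_pr := iz_prZ
  ib_pr := izb_prZ
  e_e := ez_ez
  e_eb := ez_ezb
  eb_eb := ezb_ezb
  i_ib := iz_izb
  e_i := ez_iz
  eb_ib := ezb_izb
  e_ib := ez_izb
  eb_i := ezb_iz
  num p q := LinearMap.ext fun x => by
    rcases prZ_cases p q x with h | ⟨a, b, h1, -, h⟩
    · rw [Module.End.mul_apply, LinearMap.smul_apply, h, map_zero, smul_zero]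
    · rw [← h1, Int.cast_natCast, h1]; exact h.1
  numb p q := LinearMap.ext fun x => by
    rcases prZ_cases p q x with h | ⟨a, b, -, h1, h⟩
    · rw [Module.End.mul_apply, LinearMap.smul_apply, h, map_zero, smul_zero]
    · rw [← h1, Int.cast_natCast, h1]; exact h.2
  cj := cjL n
  cj_cj := Cx.conj_conj
  cj_pr := conj_prZ
  cj_e a u := by simp
  cj_i := conj_iz
  β := (LinearMap.mul ℂ (V n)).compr₂ (tpC n)
  β_pr := tpC_prZ
  β_cj u v := by
    change tpC n (Cx.conj u * Cx.conj v) = conj (tpC n (u * v))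
    rw [← map_mul, tpC_conj]
  β_e a u v := by rw [par_apply]; exact tpC_th_mul (.inl a) u v
  β_eb a u v := by rw [par_apply]; exact tpC_th_mul (.inr a) u v
  vac := 1
  cj_vac := map_one (Cx.conj : V n →+* V n)
  pr_vac := by rw [prZ_of_mem one_mem_Ty, if_pos ⟨rfl, rfl⟩]
  span_vac u := ⟨au u, by simpa using (prZ_nat 0 0 ▸ pr_zero_zero u :)⟩
  vol g hg := by
    rw [Lg_pow_apply, mul_one]
    change 0 < tpC n (1 * _)
    rw [one_mul]
    exact tpC_om_pos hg

@[simp] theorem fib_pr (p q : ℤ) : (fib n).pr p q = prZ p q := rfl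
@[simp] theorem fib_e (a : Fin n) : (fib n).e a = ez a := rfl
@[simp] theorem fib_eb (a : Fin n) : (fib n).eb a = ezb a := rfl
@[simp] theorem fib_i (a : Fin n) : (fib n).i a = iz a := rfl
@[simp] theorem fib_ib (a : Fin n) : (fib n).ib a = izb a := rfl
@[simp] theorem fib_cj (u : V n) : (fib n).cj u = Cx.conj u := rfl
@[simp] theorem fib_β (u v : V n) : (fib n).β u v = tpC n (u * v) := rfl
@[simp] theorem fib_vac : (fib n).vac = 1 := rfl

theorem fib_Lg (g : Matrix (Fin n) (Fin n) ℂ) (u : V n) : (fib n).Lg g u = om g * u := Lg_apply g u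

theorem fib_par {g : Matrix (Fin n) (Fin n) ℂ} (hg : IsUnit g.det) (u : V n) :
    ((fib n).gs hg).par u = invC u := par_apply u

theorem fib_Ty {g : Matrix (Fin n) (Fin n) ℂ} (hg : IsUnit g.det) {p q : ℕ} :
    ((fib n).gs hg).Ty p q x ↔ x ∈ Ty p q := prZ_eq_self_iff

theorem fib_Lam (g : Matrix (Fin n) (Fin n) ℂ) (u : V n) :
    (fib n).Lam g u = (-I) • ∑ d, ∑ c, g⁻¹ d c • izb d (iz c u) := by
  simp only [Fk.Lam, LinearMap.smul_apply, LinearMap.sum_apply, Module.End.mul_apply, fib_i, fib_ib]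

section nat
variable {L : Cn n →ₗ[ℝ] Cn n} {g g' : Matrix (Fin n) (Fin n) ℂ}

theorem Lg_pbC {m : ℕ} {L : Cn m →ₗ[ℝ] Cn n} (hL : ∀ v, L (I • v) = I • L v)
    {g' : Matrix (Fin m) (Fin m) ℂ} (h : g' = (mat L)ᵀ * g * (mat L).map conj) (u : V n) :
    (fib m).Lg g' (pbC L u) = pbC L ((fib n).Lg g u) := by
  rw [fib_Lg, fib_Lg, map_mul, pbC_om hL, h]

theorem inv_conj (h : g' = (mat L)ᵀ * g * (mat L).map conj) (hg' : IsUnit g'.det) :
    (mat L).map conj * g'⁻¹ * (mat L)ᵀ = g⁻¹ := by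
  have h0 := hg'
  rw [h, Matrix.det_mul, Matrix.det_mul, IsUnit.mul_iff, IsUnit.mul_iff] at h0
  rw [h, Matrix.mul_inv_rev, Matrix.mul_inv_rev, ← Matrix.mul_assoc, Matrix.mul_nonsing_inv _ h0.2,
    Matrix.one_mul, Matrix.mul_assoc, Matrix.nonsing_inv_mul _ h0.1.1, Matrix.mul_one]

theorem Lam_pbC (hL : ∀ v, L (I • v) = I • L v) (h : g' = (mat L)ᵀ * g * (mat L).map conj)
    (hg' : IsUnit g'.det) (u : V n) :
    (fib n).Lam g' (pbC L u) = pbC L ((fib n).Lam g u) := by
  rw [fib_Lam, fib_Lam, ← inv_conj h hg', pbC_smul]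
  congr 1
  simp only [iz_pbC hL, map_sum, map_smul, izb_pbC hL, Finset.smul_sum, smul_smul, pbC_smul,
    Matrix.mul_apply, Finset.sum_mul, Finset.sum_smul, Matrix.transpose_apply, Matrix.map_apply,
    mat, Matrix.of_apply]
  conv_lhs => enter [2, d, 2, c]; rw [Finset.sum_comm]
  conv_lhs => enter [2, d]; rw [Finset.sum_comm]
  rw [Finset.sum_comm]
  refine Finset.sum_congr rfl fun e _ => ?_
  conv_lhs => enter [2, d]; rw [Finset.sum_comm]
  rw [Finset.sum_comm]
  refine Finset.sum_congr rfl fun b _ => ?_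
  rw [Finset.sum_comm]
  refine Finset.sum_congr rfl fun c _ => Finset.sum_congr rfl fun d _ => ?_
  congr 1
  ring

end nat

end Crest.Agent.X262.Kah.Fib
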