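import Crest.Agent.X262.Kah.FibB
import Crest.Agent.X262.Frm.Grd
import Crest.Agent.X262.Man.Lin

/-!
# X262 / Kah (helper60), file FibC: projectors on types, top coefficient

* `pr p q` projector on the forms of type `(p,q)`; `prj_eq` : it is `Frm.prj P p q` for the Hodge
  projection `P`;
* `tpC n` the complex top coefficient, `vol n = ∏ (i dz_a dz̄_a)`, `omg n = ∑ i dz_a dz̄_a`.
-/

set_option autoImplicit false
set_option linter.unusedSectionVars false
set_option linter.unusedSimpArgs false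

open Module Complex
open scoped ComplexConjugate

noncomputable section

namespace Crest.Agent.X262.Kah.Fib

open Crest.Agent.R208.F Crest.Agent.R208.CW
open Crest.Agent.R275.Geo (Cn)

variable {n : ℕ} {p q p' q' : ℕ} {x y : V n}

/-! ### projectors -/

/-- the projector on the forms of type `(p,q)` -/
def pr (p q : ℕ) : Module.End ℂ (V n) :=
  bas.constr ℂ fun S => if tp S = p ∧ tq S = q then bas S else 0

theorem pr_bas (p q : ℕ) (S : K n) : pr p q (bas S) = if tp S = p ∧ tq S = q then bas S else 0 :=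
  bas.constr_basis ℂ _ S

theorem pr_of_mem (hx : x ∈ Ty p q) (p' q' : ℕ) :
    pr p' q' x = if p = p' ∧ q = q' then x else 0 := by
  refine Ty.ind (P := fun x => pr p' q' x = if p = p' ∧ q = q' then x else 0) (by simp)
    (fun _ _ h1 h2 => by rw [map_add, h1, h2]; split_ifs <;> simp)
    (fun _ _ h1 => by rw [map_smul, h1]; split_ifs <;> simp) (fun S h1 h2 => ?_) hx
  rw [pr_bas, h1, h2]

theorem pr_self (hx : x ∈ Ty p q) : pr p q x = x := by rw [pr_of_mem hx, if_pos ⟨rfl, rfl⟩]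

theorem pr_ne (hx : x ∈ Ty p q) (h : ¬ (p = p' ∧ q = q')) : pr p' q' x = 0 := by
  rw [pr_of_mem hx, if_neg h]

/-- induction over homogeneous forms -/
theorem ind_Ty {P : V n → Prop} (h0 : P 0) (hadd : ∀ x y, P x → P y → P (x + y))
    (h : ∀ p q, ∀ x ∈ Ty p q, P x) (x : V n) : P x := by
  rw [← bas.sum_repr x]
  exact Finset.sum_induction _ P hadd h0 fun S _ => h _ _ _ (Submodule.smul_mem _ _ (bas_mem S))

theorem ext_Ty {W : Type*} [AddCommGroup W] [Module ℂ W] {S T : V n →ₗ[ℂ] W}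
    (h : ∀ p q, ∀ x ∈ Ty p q, S x = T x) : S = T := bas.ext fun U => h _ _ _ (bas_mem U)

theorem pr_mem (p q : ℕ) (x : V n) : pr p q x ∈ Ty p q := by
  induction x using ind_Ty with
  | h0 => simp
  | hadd x y hx hy => rw [map_add]; exact Submodule.add_mem _ hx hy
  | h p' q' x hx =>
    rw [pr_of_mem hx]
    split_ifs with h
    · exact h.1 ▸ h.2 ▸ hx
    · exact Submodule.zero_mem _

theorem mem_Ty_iff_pr : x ∈ Ty p q ↔ pr p q x = x := ⟨pr_self, fun h => h ▸ pr_mem p q x⟩

theorem pr_pr (p q p' q' : ℕ) (x : V n) :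
    pr p' q' (pr p q x) = if p = p' ∧ q = q' then pr p q x else 0 := pr_of_mem (pr_mem p q x) p' q'

theorem pr_mul_pr (p q p' q' : ℕ) :
    (pr p' q' * pr p q : Module.End ℂ (V n)) = if p = p' ∧ q = q' then pr p q else 0 := by
  refine LinearMap.ext fun x => ?_
  rw [Module.End.mul_apply, pr_pr]
  split_ifs <;> rfl

theorem pr_eq_zero (h : n < p ∨ n < q) : (pr p q : Module.End ℂ (V n)) = 0 :=
  LinearMap.ext fun x => Ty.eq_zero (pr_mem p q x) h

theorem sum_pr : ∑ pq ∈ Finset.range (n + 1) ×ˢ Finset.range (n + 1),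
    (pr pq.1 pq.2 : Module.End ℂ (V n)) = 1 := by
  refine bas.ext fun S => ?_
  rw [LinearMap.sum_apply, Finset.sum_eq_single (tp S, tq S)]
  · exact pr_self (bas_mem S)
  · intro b _ hb
    exact pr_ne (bas_mem S) fun h => hb (Prod.ext h.1.symm h.2.symm)
  · intro h
    have := tp_le S
    have := tq_le S
    simp only [Finset.mem_product, Finset.mem_range] at h
    omega

theorem sum_pr_apply (x : V n) :
    ∑ pq ∈ Finset.range (n + 1) ×ˢ Finset.range (n + 1), pr pq.1 pq.2 x = x := by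
  rw [← LinearMap.sum_apply, sum_pr]; rfl

theorem ext_pr (h : ∀ p q, pr p q x = pr p q y) : x = y := by
  rw [← sum_pr_apply x, ← sum_pr_apply y]
  exact Finset.sum_congr rfl fun _ _ => h _ _

theorem repr_pr (p q : ℕ) (x : V n) (S : K n) :
    bas.repr (pr p q x) S = if tp S = p ∧ tq S = q then bas.repr x S else 0 := by
  rw [repr_diag (T := pr p q) (f := fun S => if tp S = p ∧ tq S = q then 1 else 0)
    fun S => by rw [pr_bas]; split_ifs <;> simp]
  split_ifs <;> simp

/-- an additive map raising the type by `(s,t)` -/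
theorem pr_up {m s t : ℕ} {T : V m →+ V n} (hT : ∀ p q, ∀ x ∈ Ty p q, T x ∈ Ty (p + s) (q + t))
    (p q : ℕ) (x : V m) : pr (p + s) (q + t) (T x) = T (pr p q x) := by
  induction x using ind_Ty with
  | h0 => simp
  | hadd x y hx hy => simp only [map_add, hx, hy]
  | h p' q' x hx =>
    rw [pr_of_mem (hT _ _ _ hx), pr_of_mem hx]
    simp only [Nat.add_right_cancel_iff]
    split_ifs <;> simp

theorem pr_up_of_lt {m s t : ℕ} {T : V m →+ V n}
    (hT : ∀ p q, ∀ x ∈ Ty p q, T x ∈ Ty (p + s) (q + t)) (h : p < s ∨ q < t) (x : V m) :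
    pr p q (T x) = 0 := by
  induction x using ind_Ty with
  | h0 => simp
  | hadd x y hx hy => simp only [map_add, hx, hy, add_zero]
  | h p' q' x hx => exact pr_ne (hT _ _ _ hx) (by omega)

theorem pr_mul_left (hx : x ∈ Ty p q) (p' q' : ℕ) (y : V n) :
    pr (p' + p) (q' + q) (x * y) = x * pr p' q' y :=
  pr_up (T := AddMonoidHom.mulLeft x)
    (fun _ _ _ h => by rw [add_comm _ p, add_comm _ q]; exact Ty.mul hx h) p' q' y

theorem pr_mul_right (hx : x ∈ Ty p q) (p' q' : ℕ) (y : V n) :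
    pr (p' + p) (q' + q) (y * x) = pr p' q' y * x :=
  pr_up (T := AddMonoidHom.mulRight x) (fun _ _ _ h => Ty.mul h hx) p' q' y

theorem pr_mul_left_of_lt (hx : x ∈ Ty p q) (h : p' < p ∨ q' < q) (y : V n) :
    pr p' q' (x * y) = 0 :=
  pr_up_of_lt (T := AddMonoidHom.mulLeft x)
    (fun _ _ _ h => by rw [add_comm _ p, add_comm _ q]; exact Ty.mul hx h) h y

theorem pr_ez (a : Fin n) (p q : ℕ) : pr (p + 1) q * ez a = ez a * pr p q :=
  LinearMap.ext fun y => pr_mul_left (dz_mem a) p q y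

theorem pr_ezb (a : Fin n) (p q : ℕ) : pr p (q + 1) * ezb a = ezb a * pr p q :=
  LinearMap.ext fun y => pr_mul_left (dzb_mem a) p q y

theorem pr_zero_ez (a : Fin n) (q : ℕ) : pr 0 q * ez a = 0 :=
  LinearMap.ext fun y => by
    simpa using pr_mul_left_of_lt (p' := 0) (q' := q) (dz_mem a) (by omega) y

theorem pr_zero_ezb (a : Fin n) (p : ℕ) : pr p 0 * ezb a = 0 :=
  LinearMap.ext fun y => by
    simpa using pr_mul_left_of_lt (p' := p) (q' := 0) (dzb_mem a) (by omega) y

theorem pr_iz (a : Fin n) (p q : ℕ) : pr p q * iz a = iz a * pr (p + 1) q := by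
  refine ext_Ty fun p' q' x hx => ?_
  rw [Module.End.mul_apply, Module.End.mul_apply, pr_of_mem hx]
  cases p' with
  | zero => rw [Ty.iz_eq_zero a hx, if_neg (by omega), map_zero, map_zero]
  | succ p' =>
    rw [pr_of_mem (Ty.iz_mem a hx)]
    simp only [Nat.add_right_cancel_iff]
    split_ifs <;> simp

theorem pr_izb (a : Fin n) (p q : ℕ) : pr p q * izb a = izb a * pr p (q + 1) := by
  refine ext_Ty fun p' q' x hx => ?_
  rw [Module.End.mul_apply, Module.End.mul_apply, pr_of_mem hx]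
  cases q' with
  | zero => rw [Ty.izb_eq_zero a hx, if_neg (by omega), map_zero, map_zero]
  | succ q' =>
    rw [pr_of_mem (Ty.izb_mem a hx)]
    simp only [Nat.add_right_cancel_iff]
    split_ifs <;> simp

theorem iz_pr_zero (a : Fin n) (q : ℕ) : iz a * pr 0 q = 0 :=
  LinearMap.ext fun y => Ty.iz_eq_zero a (pr_mem 0 q y)

theorem izb_pr_zero (a : Fin n) (p : ℕ) : izb a * pr p 0 = 0 :=
  LinearMap.ext fun y => Ty.izb_eq_zero a (pr_mem p 0 y)

theorem Nz_pr (p q : ℕ) : (Nz * pr p q : Module.End ℂ (V n)) = (p : ℂ) • pr p q :=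
  LinearMap.ext fun y => (pr_mem p q y).1

theorem Nzb_pr (p q : ℕ) : (Nzb * pr p q : Module.End ℂ (V n)) = (q : ℂ) • pr p q :=
  LinearMap.ext fun y => (pr_mem p q y).2

theorem pr_pbC {m : ℕ} {L : Cn m →ₗ[ℝ] Cn n} (hL : ∀ v, L (I • v) = I • L v) (p q : ℕ) (x : V n) :
    pr p q (pbC L x) = pbC L (pr p q x) :=
  pr_up (s := 0) (t := 0) (T := (pbC L : V n →+ V m)) (fun _ _ _ h => Ty.pb_mem hL h) p q x

theorem pr_pbC' {m : ℕ} (L : Cn m →ₗ[ℂ] Cn n) (p q : ℕ) (x : V n) :
    pr p q (pbC (L.restrictScalars ℝ) x) = pbC (L.restrictScalars ℝ) (pr p q x) :=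
  pr_pbC (fun v => L.map_smul I v) p q x

theorem pr_invC (p q : ℕ) (x : V n) : pr p q (invC x) = invC (pr p q x) :=
  pr_up (s := 0) (t := 0) (T := (invC : V n →+* V n).toAddMonoidHom)
    (fun _ _ _ h => by
      change invC _ ∈ _
      rw [Ty.invC_eq h]; exact Submodule.smul_mem _ _ h) p q x

theorem pr_conj (p q : ℕ) (x : V n) : pr p q (Cx.conj x) = Cx.conj (pr q p x) := by
  induction x using ind_Ty with
  | h0 => simp
  | hadd x y hx hy => simp only [map_add, hx, hy]
  | h p' q' x hx =>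
    rw [pr_of_mem (Ty.conj_mem hx), pr_of_mem hx]
    simp only [and_comm]
    split_ifs <;> simp

theorem pr_zero_zero (x : V n) : pr 0 0 x = au x • 1 := by
  induction x using ind_Ty with
  | h0 => simp
  | hadd x y hx hy => simp only [map_add, hx, hy, add_smul]
  | h p q x hx =>
    rw [pr_of_mem hx]
    split_ifs with h
    · obtain ⟨rfl, rfl⟩ := h; exact Ty.eq_au hx
    · rw [Ty.au_eq_zero hx (by omega), zero_smul]

/-! ### comparison with `Frm` -/

theorem cv_eq_ioC {E : Type*} [AddCommGroup E] [Module ℝ E] (l : E →ₗ[ℝ] ℂ) :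
    cv l = Frm.ioC l := rfl

theorem ic_eq_iiC {E : Type*} [AddCommGroup E] [Module ℝ E] (v : E) : ic v = Frm.iiC v := rfl

section frm
variable {P : Module.End ℂ (Frm.W (Cn n))}

theorem mem_frm (h1 : ∀ a, P (zc a) = zc a) (h2 : ∀ a, P (zcb a) = 0) (hx : x ∈ Ty p q) :
    x ∈ Frm.Ty P p q := by
  have key : ∀ l : List (Ix n), mon l ∈ Frm.Ty P (l.countP Sum.isLeft) (l.countP Sum.isRight) := by
    intro l
    induction l with
    | nil => exact Frm.Ty_one P
    | cons i l ih =>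
      rw [mon_cons]
      rcases i with a | a
      · simpa [List.countP_cons, add_comm, dz, cv_eq_ioC] using Frm.Ty_mul (Frm.Ty_ioC_10 (h1 a)) ih
      · simpa [List.countP_cons, add_comm, dzb, cv_eq_ioC] using Frm.Ty_mul (Frm.Ty_ioC_01 (h2 a)) ih
  refine Ty.ind (P := fun x => x ∈ Frm.Ty P p q) (Submodule.zero_mem _)
    (fun _ _ => Submodule.add_mem _) (fun _ _ => Submodule.smul_mem _ _) (fun S k1 k2 => ?_) hx
  have := key S.toList
  rwa [(bas_countP S).1, (bas_countP S).2, k1, k2, ← bas_apply] at this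

theorem prj_eq (h1 : ∀ a, P (zc a) = zc a) (h2 : ∀ a, P (zcb a) = 0) (p q : ℕ) :
    Frm.prj P p q = pr p q :=
  ext_Ty fun _ _ _ hx => by rw [Frm.prj_of_mem (mem_frm h1 h2 hx), pr_of_mem hx]

theorem frm_Ty_eq (h1 : ∀ a, P (zc a) = zc a) (h2 : ∀ a, P (zcb a) = 0) (p q : ℕ) :
    Frm.Ty P p q = Ty p q := by
  ext x
  refine ⟨fun h => ?_, mem_frm h1 h2⟩
  rw [mem_Ty_iff_pr, ← prj_eq h1 h2, Frm.prj_self h]

end frm

/-! ### the top coefficient -/

variable (n) in
/-- the coefficient of `dx₀ dy₀ dx₁ dy₁ ⋯` -/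
def tpC : V n →ₗ[ℂ] ℂ where
  toFun c := ⟨Man.topC n c.re, Man.topC n c.im⟩
  map_add' a b := by apply Complex.ext <;> simp
  map_smul' z a := by apply Complex.ext <;> simp

@[simp] theorem tpC_re (c : V n) : (tpC n c).re = Man.topC n c.re := rfl
@[simp] theorem tpC_im (c : V n) : (tpC n c).im = Man.topC n c.im := rfl

theorem tpC_ofR (r : Ext (Cn n)) : tpC n (Cx.ofR r) = Man.topC n r := by
  apply Complex.ext <;> simp

theorem finrank_Cn : finrank ℝ (Cn n) = 2 * n := by
  rw [← (Man.cL0 n).finrank_eq, finrank_euclideanSpace, Fintype.card_fin]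

theorem topC_ii (v : Cn n) (c : Ext (Cn n)) : Man.topC n (ii v c) = 0 := by
  rw [Man.topC_apply, top_pb, ← evA_ii]
  refine AlternatingMap.map_linearDependent _ _ fun h => ?_
  have := h.fintype_card_le_finrank
  rw [finrank_Cn, Fintype.card_fin] at this
  omega

theorem tpC_ic (v : Cn n) (c : V n) : tpC n (ic v c) = 0 := by
  apply Complex.ext <;> simp [topC_ii]

theorem tpC_ct (i : Ix n) (c : V n) : tpC n (ct i c) = 0 := by
  obtain ⟨s, t, v, w, h⟩ := ct_eq i
  simp [h, tpC_ic]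

theorem tpC_iz (a : Fin n) (c : V n) : tpC n (iz a c) = 0 := tpC_ct (.inl a) c
theorem tpC_izb (a : Fin n) (c : V n) : tpC n (izb a c) = 0 := tpC_ct (.inr a) c

theorem tpC_conj (c : V n) : tpC n (Cx.conj c) = conj (tpC n c) := by
  apply Complex.ext <;> simp

theorem tpC_pbC_real (L : Cn n →ₗ[ℝ] Cn n) (c : V n) :
    tpC n (pbC L c) = (LinearMap.det L : ℝ) * tpC n c := by
  apply Complex.ext <;> simp [Man.topC_pb]

theorem tpC_pbC (L : Cn n →ₗ[ℂ] Cn n) (c : V n) :
    tpC n (pbC (L.restrictScalars ℝ) c) = (normSq (LinearMap.det L) : ℝ) * tpC n c := by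
  rw [tpC_pbC_real, LinearMap.det_restrictScalars, Algebra.norm_complex_apply]

theorem tpC_bas {S : K n} (h : S ≠ Finset.univ) : tpC n (bas S) = 0 := by
  obtain ⟨i, hi⟩ : ∃ i, i ∉ S := by
    by_contra hh
    exact h (Finset.eq_univ_of_forall fun i => by_contra fun hi => hh ⟨i, hi⟩)
  rw [bas_apply, ← ct_mon_cons (i := i) (by simpa using hi), tpC_ct]

theorem tpC_eq_repr (c : V n) : tpC n c = bas.repr c Finset.univ * tpC n (bas Finset.univ) := by
  conv_lhs => rw [← bas.sum_repr c, map_sum]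
  rw [Finset.sum_eq_single Finset.univ]
  · simp
  · intro S _ h; rw [map_smul, tpC_bas h, smul_zero]
  · simp

theorem tpC_pr (c : V n) : tpC n (pr n n c) = tpC n c := by
  rw [tpC_eq_repr, repr_pr, if_pos ⟨tp_univ, tq_univ⟩, ← tpC_eq_repr]

theorem tpC_of_mem (hx : x ∈ Ty p q) (h : ¬ (p = n ∧ q = n)) : tpC n x = 0 := by
  rw [← tpC_pr, pr_ne hx h, map_zero]

theorem tpC_pr_ne (h : ¬ (p = n ∧ q = n)) (c : V n) : tpC n (pr p q c) = 0 :=
  tpC_of_mem (pr_mem p q c) h

theorem tpC_invC (c : V n) : tpC n (invC c) = tpC n c := by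
  rw [← tpC_pr, pr_invC, Ty.invC_eq (pr_mem n n c), Even.neg_one_pow ⟨n, rfl⟩, one_smul, tpC_pr]

theorem tpC_comm (x y : V n) : tpC n (x * y) = tpC n (y * invC x) := by
  induction x using ind_Ty with
  | h0 => simp
  | hadd x z hx hz => simp only [add_mul, mul_add, map_add, hx, hz]
  | h p q x hx =>
    have h := Ty.invC_eq hx
    rcases Nat.even_or_odd (p + q) with he | he
    · rw [he.neg_one_pow, one_smul] at h
      rw [h, even_commC h]
    · rw [he.neg_one_pow, neg_one_smul] at h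
      rw [odd_commC h, ← tpC_invC, map_mul, invC_invC]

/-- contractions are (graded) skew for the top pairing -/
theorem tpC_ct_mul (i : Ix n) (x y : V n) : tpC n (ct i x * y) = - tpC n (invC x * ct i y) := by
  have := tpC_ct i (x * y)
  rw [ct_mul, map_add] at this
  exact eq_neg_of_add_eq_zero_left this

theorem tpC_th_mul (i : Ix n) (x y : V n) : tpC n (th i * x * y) = tpC n (invC x * (th i * y)) := by
  rw [th_mul, mul_assoc]

theorem I_dz_dzb (a : Fin n) : I • (dz a * dzb a) = (2 : ℂ) • Cx.ofR (Man.sq (Man.zc a)) := by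
  have h := Man.dz_cj_mul (Man.zc a)
  have h1 : dzb a * dz a = ⟨0, (2 : ℝ) • Man.sq (Man.zc a)⟩ := h
  have h2 : dz a * dzb a = - (dzb a * dz a) := th_anti (.inl a) (.inr a)
  rw [h2, h1]
  refine Cx.ext ?_ ?_
  · rw [Cx.csmul_re, Cx.csmul_re]; simp
  · rw [Cx.csmul_im, Cx.csmul_im]; simp

variable (n) in
/-- the standard Kähler form `∑ i dz_a dz̄_a = 2 ∑ dx_a dy_a` -/
def omg : V n := ∑ a, I • (dz a * dzb a)

variable (n) in
/-- the volume form `∏ i dz_a dz̄_a` -/
def vol : V n := (List.ofFn fun a : Fin n => I • (dz a * dzb a)).prod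

theorem omg_eq : omg n = (2 : ℂ) • Cx.ofR (Man.om0 n) := by
  simp only [omg, I_dz_dzb, Man.om0, Man.herm, map_sum, Finset.smul_sum]

theorem I_dz_dzb_mem (a : Fin n) : I • (dz a * dzb a) ∈ Ty 1 1 :=
  Submodule.smul_mem _ _ (by simpa using Ty.mul (dz_mem a) (dzb_mem a))

theorem omg_mem : omg n ∈ Ty 1 1 := Submodule.sum_mem _ fun a _ => I_dz_dzb_mem a

theorem conj_omg : Cx.conj (omg n) = omg n := by
  rw [omg_eq, conj_smul]
  congr 1
  · exact map_ofNat _ 2
  · refine Cx.ext ?_ ?_ <;> simp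

theorem omg_pow : omg n ^ n = (n.factorial : ℂ) • vol n ∧ omg n ^ (n + 1) = 0 := by
  have h := Man.sum_pow_length (List.ofFn fun a : Fin n => I • (dz a * dzb a))
    (fun u hu => by
      obtain ⟨a, rfl⟩ := List.mem_ofFn.1 hu
      refine even_commC ?_
      rw [Ty.invC_eq (I_dz_dzb_mem a)]; simp)
    (fun u hu => by
      obtain ⟨a, rfl⟩ := List.mem_ofFn.1 hu
      have h : mon [Sum.inl a, .inr a, .inl a, .inr a] = 0 := mon_eq_zero (by simp)
      simp only [mon_cons, mon_nil, mul_one, th_inl, th_inr] at h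
      rw [smul_mul_assoc, mul_smul_comm, mul_assoc, h, smul_zero, smul_zero])
  rw [List.length_ofFn, List.sum_ofFn] at h
  rw [Nat.cast_smul_eq_nsmul]
  exact h

theorem tpC_omg_pow : tpC n (omg n ^ n) = 2 ^ n * n.factorial := by
  rw [omg_eq, smul_pow, map_smul, ← map_pow, tpC_ofR, Man.topC_om0_pow, smul_eq_mul]
  norm_cast

theorem tpC_vol : tpC n (vol n) = 2 ^ n := by
  have h := tpC_omg_pow (n := n)
  rw [omg_pow.1, map_smul, smul_eq_mul, mul_comm] at h
  exact mul_right_cancel₀ (by exact_mod_cast n.factorial_ne_zero) h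

theorem vol_eq : vol n = ((n.factorial : ℂ))⁻¹ • omg n ^ n := by
  rw [omg_pow.1, smul_smul, inv_mul_cancel₀ (by exact_mod_cast n.factorial_ne_zero), one_smul]

theorem vol_mem : vol n ∈ Ty n n := by
  rw [vol_eq]
  simpa using Submodule.smul_mem _ _ (Ty.pow (omg_mem (n := n)) n)

theorem conj_vol : Cx.conj (vol n) = vol n := by
  rw [vol_eq, conj_smul, map_pow, conj_omg]
  simp

theorem tpC_univ_ne : tpC n (bas Finset.univ) ≠ 0 := fun h => by
  have := tpC_vol (n := n)
  rw [tpC_eq_repr, h, mul_zero] at this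
  exact pow_ne_zero n two_ne_zero this.symm

theorem Ty.top_eq_zero (hx : x ∈ Ty n n) (h : tpC n x = 0) : x = 0 := by
  refine bas.ext_elem fun S => ?_
  by_contra hS
  rw [map_zero] at hS
  obtain ⟨h1, h2⟩ := mem_Ty_iff.1 hx S hS
  rw [eq_univ_of_tp h1 h2] at hS
  rw [tpC_eq_repr] at h
  exact hS ((mul_eq_zero.1 h).resolve_right tpC_univ_ne)

theorem Ty.eq_vol (hx : x ∈ Ty n n) : x = (tpC n x / 2 ^ n) • vol n := by
  rw [← sub_eq_zero]
  refine Ty.top_eq_zero (Submodule.sub_mem _ hx (Submodule.smul_mem _ _ vol_mem)) ?_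
  rw [map_sub, map_smul, tpC_vol, smul_eq_mul, div_mul_cancel₀ _ (pow_ne_zero n two_ne_zero),
    sub_self]

theorem pr_top (c : V n) : pr n n c = (tpC n c / 2 ^ n) • vol n := by
  rw [Ty.eq_vol (pr_mem n n c), tpC_pr]

/-- a functional which vanishes on all contractions is a multiple of the top coefficient -/
theorem eq_tpC {t : V n →ₗ[ℂ] ℂ} (h : ∀ i c, t (ct i c) = 0) (c : V n) :
    t c = t (vol n) / 2 ^ n * tpC n c := by
  have h1 : t = t ∘ₗ pr n n := bas.ext fun S => by
    rw [LinearMap.comp_apply, pr_bas]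
    split_ifs with hS
    · rfl
    · obtain ⟨i, hi⟩ : ∃ i, i ∉ S := by
        by_contra hh
        have : S = Finset.univ := Finset.eq_univ_of_forall fun i => by_contra fun hi => hh ⟨i, hi⟩
        exact hS (this ▸ ⟨tp_univ, tq_univ⟩)
      rw [bas_apply, ← ct_mon_cons (i := i) (by simpa using hi), h, map_zero]
  rw [LinearMap.congr_fun h1 c, LinearMap.comp_apply, pr_top, map_smul, smul_eq_mul]
  ring

theorem tpC_bas_mul_ne {S T : K n} (h : T ≠ S) : tpC n (bas T * bas Sᶜ) = 0 := by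
  rw [bas_apply, bas_apply, ← mon_append]
  by_cases hl : (T.toList ++ Sᶜ.toList).Nodup
  · obtain ⟨s, -, hs⟩ := mon_eq_bas hl
    rw [hs, map_smul, tpC_bas, smul_zero]
    intro hu
    refine h (Finset.ext fun i => ⟨fun hi => ?_, fun hi => ?_⟩)
    · by_contra hS
      exact List.disjoint_of_nodup_append hl (by simpa using hi : i ∈ T.toList) (by simpa using hS)
    · have : i ∈ (T.toList ++ Sᶜ.toList).toFinset := hu ▸ Finset.mem_univ i
      simpa [hi] using this
  · rw [mon_eq_zero hl, map_zero]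

theorem tpC_bas_mul_self (S : K n) : tpC n (bas S * bas Sᶜ) ≠ 0 := by
  rw [bas_apply, bas_apply, ← mon_append]
  have hl : (S.toList ++ Sᶜ.toList).Nodup :=
    List.nodup_append.2 ⟨S.nodup_toList, Sᶜ.nodup_toList, fun a ha b hb hab => by
      subst hab; simp at ha hb; exact hb ha⟩
  obtain ⟨s, hs, h⟩ := mon_eq_bas hl
  have hu : (S.toList ++ Sᶜ.toList).toFinset = Finset.univ := by simp
  rw [h, hu, map_smul]
  refine smul_ne_zero (fun h0 => ?_) tpC_univ_ne
  rw [h0, mul_zero] at hs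
  exact zero_ne_one hs

/-- the top pairing is non-degenerate -/
theorem eq_zero_of_tpC (h : ∀ y, tpC n (x * y) = 0) : x = 0 := by
  refine bas.ext_elem fun S => ?_
  have := h (bas Sᶜ)
  rw [← bas.sum_repr x, Finset.sum_mul, map_sum, Finset.sum_eq_single S] at this
  · rw [smul_mul_assoc, map_smul] at this
    simpa using (smul_eq_zero.1 this).resolve_right (tpC_bas_mul_self S)
  · intro T _ hT; rw [smul_mul_assoc, map_smul, tpC_bas_mul_ne hT, smul_zero]
  · simp

end Crest.Agent.X262.Kah.Fib
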