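import Crest.Agent.X262.Kah.Sl2

/-!
# X262 / Kah (helper20), file GS: bigraded modules with Lefschetz operators

* `GS n V`      : type projections `pr p q` (`0 ≤ p, q ≤ n`), `L`, `Λ` with `[L,Λ] = p + q - n`;
* `dg c`        : the operator `c p q` on type `(p,q)`; `Sh a b X` : `X` has type `(a,b)`;
* `tri`, `w`, `w_pr`; `L_pow_inj` (hard Lefschetz, injective half), `prim_of`, `w_prim`;
* `L_pow_surj`  : surjective half in finite dimension;
* `quot`        : quotient by a stable submodule.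
-/

set_option autoImplicit false
set_option linter.unusedSectionVars false

open Finset

namespace Crest.Agent.X262.Kah

noncomputable section

/-- the possible types -/
def box (n : ℕ) : Finset (ℤ × ℤ) := Finset.Icc (0 : ℤ) n ×ˢ Finset.Icc (0 : ℤ) n

theorem mem_box {n : ℕ} {p q : ℤ} : (p, q) ∈ box n ↔ (0 ≤ p ∧ p ≤ n) ∧ (0 ≤ q ∧ q ≤ n) := by
  simp [box]

/-- bigraded module with Lefschetz operators -/
structure GS (n : ℕ) (V : Type*) [AddCommGroup V] [Module ℂ V] where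
  pr : ℤ → ℤ → Module.End ℂ V
  pr_pr : ∀ p q, pr p q * pr p q = pr p q
  pr_ne : ∀ p q p' q', (p, q) ≠ (p', q') → pr p q * pr p' q' = 0
  pr_out : ∀ p q, (p, q) ∉ box n → pr p q = 0
  pr_sum : ∑ x ∈ box n, pr x.1 x.2 = 1
  L : Module.End ℂ V
  Λ : Module.End ℂ V
  L_pr : ∀ p q, L * pr p q = pr (p + 1) (q + 1) * L
  Λ_pr : ∀ p q, Λ * pr p q = pr (p + -1) (q + -1) * Λ
  comm : ∀ p q, (L * Λ - Λ * L) * pr p q = ((p + q - n : ℤ) : ℂ) • pr p q

namespace GS

variable {n : ℕ} {V : Type*} [AddCommGroup V] [Module ℂ V] (G : GS n V)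

/-- `u` has type `(p,q)` -/
def Ty (p q : ℤ) (u : V) : Prop := G.pr p q u = u

/-- the operator `X` has type `(a,b)` -/
def Sh (a b : ℤ) (X : Module.End ℂ V) : Prop := ∀ p q, X * G.pr p q = G.pr (p + a) (q + b) * X

/-- the operator `c p q` on type `(p,q)` -/
def dg (c : ℤ → ℤ → ℂ) : Module.End ℂ V := ∑ x ∈ box n, c x.1 x.2 • G.pr x.1 x.2

theorem sum_pr (u : V) : ∑ x ∈ box n, G.pr x.1 x.2 u = u := by
  have := LinearMap.congr_fun G.pr_sum u
  rwa [LinearMap.sum_apply] at this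

theorem ty_pr (p q : ℤ) (u : V) : G.Ty p q (G.pr p q u) := LinearMap.congr_fun (G.pr_pr p q) u

variable {G}

theorem Ty.pr_ne {p q p' q' : ℤ} {u : V} (h : G.Ty p q u) (hne : (p', q') ≠ (p, q)) :
    G.pr p' q' u = 0 := by
  rw [← h]; exact LinearMap.congr_fun (G.pr_ne p' q' p q hne) u

theorem Ty.eq_zero {p q : ℤ} {u : V} (h : G.Ty p q u) (ho : (p, q) ∉ box n) : u = 0 := by
  rw [← h, G.pr_out p q ho]; rfl

theorem Ty.zero (p q : ℤ) : G.Ty p q 0 := map_zero _
theorem Ty.add {p q : ℤ} {u v : V} (h : G.Ty p q u) (h' : G.Ty p q v) : G.Ty p q (u + v) := by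
  unfold Ty at *; rw [map_add, h, h']
theorem Ty.sub {p q : ℤ} {u v : V} (h : G.Ty p q u) (h' : G.Ty p q v) : G.Ty p q (u - v) := by
  unfold Ty at *; rw [map_sub, h, h']
theorem Ty.neg {p q : ℤ} {u : V} (h : G.Ty p q u) : G.Ty p q (-u) := by
  unfold Ty at *; rw [map_neg, h]
theorem Ty.smul {p q : ℤ} {u : V} (c : ℂ) (h : G.Ty p q u) : G.Ty p q (c • u) := by
  unfold Ty at *; rw [map_smul, h]

theorem ty_of_ne {p q : ℤ} {u : V} (h : ∀ p' q', (p', q') ≠ (p, q) → G.pr p' q' u = 0) :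
    G.Ty p q u := by
  have h1 := G.sum_pr u
  by_cases hb : (p, q) ∈ box n
  · rw [Finset.sum_eq_single (p, q) (fun x _ hx => h x.1 x.2 hx) (fun h' => absurd hb h')] at h1
    exact h1
  · rw [Finset.sum_eq_zero fun x hx => h x.1 x.2 (fun e => hb (e ▸ hx))] at h1
    rw [← h1]; exact Ty.zero p q

theorem Sh.apply {a b : ℤ} {X : Module.End ℂ V} (h : G.Sh a b X) (p q : ℤ) (u : V) :
    X (G.pr p q u) = G.pr (p + a) (q + b) (X u) := LinearMap.congr_fun (h p q) u

theorem Sh.ty {a b p q : ℤ} {X : Module.End ℂ V} (h : G.Sh a b X) {u : V} (hu : G.Ty p q u) :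
    G.Ty (p + a) (q + b) (X u) := by
  unfold Ty; rw [← h.apply, hu]

theorem Sh.mul {a b a' b' : ℤ} {X Y : Module.End ℂ V} (h : G.Sh a b X) (h' : G.Sh a' b' Y) :
    G.Sh (a' + a) (b' + b) (X * Y) := fun p q => by
  rw [mul_assoc, h', ← mul_assoc, h, mul_assoc, add_assoc, add_assoc]

theorem Sh.sub {a b : ℤ} {X Y : Module.End ℂ V} (h : G.Sh a b X) (h' : G.Sh a b Y) :
    G.Sh a b (X - Y) := fun p q => by rw [sub_mul, mul_sub, h, h']

theorem Sh.add {a b : ℤ} {X Y : Module.End ℂ V} (h : G.Sh a b X) (h' : G.Sh a b Y) :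
    G.Sh a b (X + Y) := fun p q => by rw [add_mul, mul_add, h, h']

theorem Sh.smul {a b : ℤ} {X : Module.End ℂ V} (c : ℂ) (h : G.Sh a b X) :
    G.Sh a b (c • X) := fun p q => by rw [smul_mul_assoc, mul_smul_comm, h]

theorem Sh.sum {ι : Type*} {a b : ℤ} (s : Finset ι) {X : ι → Module.End ℂ V}
    (h : ∀ i ∈ s, G.Sh a b (X i)) : G.Sh a b (∑ i ∈ s, X i) := fun p q => by
  rw [Finset.sum_mul, Finset.mul_sum]
  exact Finset.sum_congr rfl fun i hi => h i hi p q

theorem Sh.cast {a b a' b' : ℤ} {X : Module.End ℂ V} (h : G.Sh a b X) (ha : a = a') (hb : b = b') :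
    G.Sh a' b' X := ha ▸ hb ▸ h

theorem Sh.pow {a b : ℤ} {X : Module.End ℂ V} (h : G.Sh a b X) (m : ℕ) :
    G.Sh (m * a) (m * b) (X ^ m) := by
  induction m with
  | zero => intro p q; simp
  | succ m ih => rw [pow_succ']; exact (h.mul ih).cast (by push_cast; ring) (by push_cast; ring)

theorem sh_of_ty {a b : ℤ} {X : Module.End ℂ V}
    (h : ∀ p q u, G.Ty p q u → G.Ty (p + a) (q + b) (X u)) : G.Sh a b X := fun p q => by
  ext u
  change X (G.pr p q u) = G.pr (p + a) (q + b) (X u)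
  conv_rhs => rw [← G.sum_pr u, map_sum, map_sum]
  by_cases hb : (p, q) ∈ box n
  · rw [Finset.sum_eq_single (p, q) _ (fun h' => absurd hb h')]
    · exact (h p q _ (G.ty_pr p q u)).symm
    · intro x _ hx
      refine (h x.1 x.2 _ (G.ty_pr _ _ u)).pr_ne fun e => hx ?_
      simp only [Prod.mk.injEq, add_left_inj] at e
      exact Prod.ext e.1.symm e.2.symm
  · rw [G.pr_out p q hb, Finset.sum_eq_zero]
    · simp
    · intro x hx
      refine (h x.1 x.2 _ (G.ty_pr _ _ u)).pr_ne fun e => hb ?_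
      simp only [Prod.mk.injEq, add_left_inj] at e
      rw [e.1, e.2]; exact hx

variable (G)

theorem sh_L : G.Sh 1 1 G.L := G.L_pr
theorem sh_Λ : G.Sh (-1) (-1) G.Λ := G.Λ_pr

theorem ext_pr {X Y : Module.End ℂ V} (h : ∀ p q, X * G.pr p q = Y * G.pr p q) : X = Y := by
  rw [← mul_one X, ← mul_one Y, ← G.pr_sum, Finset.mul_sum, Finset.mul_sum]
  exact Finset.sum_congr rfl fun x _ => h _ _

theorem dg_pr (c : ℤ → ℤ → ℂ) (p q : ℤ) : G.dg c * G.pr p q = c p q • G.pr p q := by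
  unfold dg
  rw [Finset.sum_mul]
  by_cases hb : (p, q) ∈ box n
  · rw [Finset.sum_eq_single (p, q) _ (fun h' => absurd hb h'), smul_mul_assoc, G.pr_pr]
    intro x _ hx
    rw [smul_mul_assoc, G.pr_ne _ _ _ _ hx, smul_zero]
  · simp [G.pr_out p q hb]

theorem pr_dg (c : ℤ → ℤ → ℂ) (p q : ℤ) : G.pr p q * G.dg c = c p q • G.pr p q := by
  unfold dg
  rw [Finset.mul_sum]
  by_cases hb : (p, q) ∈ box n
  · rw [Finset.sum_eq_single (p, q) _ (fun h' => absurd hb h'), mul_smul_comm, G.pr_pr]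
    intro x _ hx
    rw [mul_smul_comm, G.pr_ne _ _ _ _ (Ne.symm hx), smul_zero]
  · simp [G.pr_out p q hb]

theorem sh_dg (c : ℤ → ℤ → ℂ) : G.Sh 0 0 (G.dg c) := fun p q => by
  rw [add_zero, add_zero, dg_pr, pr_dg]

theorem dg_mul (c c' : ℤ → ℤ → ℂ) : G.dg c * G.dg c' = G.dg fun p q => c p q * c' p q :=
  G.ext_pr fun p q => by rw [mul_assoc, dg_pr, mul_smul_comm, dg_pr, dg_pr, smul_smul, mul_comm]

theorem dg_one : G.dg (fun _ _ => 1) = 1 := G.ext_pr fun p q => by rw [dg_pr, one_smul, one_mul]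

variable {G}

theorem Ty.dg {p q : ℤ} {u : V} (h : G.Ty p q u) (c : ℤ → ℤ → ℂ) : G.dg c u = c p q • u := by
  have := LinearMap.congr_fun (G.dg_pr c p q) u
  rw [Module.End.mul_apply, LinearMap.smul_apply, h] at this
  exact this

theorem Sh.dg {a b : ℤ} {X : Module.End ℂ V} (h : G.Sh a b X) (c : ℤ → ℤ → ℂ) :
    G.dg c * X = X * G.dg fun p q => c (p + a) (q + b) :=
  G.ext_pr fun p q => by
    rw [mul_assoc, h, ← mul_assoc, dg_pr, mul_assoc, dg_pr, smul_mul_assoc, mul_smul_comm, h]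

theorem Sh.nil {a b : ℤ} {X : Module.End ℂ V} (h : G.Sh a b X) (ha : a ≠ 0) :
    X ^ (n + 1) = 0 := by
  refine G.ext_pr fun p q => ?_
  rw [zero_mul]
  by_cases hb : (p, q) ∈ box n
  · rw [h.pow (n + 1), G.pr_out, zero_mul]
    rw [mem_box] at hb ⊢
    rintro ⟨⟨h1, h2⟩, -⟩
    push_cast at h1 h2
    rcases lt_or_gt_of_ne ha with h3 | h3 <;> nlinarith [hb.1.1, hb.1.2]
  · rw [G.pr_out p q hb, mul_zero]

variable (G)

/-- the weight operator `p + q - n` -/
def H : Module.End ℂ V := G.dg fun p q => ((p + q - n : ℤ) : ℂ)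

/-- the parity operator -/
def par : Module.End ℂ V := G.dg fun p q => (-1 : ℂ) ^ (p + q)

variable {G}

theorem Sh.H {a b : ℤ} {X : Module.End ℂ V} (h : G.Sh a b X) :
    G.H * X - X * G.H = ((a + b : ℤ) : ℂ) • X := by
  unfold GS.H
  rw [h.dg]
  refine G.ext_pr fun p q => ?_
  rw [sub_mul, mul_assoc, mul_assoc, dg_pr, dg_pr, mul_smul_comm, mul_smul_comm, ← sub_smul,
    smul_mul_assoc]
  congr 1; push_cast; ring

theorem Sh.par {a b : ℤ} {X : Module.End ℂ V} (h : G.Sh a b X) :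
    G.par * X = (-1 : ℂ) ^ (a + b) • (X * G.par) := by
  unfold GS.par
  rw [h.dg]
  refine G.ext_pr fun p q => ?_
  rw [smul_mul_assoc, mul_assoc, mul_assoc, dg_pr, dg_pr, mul_smul_comm, mul_smul_comm, smul_smul,
    ← zpow_add₀ (by norm_num)]
  congr 2; ring

variable (G)

theorem tri : Tri G.L G.Λ G.H where
  nL := ⟨n + 1, G.sh_L.nil one_ne_zero⟩
  nΛ := ⟨n + 1, G.sh_Λ.nil (by norm_num)⟩
  LΛ := G.ext_pr fun p q => by rw [G.comm, H, dg_pr]
  HL := by rw [G.sh_L.H]; norm_num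
  HΛ := by rw [G.sh_Λ.H]; norm_num

/-- the Weyl element -/
def w : Module.End ℂ V := wey G.L G.Λ

/-- its inverse -/
def wI : Module.End ℂ V := weyI G.L G.Λ

theorem w_wI : G.w * G.wI = 1 := G.tri.wey_weyI
theorem wI_w : G.wI * G.w = 1 := G.tri.weyI_wey

theorem dg_w {c : ℤ → ℤ → ℂ} (hc : ∀ p q, c (p + 1) (q + 1) = c p q) :
    G.dg c * G.w = G.w * G.dg c := by
  refine G.tri.comm_wey ?_ ?_
  · rw [G.sh_L.dg]; simp only [hc]
  · rw [G.sh_Λ.dg]
    congr 2
    funext p q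
    rw [← hc (p + -1) (q + -1)]; congr 1 <;> ring

theorem par_w : G.par * G.w = G.w * G.par := G.dg_w fun p q => by
  rw [show p + 1 + (q + 1) = p + q + 2 by ring, zpow_add₀ (by norm_num)]; norm_num

variable {G}

theorem Ty.w {p q : ℤ} {u : V} (h : G.Ty p q u) : G.Ty (n - q) (n - p) (G.w u) := by
  have h1 : G.H (G.w u) = ((n - p - q : ℤ) : ℂ) • G.w u := by
    have := LinearMap.congr_fun G.tri.H_wey u
    change G.H (G.w u) = - G.w (G.H u) at this
    rw [this, GS.H, h.dg, map_smul, ← neg_smul]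
    congr 1; push_cast; ring
  have h2 : G.dg (fun p q => ((p - q : ℤ) : ℂ)) (G.w u) = ((p - q : ℤ) : ℂ) • G.w u := by
    have := LinearMap.congr_fun (G.dg_w (c := fun p q => ((p - q : ℤ) : ℂ))
      fun p q => by congr 1; ring) u
    rw [Module.End.mul_apply, Module.End.mul_apply, h.dg, map_smul] at this
    exact this
  refine ty_of_ne fun p' q' hne => ?_
  have e1 := LinearMap.congr_fun (G.pr_dg (fun p q => ((p + q - n : ℤ) : ℂ)) p' q') (G.w u)
  have e2 := LinearMap.congr_fun (G.pr_dg (fun p q => ((p - q : ℤ) : ℂ)) p' q') (G.w u)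
  rw [Module.End.mul_apply, LinearMap.smul_apply] at e1 e2
  rw [show G.dg (fun p q => ((p + q - n : ℤ) : ℂ)) = G.H from rfl, h1, map_smul, ← sub_eq_zero,
    ← sub_smul, smul_eq_zero] at e1
  rw [h2, map_smul, ← sub_eq_zero, ← sub_smul, smul_eq_zero] at e2
  rcases e1 with e1 | e1
  · rcases e2 with e2 | e2
    · exfalso
      rw [sub_eq_zero, Int.cast_inj] at e1 e2
      exact hne (Prod.ext (by simp only; omega) (by simp only; omega))
    · exact e2
  · exact e1

theorem w_pr (p q : ℤ) (u : V) : G.w (G.pr p q u) = G.pr (n - q) (n - p) (G.w u) := by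
  conv_rhs => rw [← G.sum_pr u, map_sum, map_sum]
  by_cases hb : (p, q) ∈ box n
  · rw [Finset.sum_eq_single (p, q) _ (fun h' => absurd hb h')]
    · exact (G.ty_pr p q u).w.symm
    · intro x _ hx
      refine (G.ty_pr _ _ u).w.pr_ne fun e => hx ?_
      simp only [Prod.mk.injEq, sub_right_inj] at e
      exact Prod.ext e.2.symm e.1.symm
  · rw [G.pr_out p q hb, Finset.sum_eq_zero]
    · simp
    · intro x hx
      refine (G.ty_pr _ _ u).w.pr_ne fun e => hb ?_
      simp only [Prod.mk.injEq, sub_right_inj] at e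
      rw [e.1, e.2]; exact hx

theorem LΛ_apply {p q : ℤ} {u : V} (h : G.Ty p q u) :
    G.L (G.Λ u) = G.Λ (G.L u) + ((p + q - n : ℤ) : ℂ) • u := by
  have := LinearMap.congr_fun (G.comm p q) u
  rw [Module.End.mul_apply, LinearMap.smul_apply, h] at this
  rw [← this]
  simp

theorem Ty.L_pow {p q : ℤ} {u : V} (h : G.Ty p q u) (m : ℕ) :
    G.Ty (p + m) (q + m) ((G.L ^ m) u) := by
  simpa using (G.sh_L.pow m).ty h

theorem pow_Λ {p q : ℤ} {u : V} (h : G.Ty p q u) (m : ℕ) :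
    (G.L ^ (m + 1)) (G.Λ u) = G.Λ ((G.L ^ (m + 1)) u) +
      (((m : ℂ) + 1) * ((p + q - n + m : ℤ) : ℂ)) • (G.L ^ m) u := by
  induction m with
  | zero => simpa using LΛ_apply h
  | succ m ih =>
    rw [pow_succ' G.L (m + 1), Module.End.mul_apply, Module.End.mul_apply, ih, map_add, map_smul,
      LΛ_apply (h.L_pow (m + 1)), ← Module.End.mul_apply G.L (G.L ^ m), ← pow_succ', add_assoc,
      ← add_smul]
    congr 2; push_cast; ring

theorem prim_zero {p q : ℤ} {u : V} (h : G.Ty p q u) (hΛ : G.Λ u = 0) {m : ℕ}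
    (hm : p + q + m ≤ n) (h0 : (G.L ^ m) u = 0) : u = 0 := by
  induction m with
  | zero => simpa using h0
  | succ m ih =>
    apply ih (by push_cast at hm; omega)
    have := pow_Λ h m
    rw [hΛ, h0, map_zero, map_zero, zero_add, eq_comm, smul_eq_zero] at this
    refine this.resolve_left (mul_ne_zero (by exact_mod_cast Nat.succ_ne_zero m) ?_)
    rw [Int.cast_ne_zero]; push_cast at hm; omega

/-- **hard Lefschetz**, injective half -/
theorem L_pow_inj {p q : ℤ} {r : ℕ} (hr : p + q + r = n) {u : V} (h : G.Ty p q u)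
    (h0 : (G.L ^ r) u = 0) : u = 0 := by
  by_cases hp : 0 ≤ p
  swap
  · exact h.eq_zero fun hb => hp (mem_box.1 hb).1.1
  obtain ⟨k, rfl⟩ := Int.eq_ofNat_of_zero_le hp
  clear hp
  induction k generalizing q r u with
  | zero =>
    exact prim_zero h ((G.sh_Λ.ty h).eq_zero fun hb => by
      have := (mem_box.1 hb).1.1; simp at this) hr.le h0
  | succ k ih =>
    refine prim_zero h ?_ hr.le h0
    have h1 : G.Ty (k : ℤ) (q + -1) (G.Λ u) := by simpa using G.sh_Λ.ty h
    have h2 : (k : ℤ) + (q + -1) + ((r + 2 : ℕ) : ℤ) = n := by push_cast at hr ⊢; omega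
    suffices h3 : (G.L ^ (r + 2)) (G.Λ u) = 0 by apply ih <;> assumption
    have e : (G.L ^ (r + 1)) u = 0 := by rw [pow_succ', Module.End.mul_apply, h0, map_zero]
    rw [pow_succ' G.L (r + 1), Module.End.mul_apply, pow_Λ h r, e, h0]
    simp

/-- `L^{r+1} u = 0` forces `u` to be primitive -/
theorem prim_of {p q : ℤ} {r : ℕ} (hr : p + q + r = n) {u : V} (h : G.Ty p q u)
    (h0 : (G.L ^ (r + 1)) u = 0) : G.Λ u = 0 := by
  refine L_pow_inj (r := r + 2) (by push_cast; omega) (G.sh_Λ.ty h) ?_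
  have e : ((p + q - n + r : ℤ) : ℂ) = 0 := by rw [Int.cast_eq_zero]; omega
  rw [pow_succ' G.L (r + 1), Module.End.mul_apply, pow_Λ h r, h0, e]
  simp

theorem prim_pow {p q : ℤ} {r : ℕ} (hr : p + q + r = n) {u : V} (h : G.Ty p q u)
    (hΛ : G.Λ u = 0) : (G.L ^ (r + 1)) u = 0 := by
  -- descending induction from the nilpotency order
  have key : ∀ j : ℕ, (G.L ^ (r + 1 + j)) u = 0 → (G.L ^ (r + 1)) u = 0 := by
    intro j
    induction j with
    | zero => exact id
    | succ j ih =>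
      intro h0
      apply ih
      have := pow_Λ h (r + 1 + j)
      rw [hΛ, map_zero, show r + 1 + j + 1 = r + 1 + (j + 1) by ring, h0, map_zero, zero_add,
        eq_comm, smul_eq_zero] at this
      refine this.resolve_left (mul_ne_zero (by exact_mod_cast Nat.succ_ne_zero (r + 1 + j)) ?_)
      rw [Int.cast_ne_zero]; push_cast; omega
  apply key n
  rw [show r + 1 + n = r + (n + 1) by ring, pow_add, G.sh_L.nil one_ne_zero]
  simp

theorem ex_apply {a : Module.End ℂ V} {k : ℕ} (h : a ^ k = 0) (u : V) :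
    ex a u = ∑ i ∈ range k, ((i.factorial : ℂ))⁻¹ • (a ^ i) u := by
  rw [ex_eq h, exS, LinearMap.sum_apply]; rfl

/-- the Weyl element on a primitive vector -/
theorem w_prim {p q : ℤ} {r : ℕ} (hr : p + q + r = n) {u : V} (h : G.Ty p q u) (hΛ : G.Λ u = 0) :
    G.w u = ((-1 : ℂ) ^ r * ((r.factorial : ℂ))⁻¹) • (G.L ^ r) u := by
  by_cases hb : (p, q) ∈ box n
  swap
  · rw [h.eq_zero hb]; simp
  rw [mem_box] at hb
  have nΛ : G.Λ ^ (n + 1) = 0 := G.sh_Λ.nil (by norm_num)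
  have nΛ' : (-G.Λ) ^ (n + 1) = 0 := by rw [neg_pow, nΛ, mul_zero]
  have nL' : (-G.L) ^ (n + 1) = 0 := by rw [neg_pow, G.sh_L.nil one_ne_zero, mul_zero]
  have e0 : ex G.Λ u = u := by
    rw [ex_apply nΛ, Finset.sum_range_succ', Finset.sum_eq_zero]
    · simp
    · intro i _
      rw [pow_succ, Module.End.mul_apply, hΛ, map_zero, smul_zero]
  have e1 : ex (-G.Λ) (G.w u) = ex (-G.L) u := by
    change ex (-G.Λ) (ex G.Λ (ex (-G.L) (ex G.Λ u))) = _
    rw [e0, ← Module.End.mul_apply, ex_neg_mul G.tri.nΛ]; rfl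
  have shn : ∀ {a : ℤ} {X : Module.End ℂ V}, G.Sh a a X → G.Sh a a (-X) := fun hX => by
    simpa using hX.smul (-1)
  have e2 := congrArg (G.pr (n - q) (n - p)) e1
  rw [ex_apply nΛ', ex_apply nL', map_sum, map_sum, Finset.sum_eq_single 0,
    Finset.sum_eq_single r] at e2
  · have t1 : G.Ty (n - q) (n - p) (((-G.L) ^ r) u) := by
      have := ((shn G.sh_L).pow r).ty h
      convert this using 1 <;> omega
    rw [map_smul, map_smul, t1] at e2
    simp only [Nat.factorial_zero, Nat.cast_one, inv_one, pow_zero, Module.End.one_apply,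
      one_smul] at e2
    rw [h.w] at e2
    rw [e2, neg_pow, Module.End.mul_apply]
    have : ((-1 : Module.End ℂ V) ^ r) ((G.L ^ r) u) = (-1 : ℂ) ^ r • (G.L ^ r) u := by
      rcases neg_one_pow_eq_or ℂ r with h1 | h1 <;> rcases Nat.even_or_odd r with h2 | h2 <;>
        simp [h2.neg_one_pow]
    rw [this, smul_smul, mul_comm]
  · intro i _ hi
    rw [map_smul, (((shn G.sh_L).pow i).ty h).pr_ne, smul_zero]
    intro e
    simp only [Prod.mk.injEq] at e
    omega
  · intro hi; exfalso; apply hi; rw [Finset.mem_range]; omega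
  · intro i _ hi
    rw [map_smul, (((shn G.sh_Λ).pow i).ty h.w).pr_ne, smul_zero]
    intro e
    simp only [Prod.mk.injEq] at e
    omega
  · intro hi; exfalso; apply hi; rw [Finset.mem_range]; omega

/-- **hard Lefschetz**, surjective half (finite dimension) -/
theorem L_pow_surj [FiniteDimensional ℂ V] {p q : ℤ} {r : ℕ} (hr : p + q + r = n) {v : V}
    (hv : G.Ty (p + r) (q + r) v) : ∃ u, G.Ty p q u ∧ (G.L ^ r) u = v := by
  let A : Submodule ℂ V := LinearMap.range (G.pr p q)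
  have hA : ∀ u, u ∈ A ↔ G.Ty p q u := fun u =>
    ⟨fun ⟨x, hx⟩ => hx ▸ G.ty_pr p q x, fun h => ⟨u, h⟩⟩
  have hwI : ∀ v, G.Ty (p + r) (q + r) v → G.Ty p q (G.wI v) := fun v hv => by
    have h1 : G.w (G.wI v) = v := LinearMap.congr_fun G.w_wI v
    have h2 := w_pr (G := G) p q (G.wI v)
    rw [h1, show (n : ℤ) - q = p + r by omega, show (n : ℤ) - p = q + r by omega, hv] at h2
    have h3 := congrArg G.wI h2
    rwa [← Module.End.mul_apply, G.wI_w] at h3
  let f : A →ₗ[ℂ] A := (G.wI * G.L ^ r).restrict fun u hu =>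
    (hA _).2 (hwI _ (((hA u).1 hu).L_pow r))
  have hinj : Function.Injective f := by
    rw [injective_iff_map_eq_zero]
    intro u hu
    have h1 : G.wI ((G.L ^ r) u.1) = 0 := congrArg Subtype.val hu
    have h2 := congrArg G.w h1
    rw [← Module.End.mul_apply, G.w_wI, map_zero] at h2
    exact Subtype.ext (L_pow_inj hr ((hA _).1 u.2) h2)
  obtain ⟨u, hu⟩ := LinearMap.injective_iff_surjective.1 hinj ⟨G.wI v, (hA _).2 (hwI v hv)⟩
  refine ⟨u.1, (hA _).1 u.2, ?_⟩
  have h1 : G.wI ((G.L ^ r) u.1) = G.wI v := congrArg Subtype.val hu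
  have h2 := congrArg G.w h1
  rwa [← Module.End.mul_apply, ← Module.End.mul_apply G.w, G.w_wI] at h2

/-- quotient by a stable submodule -/
def quot (G : GS n V) (N : Submodule ℂ V) (h1 : ∀ p q, N ≤ N.comap (G.pr p q))
    (h2 : N ≤ N.comap G.L) (h3 : N ≤ N.comap G.Λ) : GS n (V ⧸ N) where
  pr p q := N.mapQ N (G.pr p q) (h1 p q)
  pr_pr p q := by
    ext u; exact congrArg N.mkQ (LinearMap.congr_fun (G.pr_pr p q) u)
  pr_ne p q p' q' h := by
    ext u; exact congrArg N.mkQ (LinearMap.congr_fun (G.pr_ne p q p' q' h) u)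
  pr_out p q h := by
    ext u; exact congrArg N.mkQ (LinearMap.congr_fun (G.pr_out p q h) u)
  pr_sum := by
    ext u
    have := congrArg N.mkQ (G.sum_pr u)
    rw [map_sum] at this
    simpa [LinearMap.sum_apply] using this
  L := N.mapQ N G.L h2
  Λ := N.mapQ N G.Λ h3
  L_pr p q := by
    ext u; exact congrArg N.mkQ (LinearMap.congr_fun (G.L_pr p q) u)
  Λ_pr p q := by
    ext u; exact congrArg N.mkQ (LinearMap.congr_fun (G.Λ_pr p q) u)
  comm p q := by
    ext u; exact congrArg N.mkQ (LinearMap.congr_fun (G.comm p q) u)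

end GS

end

end Crest.Agent.X262.Kah
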