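import Crest.Agent.X262.Kah.KP

/-!
# X262 / Kah (helper20), file Hdg: Hodge theory of a Kaehler package

`G.PC p q z` : `z` is closed and of type `(p,q)`;  `G.Ex a` : `a` is `d`-exact.

* `KP.exists_dec`, `KP.ex_of_sum`   : Hodge decomposition (existence, uniqueness);
* `KP.ddbar`, `KP.ex_iff_db`, `KP.ex_iff_del` : the `∂∂̄`-lemma;
* `KP.dolb`                         : `∂̄`-closed pure forms are closed modulo `∂̄`-exact forms;
* `KP.hl_inj`, `KP.hl_surj`, `KP.lef_dec` : hard Lefschetz, Lefschetz decomposition;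
* `KP.hr`                           : Hodge-Riemann;
* `KP.pd`, `KP.exists_fin`          : Poincare duality, finite dimension.
-/

set_option autoImplicit false
set_option linter.unusedSectionVars false

open Complex
open scoped ComplexConjugate ComplexOrder

namespace Crest.Agent.X262.Kah

noncomputable section

variable {n : ℕ} {S : Type*} [AddCommGroup S] [Module ℂ S]

namespace KA

variable (G : KA n S)

/-- closed of pure type -/
structure PC (p q : ℤ) (z : S) : Prop where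
  ty : G.Ty p q z
  cl : G.d z = 0

/-- exact -/
def Ex (a : S) : Prop := ∃ η, G.d η = a

theorem pr_d (p q : ℤ) (u : S) :
    G.pr p q (G.d u) = G.del (G.pr (p - 1) q u) + G.db (G.pr p (q - 1) u) := by
  rw [d_apply, map_add, G.sh_del.apply, G.sh_db.apply]
  simp

variable {G}

theorem ty_del {p q : ℤ} {u : S} (h : G.Ty p q u) : G.Ty (p + 1) q (G.del u) := by
  simpa using G.sh_del.ty h

theorem ty_db {p q : ℤ} {u : S} (h : G.Ty p q u) : G.Ty p (q + 1) (G.db u) := by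
  simpa using G.sh_db.ty h

theorem PC.del {p q : ℤ} {z : S} (h : G.PC p q z) : G.del z = 0 := by
  have := G.pr_d (p + 1) q z
  rw [h.cl, map_zero, add_sub_cancel_right, h.ty, h.ty.pr_ne (by simp), map_zero, add_zero] at this
  exact this.symm

theorem PC.db {p q : ℤ} {z : S} (h : G.PC p q z) : G.db z = 0 := by
  have := h.cl
  rwa [d_apply, h.del, zero_add] at this

theorem pc_of {p q : ℤ} {z : S} (h : G.Ty p q z) (h1 : G.del z = 0) (h2 : G.db z = 0) :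
    G.PC p q z := ⟨h, by rw [d_apply, h1, h2, add_zero]⟩

theorem PC.zero (p q : ℤ) : G.PC p q 0 := ⟨GS.Ty.zero p q, map_zero _⟩
theorem PC.add {p q : ℤ} {z z' : S} (h : G.PC p q z) (h' : G.PC p q z') : G.PC p q (z + z') :=
  ⟨h.ty.add h'.ty, by rw [map_add, h.cl, h'.cl, add_zero]⟩
theorem PC.sub {p q : ℤ} {z z' : S} (h : G.PC p q z) (h' : G.PC p q z') : G.PC p q (z - z') :=
  ⟨h.ty.sub h'.ty, by rw [map_sub, h.cl, h'.cl, sub_zero]⟩
theorem PC.smul {p q : ℤ} {z : S} (c : ℂ) (h : G.PC p q z) : G.PC p q (c • z) :=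
  ⟨h.ty.smul c, by rw [map_smul, h.cl, smul_zero]⟩
theorem PC.cj {p q : ℤ} {z : S} (h : G.PC p q z) : G.PC q p (G.cj z) :=
  ⟨G.cj_ty h.ty, by rw [← G.cj_d, h.cl, map_zero]⟩

theorem d_L_pow (m : ℕ) (u : S) : G.d ((G.L ^ m) u) = (G.L ^ m) (G.d u) := by
  induction m with
  | zero => rfl
  | succ m ih => rw [pow_succ', Module.End.mul_apply, Module.End.mul_apply, ← G.L_d, ih]

theorem PC.L_pow {p q : ℤ} {z : S} (h : G.PC p q z) (m : ℕ) :
    G.PC (p + m) (q + m) ((G.L ^ m) z) := ⟨h.ty.L_pow m, by rw [d_L_pow, h.cl, map_zero]⟩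

theorem PC.L {p q : ℤ} {z : S} (h : G.PC p q z) : G.PC (p + 1) (q + 1) (G.L z) := by
  simpa using h.L_pow 1

theorem Ex.cl {a : S} (h : G.Ex a) : G.d a = 0 := by obtain ⟨η, rfl⟩ := h; exact G.d_d η
theorem Ex.zero : G.Ex 0 := ⟨0, map_zero _⟩
theorem Ex.add {a b : S} (h : G.Ex a) (h' : G.Ex b) : G.Ex (a + b) := by
  obtain ⟨η, rfl⟩ := h; obtain ⟨η', rfl⟩ := h'; exact ⟨η + η', map_add _ _ _⟩
theorem Ex.sub {a b : S} (h : G.Ex a) (h' : G.Ex b) : G.Ex (a - b) := by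
  obtain ⟨η, rfl⟩ := h; obtain ⟨η', rfl⟩ := h'; exact ⟨η - η', map_sub _ _ _⟩
theorem Ex.smul {a : S} (c : ℂ) (h : G.Ex a) : G.Ex (c • a) := by
  obtain ⟨η, rfl⟩ := h; exact ⟨c • η, map_smul _ _ _⟩
theorem Ex.cj {a : S} (h : G.Ex a) : G.Ex (G.cj a) := by
  obtain ⟨η, rfl⟩ := h; exact ⟨G.cj η, (G.cj_d η).symm⟩
theorem Ex.L_pow {a : S} (h : G.Ex a) (m : ℕ) : G.Ex ((G.L ^ m) a) := by
  obtain ⟨η, rfl⟩ := h; exact ⟨_, d_L_pow m η⟩

theorem Ex.β_left {a b : S} (h : G.Ex a) (hb : G.d b = 0) : G.β a b = 0 := by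
  obtain ⟨η, rfl⟩ := h; rw [G.β_d, hb, map_zero, neg_zero]

theorem par_par (u : S) : G.par (G.par u) = u := by
  rw [← Module.End.mul_apply, GS.par, G.dg_mul]
  simp only [← mul_zpow]
  simp [G.dg_one]

theorem d_par (u : S) : G.d (G.par u) = - G.par (G.d u) := by
  have h1 := LinearMap.congr_fun G.sh_del.par u
  have h2 := LinearMap.congr_fun G.sh_db.par u
  simp only [Module.End.mul_apply, LinearMap.smul_apply] at h1 h2
  rw [d_apply, d_apply, map_add, h1, h2]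
  simp; abel

theorem Ex.β_right {a b : S} (ha : G.d a = 0) (h : G.Ex b) : G.β a b = 0 := by
  obtain ⟨η, rfl⟩ := h
  have := G.β_d (G.par a) η
  rw [d_par, ha, par_par] at this
  simpa using this.symm

end KA

namespace IsN

variable {G : KA n S} {N : Submodule ℂ S} (h : IsN G N)
include h

theorem pr' {u : S} (hu : u ∈ N) (p q : ℤ) : G.pr p q u ∈ N := h.pr p q hu

theorem del (u : S) : G.del u ∈ N := by
  rw [← G.cj_cj (G.del u), G.cj_del]; exact h.cj _ (h.db _)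

theorem d (u : S) : G.d u ∈ N := N.add_mem (h.del u) (h.db u)

theorem of_ex {a : S} (ha : G.Ex a) : a ∈ N := by obtain ⟨η, rfl⟩ := ha; exact h.d η

theorem exact_ty {p q : ℤ} {z : S} (hz : z ∈ N) (ht : G.Ty p q z) (h0 : G.db z = 0) :
    ∃ y, G.Ty p (q - 1) y ∧ G.db y = z := by
  obtain ⟨y, rfl⟩ := h.exact z hz h0
  refine ⟨_, G.ty_pr p (q - 1) y, ?_⟩
  rw [G.sh_db.apply, add_zero, sub_add_cancel, ht]

theorem exact_del {p q : ℤ} {z : S} (hz : z ∈ N) (ht : G.Ty p q z) (h0 : G.del z = 0) :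
    ∃ y, G.Ty (p - 1) q y ∧ G.del y = z := by
  obtain ⟨y, h1, h2⟩ := h.exact_ty (h.cj z hz) (G.cj_ty ht) (by rw [← G.cj_del, h0, map_zero])
  exact ⟨G.cj y, G.cj_ty h1, by rw [← G.cj_db, h2, G.cj_cj]⟩

theorem rep_ty {p q : ℤ} {u : S} (ht : G.Ty p q u) :
    ∃ z, G.Ty p q z ∧ G.db z = 0 ∧ u - z ∈ N := by
  obtain ⟨z, h1, h2⟩ := h.rep u
  refine ⟨_, G.ty_pr p q z, by rw [G.sh_db.apply, h1, map_zero], ?_⟩
  have := h.pr' h2 p q
  rwa [map_sub, ht] at this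

/-- closed elements of `N` are exact -/
theorem ex {a : S} (ha : a ∈ N) (h0 : G.d a = 0) : G.Ex a := by
  have key : ∀ j : ℕ, ∀ a ∈ N, G.d a = 0 →
      (∀ p q : ℤ, p + j ≤ n → G.pr p q a = 0) → G.Ex a := by
    intro j
    induction j with
    | zero =>
      intro a _ _ hz
      rw [← G.sum_pr a, Finset.sum_eq_zero]
      · exact KA.Ex.zero
      · intro x hx
        exact hz _ _ (by simpa using ((mem_box (p := x.1) (q := x.2)).1 hx).1.2)
    | succ j ih =>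
      intro a ha h0 hz
      have hq : ∀ q : ℤ, ∃ y, G.Ty (n - j) (q - 1) y ∧ G.db y = G.pr (n - j) q a := by
        intro q
        refine h.exact_ty (h.pr' ha _ _) (G.ty_pr _ _ a) ?_
        have := G.pr_d (n - j) (q + 1) a
        rw [h0, map_zero, hz _ _ (by push_cast; omega), map_zero, zero_add,
          add_sub_cancel_right] at this
        exact this.symm
      choose y hy1 hy2 using hq
      have := ih (a - G.d (∑ q ∈ Finset.Icc (0 : ℤ) n, y q)) (N.sub_mem ha (h.d _))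
        (by rw [map_sub, h0, G.d_d, sub_zero]) fun p q hp => ?_
      · simpa using this.add ⟨∑ q ∈ Finset.Icc (0 : ℤ) n, y q, rfl⟩
      have e0 : G.pr (p - 1) q (∑ q ∈ Finset.Icc (0 : ℤ) n, y q) = 0 := by
        rw [map_sum]
        exact Finset.sum_eq_zero fun q' _ => (hy1 q').pr_ne (by simp; omega)
      rw [map_sub, G.pr_d, e0, map_zero, zero_add, map_sum]
      rcases eq_or_lt_of_le hp with he | hl
      · obtain rfl : p = n - j := by omega
        by_cases hq : q ∈ Finset.Icc (0 : ℤ) n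
        · rw [Finset.sum_eq_single q (fun q' _ hne => (hy1 q').pr_ne (by simp; omega))
            (fun h' => absurd hq h'), hy1 q, hy2, sub_self]
        · rw [Finset.sum_eq_zero fun q' hq' => (hy1 q').pr_ne
            (by simp only [ne_eq, Prod.mk.injEq, true_and, sub_left_inj]; rintro rfl; exact hq hq'),
            G.pr_out _ _ (fun hb => hq (by simpa using (mem_box.1 hb).2))]
          simp
      · rw [hz _ _ (by push_cast; omega),
          Finset.sum_eq_zero fun q' _ => (hy1 q').pr_ne (by simp; omega)]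
        simp
  refine key (n + 1) a ha h0 fun p q hp => ?_
  rw [G.pr_out _ _ fun hb => by have := (mem_box.1 hb).1.1; push_cast at hp; omega]
  rfl

theorem ex_iff {a : S} (h0 : G.d a = 0) : G.Ex a ↔ a ∈ N := ⟨h.of_ex, fun ha => h.ex ha h0⟩

theorem prim_fil (k : ℕ) : ∀ p q : ℤ, q ≤ k → ∀ γ ∈ N, G.PC p q γ →
    ∃ a ∈ N, G.d a = γ ∧ ∀ p' q', p' < p → G.pr p' q' a = 0 := by
  induction k with
  | zero =>
    intro p q hq γ hγ hc
    obtain ⟨y, h1, h2⟩ := h.exact_ty hγ hc.ty hc.db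
    rw [h1.eq_zero (fun hb => by have := (mem_box.1 hb).2.1; push_cast at hq; omega),
      map_zero] at h2
    exact ⟨0, N.zero_mem, by rw [map_zero, h2], fun _ _ _ => map_zero _⟩
  | succ k ih =>
    intro p q hq γ hγ hc
    obtain ⟨y, h1, h2⟩ := h.exact_ty hγ hc.ty hc.db
    obtain ⟨z, z1, z2, z3⟩ := h.rep_ty h1
    have e : G.db (y - z) = γ := by rw [map_sub, h2, z2, sub_zero]
    obtain ⟨a, a1, a2, a3⟩ := ih (p + 1) (q - 1) (by push_cast at hq; omega) (G.del (y - z))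
      (h.del _) (KA.pc_of (KA.ty_del (h1.sub z1)) (G.del_del _)
        (by rw [G.db_del, e, hc.del, neg_zero]))
    refine ⟨y - z - a, N.sub_mem z3 a1, by rw [map_sub, a2, G.d_apply, e]; abel, fun p' q' hp => ?_⟩
    rw [map_sub, a3 _ _ (by omega), (h1.sub z1).pr_ne (by simp; omega), sub_zero]

theorem lift_fil {p q : ℤ} {u : S} (hu : G.Ty p q u) :
    ∃ a, G.d a = 0 ∧ u - a ∈ N ∧ ∀ p' q', p' < p → G.pr p' q' a = 0 := by
  obtain ⟨z, z1, z2, z3⟩ := h.rep_ty hu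
  obtain ⟨a, a1, a2, a3⟩ := h.prim_fil q.toNat (p + 1) q (Int.self_le_toNat q) (G.del z) (h.del _)
    (KA.pc_of (KA.ty_del z1) (G.del_del _) (by rw [G.db_del, z2, map_zero, neg_zero]))
  refine ⟨z - a, by rw [map_sub, a2, G.d_apply, z2]; abel, ?_, fun p' q' hp => ?_⟩
  · have := N.add_mem z3 a1
    convert this using 1; abel
  · rw [map_sub, a3 _ _ (by omega), z1.pr_ne (by simp; omega), sub_zero]

/-- pure closed representatives -/
theorem pure_rep {p q : ℤ} {u : S} (hu : G.Ty p q u) : ∃ z, G.PC p q z ∧ u - z ∈ N := by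
  classical
  obtain ⟨a, a1, a2, a3⟩ := h.lift_fil hu
  obtain ⟨b, b1, b2, b3⟩ := h.lift_fil (G.cj_ty hu)
  have b2' : u - G.cj b ∈ N := by simpa [G.cj_cj] using h.cj _ b2
  have b1' : G.d (G.cj b) = 0 := by rw [← G.cj_d, b1, map_zero]
  obtain ⟨η, hη⟩ := h.ex (a := a - G.cj b) (by convert N.sub_mem b2' a2 using 1; abel)
    (by rw [map_sub, a1, b1', sub_zero])
  set η' := G.dg (fun p' _ => if p ≤ p' then 1 else 0) η with hη'
  have e1 : ∀ p' q', G.pr p' q' η' = if p ≤ p' then G.pr p' q' η else 0 := by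
    intro p' q'
    rw [hη', ← Module.End.mul_apply, G.pr_dg]
    split_ifs <;> simp
  set z := a - G.d η' with hz
  have z0 : G.d z = 0 := by rw [hz, map_sub, a1, G.d_d, sub_zero]
  have z1 : G.pr (p - 1) (q + 1) z = 0 := by
    rw [hz, map_sub, a3 _ _ (by omega), G.pr_d, e1, e1, if_neg (by omega), if_neg (by omega)]
    simp
  have z2 : G.pr (p + 1) (q - 1) z = 0 := by
    have : z = G.cj b + G.d (η - η') := by rw [hz, map_sub, hη]; abel
    rw [this, map_add, ← G.cj_pr, b3 _ _ (by omega), G.pr_d, map_sub (G.pr _ _),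
      map_sub (G.pr _ _), e1, e1, if_pos (by omega), if_pos (by omega)]
    simp
  refine ⟨G.pr p q z, KA.pc_of (G.ty_pr _ _ _) ?_ ?_, ?_⟩
  · have := G.pr_d (p + 1) q z
    rw [z0, map_zero, z2, map_zero, add_zero, add_sub_cancel_right] at this
    exact this.symm
  · have := G.pr_d p (q + 1) z
    rw [z0, map_zero, z1, map_zero, zero_add, add_sub_cancel_right] at this
    exact this.symm
  · have := h.pr' (N.add_mem a2 (h.d η')) p q
    rw [show u - a + G.d η' = u - z by rw [hz]; abel, map_sub, hu] at this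
    exact this

theorem ddbar (k : ℕ) : ∀ p q : ℤ, q ≤ k → ∀ a ∈ N, G.PC p q a →
    ∃ γ, G.Ty (p - 1) (q - 1) γ ∧ G.del (G.db γ) = a := by
  induction k with
  | zero =>
    intro p q hq a ha hc
    obtain ⟨y, h1, h2⟩ := h.exact_ty ha hc.ty hc.db
    rw [h1.eq_zero (fun hb => by have := (mem_box.1 hb).2.1; push_cast at hq; omega),
      map_zero] at h2
    exact ⟨0, GS.Ty.zero _ _, by rw [map_zero, map_zero, h2]⟩
  | succ k ih =>
    intro p q hq a ha hc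
    obtain ⟨y, h1, h2⟩ := h.exact_ty ha hc.ty hc.db
    obtain ⟨δ, d1, d2⟩ := ih (p + 1) (q - 1) (by push_cast at hq; omega) (G.del y) (h.del _)
      (KA.pc_of (KA.ty_del h1) (G.del_del _) (by rw [G.db_del, h2, hc.del, neg_zero]))
    have t1 : G.Ty p (q - 1) (y - G.db δ) := h1.sub (by simpa using KA.ty_db d1)
    obtain ⟨z, z1, z2⟩ := h.pure_rep t1
    obtain ⟨η, e1, e2⟩ := h.exact_del z2 (t1.sub z1.ty)
      (by rw [map_sub, map_sub, d2, z1.del]; simp)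
    refine ⟨-η, e1.neg, ?_⟩
    rw [map_neg, map_neg, ← G.db_del, e2, map_sub, map_sub, h2, G.db_db, z1.db]
    simp

/-- the Lefschetz module of classes -/
def gq : GS n (S ⧸ N) := G.toGS.quot N h.pr h.L h.Λ

theorem gq_ty {p q : ℤ} {u : S} (hu : G.Ty p q u) : h.gq.Ty p q (N.mkQ u) := congrArg N.mkQ hu

theorem gq_L_pow (m : ℕ) (u : S) : (h.gq.L ^ m) (N.mkQ u) = N.mkQ ((G.L ^ m) u) := by
  induction m with
  | zero => rfl
  | succ m ih => rw [pow_succ', pow_succ', Module.End.mul_apply, Module.End.mul_apply, ih]; rfl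

theorem gq_rep {p q : ℤ} {x : S ⧸ N} (hx : h.gq.Ty p q x) : ∃ z, G.PC p q z ∧ N.mkQ z = x := by
  obtain ⟨u, rfl⟩ := N.mkQ_surjective x
  obtain ⟨z, z1, z2⟩ := h.pure_rep (G.ty_pr p q u)
  exact ⟨z, z1, (((Submodule.Quotient.eq _).2 z2).symm.trans hx)⟩

theorem ex_comap {a : Module.End ℂ S} (ha : IsNilpotent a) (hN : N ≤ N.comap a) :
    N ≤ N.comap (Kah.ex a) := by
  obtain ⟨k, hk⟩ := ha
  intro u hu
  rw [Submodule.mem_comap, GS.ex_apply hk]
  refine N.sum_mem fun i _ => N.smul_mem _ ?_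
  exact Module.End.pow_apply_mem_of_forall_mem i hN u hu

theorem WI_mem {u : S} (hu : u ∈ N) : G.WI u ∈ N := by
  have h1 : N ≤ N.comap (-G.Λ) := fun u hu => N.neg_mem (h.Λ hu)
  have h2 : G.wI u ∈ N :=
    h.ex_comap G.tri.nΛ.neg h1 (h.ex_comap G.tri.nL h.L (h.ex_comap G.tri.nΛ.neg h1 hu))
  change G.dg _ (G.wI u) ∈ N
  unfold GS.dg
  rw [LinearMap.sum_apply]
  exact N.sum_mem fun x _ => N.smul_mem _ (h.pr' h2 _ _)

theorem gq_ex {a : Module.End ℂ S} {b : Module.End ℂ (S ⧸ N)} {k : ℕ} (ha : a ^ k = 0)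
    (hb : b ^ k = 0) (hab : ∀ u, b (N.mkQ u) = N.mkQ (a u)) (u : S) :
    Kah.ex b (N.mkQ u) = N.mkQ (Kah.ex a u) := by
  rw [GS.ex_apply ha, GS.ex_apply hb, map_sum]
  refine Finset.sum_congr rfl fun i _ => ?_
  rw [map_smul]
  congr 1
  have : ∀ j : ℕ, (b ^ j) (N.mkQ u) = N.mkQ ((a ^ j) u) := by
    intro j
    induction j with
    | zero => rfl
    | succ j ih => rw [pow_succ', pow_succ', Module.End.mul_apply, Module.End.mul_apply, ih, hab]
  exact this _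

theorem gq_W (u : S) : h.gq.W (N.mkQ u) = N.mkQ (G.W u) := by
  have e0 : h.gq.dg (cc n) (N.mkQ u) = N.mkQ (G.dg (cc n) u) := by
    unfold GS.dg
    rw [LinearMap.sum_apply, LinearMap.sum_apply, map_sum]
    rfl
  have eΛ := h.gq_ex (a := G.Λ) (b := h.gq.Λ) (G.sh_Λ.nil (by norm_num))
    (h.gq.sh_Λ.nil (by norm_num)) fun _ => rfl
  have eL := h.gq_ex (a := -G.L) (b := -h.gq.L) (k := n + 1)
    (by rw [neg_pow, G.sh_L.nil one_ne_zero, mul_zero])
    ((neg_pow h.gq.L (n + 1)).trans (by rw [h.gq.sh_L.nil one_ne_zero, mul_zero])) fun _ => rfl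
  change Kah.ex h.gq.Λ (Kah.ex (-h.gq.L) (Kah.ex h.gq.Λ (h.gq.dg (cc n) (N.mkQ u)))) =
    N.mkQ (Kah.ex G.Λ (Kah.ex (-G.L) (Kah.ex G.Λ (G.dg (cc n) u))))
  rw [e0, eΛ, eL, eΛ]

/-- positivity of the pairing against a closed representative of `W z` -/
theorem β_pos {z x : S} (hz : G.db z = 0) (hx : G.del x = 0) (hW : G.W z - x ∈ N) (hN : z ∉ N) :
    0 < G.β z (G.cj x) := by
  rw [G.β_eq_hp, G.cj_cj]
  refine h.pos z _ hz (fun y => ?_) ?_ hN
  · rw [← G.cj_cj x, ← G.β_eq_hp, G.β_db, ← G.cj_del, hx, map_zero, map_zero, neg_zero]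
  · have := h.WI_mem hW
    rwa [map_sub, G.WI_W_apply] at this

end IsN

namespace KP

variable (G : KP n S)

/-- **Hodge decomposition**, existence -/
theorem exists_dec {a : S} (ha : G.d a = 0) : ∃ z : ℤ × ℤ → S, (∀ x, G.PC x.1 x.2 (z x)) ∧
    (∀ x : ℤ × ℤ, G.pr x.1 x.2 a = 0 → z x = 0) ∧ G.Ex (a - ∑ x ∈ box n, z x) := by
  classical
  obtain ⟨N, h⟩ := G.exists_N
  have : ∀ x : ℤ × ℤ, ∃ z, G.PC x.1 x.2 z ∧ (G.pr x.1 x.2 a = 0 → z = 0) ∧
      G.pr x.1 x.2 a - z ∈ N := by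
    intro x
    by_cases h0 : G.pr x.1 x.2 a = 0
    · exact ⟨0, KA.PC.zero _ _, fun _ => rfl, by rw [h0, sub_zero]; exact N.zero_mem⟩
    · obtain ⟨z, z1, z2⟩ := h.pure_rep (G.ty_pr x.1 x.2 a)
      exact ⟨z, z1, fun h' => absurd h' h0, z2⟩
  choose z z1 z2 z3 using this
  refine ⟨z, z1, z2, h.ex ?_ ?_⟩
  · conv in a => rw [← G.sum_pr a]
    rw [← Finset.sum_sub_distrib]
    exact N.sum_mem fun x _ => z3 x
  · rw [map_sub, ha, map_sum, Finset.sum_eq_zero fun x _ => (z1 x).cl, sub_zero]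

/-- **Hodge decomposition**, uniqueness -/
theorem ex_of_sum {s : Finset (ℤ × ℤ)} {z : ℤ × ℤ → S} (hz : ∀ x ∈ s, G.PC x.1 x.2 (z x))
    (he : G.Ex (∑ x ∈ s, z x)) {x : ℤ × ℤ} (hx : x ∈ s) : G.Ex (z x) := by
  obtain ⟨N, h⟩ := G.exists_N
  have := h.pr' (h.of_ex he) x.1 x.2
  rw [map_sum, Finset.sum_eq_single x (fun y hy hne => (hz y hy).ty.pr_ne (Ne.symm hne))
    (fun h' => absurd hx h'), (hz x hx).ty] at this
  exact h.ex this (hz x hx).cl

/-- a closed component of an exact form is exact -/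
theorem ex_pr {a : S} (ha : G.Ex a) {p q : ℤ} (h0 : G.d (G.pr p q a) = 0) : G.Ex (G.pr p q a) := by
  obtain ⟨N, h⟩ := G.exists_N
  exact h.ex (h.pr' (h.of_ex ha) p q) h0

/-- **`∂∂̄`-lemma** -/
theorem ddbar {p q : ℤ} {a : S} (ha : G.PC p q a) (he : G.Ex a) :
    ∃ γ, G.Ty (p - 1) (q - 1) γ ∧ G.del (G.db γ) = a := by
  obtain ⟨N, h⟩ := G.exists_N
  exact h.ddbar q.toNat p q (Int.self_le_toNat q) a (h.of_ex he) ha

theorem ex_iff_db {a : S} (ha : G.d a = 0) (hb : G.db a = 0) : G.Ex a ↔ ∃ y, G.db y = a := by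
  obtain ⟨N, h⟩ := G.exists_N
  exact ⟨fun he => h.exact a (h.of_ex he) hb, fun ⟨y, hy⟩ => h.ex (hy ▸ h.db y) ha⟩

theorem ex_of_del {a y : S} (ha : G.d a = 0) (hy : G.del y = a) : G.Ex a := by
  obtain ⟨N, h⟩ := G.exists_N
  exact h.ex (hy ▸ h.del y) ha

/-- Dolbeault classes have closed representatives -/
theorem dolb {p q : ℤ} {z : S} (ht : G.Ty p q z) (hz : G.db z = 0) :
    ∃ z' y, G.PC p q z' ∧ G.Ty p (q - 1) y ∧ z = z' + G.db y := by
  obtain ⟨N, h⟩ := G.exists_N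
  obtain ⟨z', z1, z2⟩ := h.pure_rep ht
  obtain ⟨y, y1, y2⟩ := h.exact_ty z2 (ht.sub z1.ty) (by rw [map_sub, hz, z1.db, sub_zero])
  exact ⟨z', y, z1, y1, by rw [y2]; abel⟩

/-- holomorphic forms are closed -/
theorem hol_closed {p : ℤ} {z : S} (ht : G.Ty p 0 z) (hz : G.db z = 0) : G.PC p 0 z := by
  obtain ⟨z', y, h1, h2, h3⟩ := G.dolb ht hz
  rw [h2.eq_zero (fun hb => by have := (mem_box.1 hb).2.1; omega), map_zero, add_zero] at h3
  exact h3 ▸ h1

/-- exact holomorphic forms vanish -/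
theorem hol_ex {p : ℤ} {z : S} (hz : G.PC p 0 z) (he : G.Ex z) : z = 0 := by
  obtain ⟨γ, h1, h2⟩ := G.ddbar hz he
  rw [← h2, h1.eq_zero (fun hb => by have := (mem_box.1 hb).2.1; omega), map_zero, map_zero]

/-- **hard Lefschetz**, injectivity -/
theorem hl_inj {p q : ℤ} {r : ℕ} (hr : p + q + r = n) {z : S} (hz : G.PC p q z)
    (he : G.Ex ((G.L ^ r) z)) : G.Ex z := by
  obtain ⟨N, h⟩ := G.exists_N
  refine h.ex ((Submodule.Quotient.mk_eq_zero N).1 (GS.L_pow_inj hr (h.gq_ty hz.ty) ?_)) hz.cl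
  exact (h.gq_L_pow r z).trans ((Submodule.Quotient.mk_eq_zero N).2 (h.of_ex he))

/-- **hard Lefschetz**, surjectivity -/
theorem hl_surj {p q : ℤ} {r : ℕ} (hr : p + q + r = n) {v : S} (hv : G.PC (p + r) (q + r) v) :
    ∃ z, G.PC p q z ∧ G.Ex (v - (G.L ^ r) z) := by
  obtain ⟨N, h⟩ := G.exists_N
  have := h.fin
  obtain ⟨x, x1, x2⟩ := GS.L_pow_surj hr (h.gq_ty hv.ty)
  obtain ⟨z, z1, rfl⟩ := h.gq_rep x1
  rw [h.gq_L_pow] at x2
  exact ⟨z, z1, h.ex ((Submodule.Quotient.eq _).1 x2.symm) (hv.sub (z1.L_pow r)).cl⟩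

/-- **Lefschetz decomposition** -/
theorem lef_dec {p q : ℤ} {r : ℕ} (hr : p + q + r = n) {z : S} (hz : G.PC p q z) :
    ∃ z1, G.PC (p - 1) (q - 1) z1 ∧ G.Ex ((G.L ^ (r + 1)) (z - G.L z1)) := by
  obtain ⟨z1, h1, h2⟩ := G.hl_surj (p := p - 1) (q := q - 1) (r := r + 2) (by push_cast; omega)
    (v := (G.L ^ (r + 1)) z) (by convert hz.L_pow (r + 1) using 1 <;> push_cast <;> ring)
  refine ⟨z1, h1, ?_⟩
  rwa [map_sub, ← Module.End.mul_apply (G.L ^ (r + 1)), ← pow_succ]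

/-- the sign in the Hodge-Riemann relations: `i^(p-q) (-1)^(k(k-1)/2)`, `k = p + q` -/
def hrs (p q : ℤ) : ℂ := I ^ (p - q + (p + q) * (p + q - 1))

/-- **Hodge-Riemann** -/
theorem hr {p q : ℤ} {r : ℕ} (hr : p + q + r = n) {z : S} (hz : G.PC p q z)
    (hp : G.Ex ((G.L ^ (r + 1)) z)) (hne : ¬ G.Ex z) :
    0 < hrs p q * G.β z (G.cj ((G.L ^ r) z)) := by
  obtain ⟨N, h⟩ := G.exists_N
  have hΛ : h.gq.Λ (N.mkQ z) = 0 := GS.prim_of hr (h.gq_ty hz.ty) (by
    rw [h.gq_L_pow]; exact (Submodule.Quotient.mk_eq_zero N).2 (h.of_ex hp))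
  have hW := GS.W_prim hr (h.gq_ty hz.ty) hΛ
  rw [h.gq_W, h.gq_L_pow, ← map_smul] at hW
  have := h.β_pos hz.db (((hz.L_pow r).smul _).del) ((Submodule.Quotient.eq _).1 hW)
    fun hN => hne (h.ex hN hz.cl)
  rw [map_smulₛₗ, map_smul, smul_eq_mul] at this
  have e : conj (cc n p q * ((-1 : ℂ) ^ r * ((r.factorial : ℂ))⁻¹)) =
      (((r.factorial : ℝ)⁻¹ : ℝ) : ℂ) * hrs p q := by
    rw [map_mul, map_mul, conj_cc, map_inv₀, map_natCast, map_pow, map_neg, map_one, ← mul_assoc,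
      mul_comm]
    congr 1
    · simp
    · unfold cc hrs
      rw [← zpow_natCast, ← zpow_natCast, neg_one_zpow_eq, neg_one_zpow_eq, ← zpow_add₀ I_ne_zero,
        ← zpow_add₀ I_ne_zero]
      exact I_zpow_congr n (by rw [← hr]; ring)
  rw [e, mul_assoc] at this
  have hpos : (0 : ℂ) < (((r.factorial : ℝ)⁻¹ : ℝ) : ℂ) :=
    Complex.zero_lt_real.2 (inv_pos.2 (Nat.cast_pos.2 r.factorial_pos))
  exact (mul_pos_iff_of_pos_left hpos).1 this

/-- **Poincare duality** -/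
theorem pd {a : S} (ha : G.d a = 0) (hne : ¬ G.Ex a) : ∃ b, G.d b = 0 ∧ G.β a b ≠ 0 := by
  obtain ⟨z, z1, -, z3⟩ := G.exists_dec ha
  obtain ⟨N, h⟩ := G.exists_N
  have : ∃ x ∈ box n, z x ∉ N := by
    by_contra hall
    push Not at hall
    exact hne (h.ex (by simpa using N.add_mem (h.of_ex z3) (N.sum_mem hall)) ha)
  obtain ⟨x, hx, hN⟩ := this
  have t : G.Ty (n - x.2) (n - x.1) (G.W (z x)) := by
    unfold GS.Ty; rw [← G.W_pr, (z1 x).ty]
  obtain ⟨b, b1, b2⟩ := h.pure_rep t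
  refine ⟨G.cj b, b1.cj.cl, ?_⟩
  have e := z3.β_left b1.cj.cl
  rw [map_sub, LinearMap.sub_apply, sub_eq_zero, map_sum, LinearMap.sum_apply,
    Finset.sum_eq_single x _ (fun h' => absurd hx h')] at e
  · rw [e]; exact (h.β_pos (z1 x).db b1.del b2 hN).ne'
  · intro y _ hy
    rw [← (z1 y).ty, G.β_pr, b1.cj.ty.pr_ne, map_zero]
    simp only [ne_eq, Prod.mk.injEq, sub_right_inj]
    exact fun e => hy (Prod.ext e.1 e.2)

/-- the cohomology is finite dimensional -/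
theorem exists_fin : ∃ F : Submodule ℂ S, FiniteDimensional ℂ F ∧ (∀ z ∈ F, G.d z = 0) ∧
    ∀ a, G.d a = 0 → ∃ z ∈ F, G.Ex (a - z) := by
  obtain ⟨N, h⟩ := G.exists_N
  have := h.fin
  let f : LinearMap.ker G.d →ₗ[ℂ] S ⧸ N := N.mkQ ∘ₗ (LinearMap.ker G.d).subtype
  obtain ⟨g, hg⟩ := f.rangeRestrict.exists_rightInverse_of_surjective f.range_rangeRestrict
  refine ⟨LinearMap.range ((LinearMap.ker G.d).subtype ∘ₗ g), inferInstance, ?_, fun a ha => ?_⟩
  · rintro _ ⟨x, rfl⟩; exact (g x).2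
  · refine ⟨_, ⟨f.rangeRestrict ⟨a, ha⟩, rfl⟩, h.ex ?_ ?_⟩
    · have := congrArg Subtype.val (LinearMap.congr_fun hg (f.rangeRestrict ⟨a, ha⟩))
      exact (Submodule.Quotient.eq _).1 this.symm
    · rw [map_sub, ha, zero_sub, neg_eq_zero]; exact (g _).2

end KP

end

end Crest.Agent.X262.Kah
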