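import Crest.Agent.X262.Kah.GS

/-!
# X262 / Kah (helper20), file PS: the Hermitian form of a paired Lefschetz module

* `PS n V`   : `GS n V` with a conjugation `cj` and a bilinear pairing `β` ("`∫ u ∧ v`");
* `W`, `hp u v = β u (cj (W v))` : the Hermitian product (linear in `u`);
* `hp_pr`, `hp_L`, `hp_cj`, `adj10`, `adj01` : adjoints (the Kaehler identities);
* `W_prim`   : `W` on primitive vectors (Hodge-Riemann).
-/

set_option autoImplicit false
set_option linter.unusedSectionVars false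

open Finset Complex
open scoped ComplexConjugate ComplexOrder

namespace Crest.Agent.X262.Kah

noncomputable section

/-- the constants `(-1)^n i^(q-p) (-1)^(k(k+1)/2)` -/
def cc (n : ℕ) (p q : ℤ) : ℂ := (-1) ^ n * I ^ (q - p + (p + q) * (p + q + 1))

theorem neg_one_zpow_eq (k : ℤ) : (-1 : ℂ) ^ k = I ^ (2 * k) := by
  rw [zpow_mul]; congr 1; rw [zpow_two, I_mul_I]

theorem I_zpow_congr {a b : ℤ} (k : ℤ) (h : a = b + 4 * k) : I ^ a = I ^ b := by
  rw [h, zpow_add₀ I_ne_zero, zpow_mul]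
  have : I ^ (4 : ℤ) = 1 := by exact_mod_cast I_pow_four
  rw [this, one_zpow, mul_one]

theorem cc_q (n : ℕ) (p q : ℤ) : (-1 : ℂ) ^ (p + q) * cc n p q = I * cc n p (q + -1) := by
  unfold cc
  rw [neg_one_zpow_eq, mul_left_comm, mul_left_comm I, ← zpow_add₀ I_ne_zero,
    ← zpow_one_add₀ I_ne_zero]
  congr 1
  exact I_zpow_congr (p + q) (by ring)

theorem cc_p (n : ℕ) (p q : ℤ) : (-1 : ℂ) ^ (p + q) * cc n p q = -I * cc n (p + -1) q := by
  unfold cc
  have : -I = I ^ (3 : ℤ) := by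
    have h := I_pow_three; rw [← h]; norm_cast
  rw [neg_one_zpow_eq, mul_left_comm, mul_left_comm (-I), ← zpow_add₀ I_ne_zero, this,
    ← zpow_add₀ I_ne_zero]
  congr 1
  exact I_zpow_congr (p + q - 1) (by ring)

theorem cc_pq (n : ℕ) (p q : ℤ) : cc n p q = - cc n (p + -1) (q + -1) := by
  unfold cc
  have : (-1 : ℂ) = I ^ (2 : ℤ) := by rw [zpow_two, I_mul_I]
  rw [← mul_neg, ← neg_one_mul (I ^ _)]
  congr 1
  rw [this, ← zpow_add₀ I_ne_zero]
  exact I_zpow_congr (p + q - 1) (by ring)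

theorem conj_I_zpow (k : ℤ) : conj (I ^ k) = I ^ (-k) := by
  rw [map_zpow₀, conj_I, zpow_neg, ← inv_zpow, inv_I]

theorem conj_cc (n : ℕ) (p q : ℤ) : conj (cc n q p) = cc n p q := by
  unfold cc
  rw [map_mul, conj_I_zpow]
  congr 1
  · simp
  · obtain ⟨k, hk⟩ := Int.even_mul_succ_self (p + q)
    refine I_zpow_congr (-k) ?_
    rw [add_comm q p, hk]; ring

theorem cc_mul_conj (n : ℕ) (p q : ℤ) : cc n p q * conj (cc n p q) = 1 := by
  unfold cc
  rw [map_mul, conj_I_zpow, mul_mul_mul_comm, ← zpow_add₀ I_ne_zero]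
  simp [← mul_pow]

theorem cc_ne (n : ℕ) (p q : ℤ) : cc n p q ≠ 0 := left_ne_zero_of_mul_eq_one (cc_mul_conj n p q)

/-- a Lefschetz module with conjugation and pairing -/
structure PS (n : ℕ) (V : Type*) [AddCommGroup V] [Module ℂ V] extends GS n V where
  cj : V →ₛₗ[starRingEnd ℂ] V
  cj_cj : ∀ u, cj (cj u) = u
  cj_pr : ∀ p q u, cj (pr p q u) = pr q p (cj u)
  cj_L : ∀ u, cj (L u) = L (cj u)
  cj_Λ : ∀ u, cj (Λ u) = Λ (cj u)
  β : V →ₗ[ℂ] V →ₗ[ℂ] ℂ
  β_pr : ∀ p q u v, β (pr p q u) v = β u (pr (n - p) (n - q) v)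
  β_L : ∀ u v, β (L u) v = β u (L v)
  β_cj : ∀ u v, β (cj u) (cj v) = conj (β u v)

namespace GS

variable {n : ℕ} {V : Type*} [AddCommGroup V] [Module ℂ V] (G : GS n V)

/-- the operator `w s` (the Hodge star up to the Weil operator) -/
def W : Module.End ℂ V := G.w * G.dg (cc n)

/-- its inverse -/
def WI : Module.End ℂ V := G.dg (fun p q => conj (cc n p q)) * G.wI

theorem W_WI : G.W * G.WI = 1 := by
  unfold W WI
  rw [mul_assoc, ← mul_assoc (G.dg _), dg_mul]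
  simp only [cc_mul_conj]
  rw [dg_one, one_mul, w_wI]

theorem WI_W : G.WI * G.W = 1 := by
  unfold W WI
  rw [mul_assoc, ← mul_assoc G.wI, wI_w, one_mul, dg_mul]
  simp only [mul_comm (conj _), cc_mul_conj]
  rw [dg_one]

theorem W_WI_apply (u : V) : G.W (G.WI u) = u := LinearMap.congr_fun G.W_WI u
theorem WI_W_apply (u : V) : G.WI (G.W u) = u := LinearMap.congr_fun G.WI_W u

theorem W_pr (p q : ℤ) (u : V) : G.W (G.pr p q u) = G.pr (n - q) (n - p) (G.W u) := by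
  change G.w (G.dg _ (G.pr p q u)) = G.pr _ _ (G.w (G.dg _ u))
  rw [← w_pr, (G.sh_dg _).apply, add_zero, add_zero]

theorem L_W : G.L * G.W = G.W * G.Λ := by
  unfold W
  rw [← mul_assoc, show G.L * G.w = -(G.w * G.Λ) from G.tri.L_wey, mul_assoc, G.sh_Λ.dg, neg_mul,
    mul_assoc, ← mul_neg, ← mul_neg]
  congr 2
  refine G.ext_pr fun p q => ?_
  rw [neg_mul, dg_pr, dg_pr, cc_pq, neg_smul, neg_neg]

variable {G}

/-- commutator with `Λ` -/
def br (G : GS n V) (X : Module.End ℂ V) : Module.End ℂ V := G.Λ * X - X * G.Λ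

theorem Sh.br {a b : ℤ} {X : Module.End ℂ V} (h : G.Sh a b X) :
    G.Sh (a + -1) (b + -1) (G.br X) :=
  (G.sh_Λ.mul h).sub ((h.mul G.sh_Λ).cast (add_comm _ _) (add_comm _ _))

theorem par_X_W {a b : ℤ} {X : Module.End ℂ V} (h : G.Sh a b X) (hab : a + b = 1)
    (hL : G.L * X = X * G.L) {γ : ℂ}
    (hγ : ∀ p q, (-1 : ℂ) ^ (p + q) * cc n p q = γ * cc n (p + (a + -1)) (q + (b + -1))) :
    G.par * X * G.W = G.W * (γ • G.br X) := by
  have h1 : X * G.w = -(G.w * G.br X) := G.tri.mul_wey hL (by rw [h.H, hab]; simp)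
  unfold W
  rw [mul_assoc, ← mul_assoc X, h1, neg_mul, mul_neg, mul_assoc, ← mul_assoc G.par, par_w,
    mul_assoc, mul_assoc, ← mul_neg, mul_smul_comm, h.br.dg, ← mul_assoc, h.br.par]
  congr 1
  refine G.ext_pr fun p q => ?_
  have e : (-1 : ℂ) ^ (a + -1 + (b + -1)) = -1 := by
    rw [show a + -1 + (b + -1) = -1 by omega]; norm_num
  rw [e]
  simp only [neg_mul, smul_mul_assoc, neg_smul, one_smul, neg_neg, mul_assoc, dg_pr, par,
    mul_smul_comm, smul_smul]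
  rw [mul_comm (cc n p q), hγ]

theorem W_prim {p q : ℤ} {r : ℕ} (hr : p + q + r = n) {u : V} (h : G.Ty p q u) (hΛ : G.Λ u = 0) :
    G.W u = (cc n p q * ((-1 : ℂ) ^ r * ((r.factorial : ℂ))⁻¹)) • (G.L ^ r) u := by
  change G.w (G.dg _ u) = _
  rw [h.dg, map_smul, w_prim hr h hΛ, smul_smul]

end GS

namespace PS

variable {n : ℕ} {V : Type*} [AddCommGroup V] [Module ℂ V] (G : PS n V)

/-- the Hermitian product, linear in the first variable -/
def hp (u v : V) : ℂ := G.β u (G.cj (G.W v))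

theorem hp_add_left (u u' v : V) : G.hp (u + u') v = G.hp u v + G.hp u' v := by simp [hp]
theorem hp_add_right (u v v' : V) : G.hp u (v + v') = G.hp u v + G.hp u v' := by simp [hp]
theorem hp_smul_left (c : ℂ) (u v : V) : G.hp (c • u) v = c * G.hp u v := by simp [hp]
theorem hp_smul_right (c : ℂ) (u v : V) : G.hp u (c • v) = conj c * G.hp u v := by
  simp [hp, map_smulₛₗ]
theorem hp_sum_left {ι : Type*} (s : Finset ι) (u : ι → V) (v : V) :
    G.hp (∑ i ∈ s, u i) v = ∑ i ∈ s, G.hp (u i) v := by simp [hp, map_sum, LinearMap.sum_apply]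
theorem hp_sum_right {ι : Type*} (s : Finset ι) (u : V) (v : ι → V) :
    G.hp u (∑ i ∈ s, v i) = ∑ i ∈ s, G.hp u (v i) := by simp [hp, map_sum]
theorem hp_zero_left (v : V) : G.hp 0 v = 0 := by simp [hp]
theorem hp_zero_right (u : V) : G.hp u 0 = 0 := by simp [hp]

theorem β_eq_hp (u v : V) : G.β u v = G.hp u (G.WI (G.cj v)) := by
  rw [hp, G.W_WI_apply, G.cj_cj]

theorem cj_dg (c : ℤ → ℤ → ℂ) (u : V) :
    G.cj (G.dg c u) = G.dg (fun p q => conj (c q p)) (G.cj u) := by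
  conv_lhs => rw [← G.sum_pr u]
  conv_rhs => rw [← G.sum_pr u]
  simp only [map_sum]
  refine Finset.sum_congr rfl fun x _ => ?_
  rw [(G.ty_pr x.1 x.2 u).dg, map_smulₛₗ, G.cj_pr, (G.ty_pr x.2 x.1 _).dg]

theorem cj_par (u : V) : G.cj (G.par u) = G.par (G.cj u) := by
  unfold GS.par
  rw [cj_dg]
  congr 2
  funext p q
  simp [add_comm]

theorem β_dg (c : ℤ → ℤ → ℂ) (u v : V) :
    G.β (G.dg c u) v = G.β u (G.dg (fun p q => c (n - p) (n - q)) v) := by
  conv_lhs => rw [← G.sum_pr u]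
  conv_rhs => rw [← G.sum_pr u]
  simp only [map_sum, LinearMap.sum_apply]
  refine Finset.sum_congr rfl fun x _ => ?_
  rw [(G.ty_pr x.1 x.2 u).dg, map_smul, LinearMap.smul_apply, G.β_pr, G.β_pr,
    ← Module.End.mul_apply (G.pr _ _) (G.dg _), G.pr_dg, LinearMap.smul_apply, map_smul]
  simp

theorem β_par (u v : V) : G.β (G.par u) v = G.β u (G.par v) := by
  unfold GS.par
  rw [β_dg]
  congr 3
  funext p q
  rw [neg_one_zpow_eq, neg_one_zpow_eq]
  exact I_zpow_congr (n - p - q) (by ring)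

theorem cj_pow {a : Module.End ℂ V} (h : ∀ u, G.cj (a u) = a (G.cj u)) (m : ℕ) (u : V) :
    G.cj ((a ^ m) u) = (a ^ m) (G.cj u) := by
  induction m with
  | zero => rfl
  | succ m ih => rw [pow_succ', Module.End.mul_apply, Module.End.mul_apply, h, ih]

theorem cj_ex {a : Module.End ℂ V} (ha : IsNilpotent a) (h : ∀ u, G.cj (a u) = a (G.cj u))
    (u : V) : G.cj (ex a u) = ex a (G.cj u) := by
  obtain ⟨k, hk⟩ := ha
  rw [GS.ex_apply hk, GS.ex_apply hk, map_sum]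
  refine Finset.sum_congr rfl fun i _ => ?_
  rw [map_smulₛₗ, G.cj_pow h]
  simp

theorem cj_w (u : V) : G.cj (G.w u) = G.w (G.cj u) := by
  change G.cj (ex G.Λ (ex (-G.L) (ex G.Λ u))) = ex G.Λ (ex (-G.L) (ex G.Λ (G.cj u)))
  rw [G.cj_ex G.tri.nΛ G.cj_Λ, G.cj_ex G.tri.nL.neg (fun u => by simp [G.cj_L]),
    G.cj_ex G.tri.nΛ G.cj_Λ]

theorem cj_W (u : V) : G.cj (G.W u) = G.W (G.cj u) := by
  change G.cj (G.w (G.dg _ u)) = G.w (G.dg _ (G.cj u))
  rw [cj_w, cj_dg]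
  simp only [conj_cc]

theorem cj_WI (u : V) : G.cj (G.WI u) = G.WI (G.cj u) := by
  conv_rhs => rw [← G.W_WI_apply u, cj_W, G.WI_W_apply]

theorem cj_ty {p q : ℤ} {u : V} (h : G.Ty p q u) : G.Ty q p (G.cj u) := by
  unfold GS.Ty at *; rw [← G.cj_pr, h]

theorem hp_pr (p q : ℤ) (u v : V) : G.hp (G.pr p q u) v = G.hp u (G.pr p q v) := by
  rw [hp, hp, G.β_pr, G.W_pr, G.cj_pr]

theorem hp_L (u v : V) : G.hp (G.L u) v = G.hp u (G.Λ v) := by
  rw [hp, hp, G.β_L, ← G.cj_L, ← Module.End.mul_apply G.L, G.L_W]; rfl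

theorem hp_cj (u v : V) : G.hp (G.cj u) (G.cj v) = conj (G.hp u v) := by
  rw [hp, hp, G.β_cj, cj_W]

theorem adj_gen {a b : ℤ} {X Xb : Module.End ℂ V} (h : G.Sh a b X) (hab : a + b = 1)
    (hL : G.L * X = X * G.L) {γ : ℂ}
    (hγ : ∀ p q, (-1 : ℂ) ^ (p + q) * cc n p q = γ * cc n (p + (a + -1)) (q + (b + -1)))
    (hc : ∀ u, G.cj (X u) = Xb (G.cj u)) {ε : ℝ}
    (hβ : ∀ u v, G.β (Xb u) v = ε * G.β (G.par u) (Xb v)) (u v : V) :
    G.hp (Xb u) v = G.hp u ((ε * γ) • G.br X v) := by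
  rw [mul_smul, hp_smul_right, conj_ofReal, hp, hp, hβ, β_par, ← hc, ← cj_par]
  exact congrArg (fun x => ε * G.β u (G.cj x)) (LinearMap.congr_fun (GS.par_X_W h hab hL hγ) v)

/-- `X` of type `(1,0)` commuting with `L`: the adjoint of `X̄` is `ε i [Λ, X]` -/
theorem adj10 {X Xb : Module.End ℂ V} (h : G.Sh 1 0 X) (hL : G.L * X = X * G.L)
    (hc : ∀ u, G.cj (X u) = Xb (G.cj u)) {ε : ℝ}
    (hβ : ∀ u v, G.β (Xb u) v = ε * G.β (G.par u) (Xb v)) (u v : V) :
    G.hp (Xb u) v = G.hp u ((ε * I) • G.br X v) :=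
  G.adj_gen h (by norm_num) hL (fun p q => by simpa using cc_q n p q) hc hβ u v

/-- `X` of type `(0,1)` commuting with `L`: the adjoint of `X̄` is `- ε i [Λ, X]` -/
theorem adj01 {X Xb : Module.End ℂ V} (h : G.Sh 0 1 X) (hL : G.L * X = X * G.L)
    (hc : ∀ u, G.cj (X u) = Xb (G.cj u)) {ε : ℝ}
    (hβ : ∀ u v, G.β (Xb u) v = ε * G.β (G.par u) (Xb v)) (u v : V) :
    G.hp (Xb u) v = G.hp u ((ε * -I) • G.br X v) :=
  G.adj_gen h (by norm_num) hL (fun p q => by simpa using cc_p n p q) hc hβ u v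

end PS

end

end Crest.Agent.X262.Kah
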