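import Mathlib

/-!
# X262 / Kah (helper20), file Sl2: `sl₂` identities in a `ℂ`-algebra

* `ex a`     : exponential of a nilpotent element;
* `mul_ex`   : `X e^a = e^a (X - [a,X] + [a,[a,X]]/2)` if `[a,[a,[a,X]]] = 0`;
* `hw_zero`  : an element commuting with `L` of negative weight vanishes;
* `wey L Λ`  : the Weyl element `e^Λ e^{-L} e^Λ`; `mul_wey`, `L_wey`, `Lam_wey`, `H_wey`.
-/

set_option autoImplicit false
set_option linter.unusedSectionVars false
set_option linter.style.haveILetI false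

open Finset

namespace Crest.Agent.X262.Kah

noncomputable section

variable {R : Type*} [Ring R] [Algebra ℂ R]

/-- the `ℚ`-module structure of a `ℂ`-algebra -/
@[reducible] def ratMod (R : Type*) [Ring R] [Algebra ℂ R] : Module ℚ R :=
  Module.compHom R (algebraMap ℚ ℂ)

/-- exponential of a nilpotent element -/
def ex (a : R) : R := @IsNilpotent.exp R _ (ratMod R) a

/-- partial sums of the exponential series -/
def exS (N : ℕ) (a : R) : R := ∑ i ∈ range N, ((i.factorial : ℂ))⁻¹ • a ^ i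

theorem ex_eq {a : R} {k : ℕ} (h : a ^ k = 0) : ex a = exS k a := by
  letI := ratMod R
  unfold ex exS
  rw [IsNilpotent.exp_eq_sum h]
  refine Finset.sum_congr rfl fun i _ => ?_
  change (algebraMap ℚ ℂ ((i.factorial : ℚ)⁻¹)) • a ^ i = _
  simp

theorem ex_mul_neg {a : R} (h : IsNilpotent a) : ex a * ex (-a) = 1 :=
  @IsNilpotent.exp_mul_exp_neg_self R _ (ratMod R) a h

theorem ex_neg_mul {a : R} (h : IsNilpotent a) : ex (-a) * ex a = 1 :=
  @IsNilpotent.exp_neg_mul_exp_self R _ (ratMod R) a h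

theorem exS_succ (N : ℕ) (a : R) :
    exS (N + 1) a = exS N a + ((N.factorial : ℂ))⁻¹ • a ^ N := Finset.sum_range_succ _ _

theorem mul_pow_two {a X Y Z : R} (h1 : a * X - X * a = Y) (h2 : a * Y - Y * a = Z)
    (h3 : a * Z = Z * a) (N : ℕ) :
    X * a ^ (N + 2) = a ^ (N + 2) * X - ((N : ℂ) + 2) • (a ^ (N + 1) * Y) +
      ((((N : ℂ) + 2) * ((N : ℂ) + 1)) / 2) • (a ^ N * Z) := by
  have e1 : X * a = a * X - Y := by rw [← h1]; abel
  have e2 : Y * a = a * Y - Z := by rw [← h2]; abel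
  induction N with
  | zero =>
    have : X * a ^ 2 = a ^ 2 * X - (2 : ℂ) • (a * Y) + Z := by
      rw [pow_two, ← mul_assoc, e1, sub_mul, mul_assoc, e1, e2, two_smul]
      noncomm_ring
    simpa using this
  | succ N ih =>
    rw [pow_succ a (N + 2), ← mul_assoc, ih]
    simp only [add_mul, sub_mul, smul_mul_assoc, mul_assoc, e1, e2, ← h3, mul_sub]
    have p1 : a ^ (N + 2) * (a * X) = a ^ (N + 2) * a * X := (mul_assoc _ _ _).symm
    have p2 : a ^ (N + 1) * (a * Y) = a ^ (N + 1 + 1) * Y := by rw [← mul_assoc, ← pow_succ]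
    have p3 : a ^ N * (a * Z) = a ^ (N + 1) * Z := by rw [← mul_assoc, ← pow_succ]
    rw [p2, p3]
    push_cast
    have q : N + 1 + 1 = N + 2 := rfl
    rw [q]
    module

theorem mul_exS {a X Y Z : R} (h1 : a * X - X * a = Y) (h2 : a * Y - Y * a = Z)
    (h3 : a * Z = Z * a) (N : ℕ) :
    X * exS (N + 2) a = exS (N + 2) a * X - exS (N + 1) a * Y + (1 / 2 : ℂ) • (exS N a * Z) := by
  have e1 : X * a = a * X - Y := by rw [← h1]; abel
  induction N with
  | zero =>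
    simp only [exS, zero_add, Finset.sum_range_succ, Finset.range_zero, Finset.sum_empty]
    simp [mul_add, add_mul, e1]
    abel
  | succ N ih =>
    rw [exS_succ (N + 2), exS_succ (N + 1), exS_succ N] at *
    rw [mul_add X, ih, mul_smul_comm, mul_pow_two h1 h2 h3]
    have f0 : (N.factorial : ℂ) ≠ 0 := by exact_mod_cast N.factorial_ne_zero
    have f1 : ((N : ℂ) + 1) ≠ 0 := by exact_mod_cast Nat.succ_ne_zero N
    have f2 : ((N : ℂ) + 2) ≠ 0 := by exact_mod_cast Nat.succ_ne_zero (N + 1)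
    have g1 : (((N + 1).factorial : ℕ) : ℂ) = ((N : ℂ) + 1) * N.factorial := by
      rw [Nat.factorial_succ]; push_cast; ring
    have g2 : (((N + 2).factorial : ℕ) : ℂ) = ((N : ℂ) + 2) * (((N : ℂ) + 1) * N.factorial) := by
      rw [Nat.factorial_succ (N + 1), Nat.cast_mul, g1]; push_cast; ring
    have c1 : (((N + 2).factorial : ℕ) : ℂ)⁻¹ * ((N : ℂ) + 2) = (((N + 1).factorial : ℕ) : ℂ)⁻¹ := by
      rw [g1, g2]; field_simp
    have c2 : (((N + 2).factorial : ℕ) : ℂ)⁻¹ * ((((N : ℂ) + 2) * ((N : ℂ) + 1)) / 2) =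
        (1 / 2 : ℂ) * ((N.factorial : ℕ) : ℂ)⁻¹ := by
      rw [g2]; field_simp
    rw [smul_add, smul_sub, smul_smul, smul_smul, c1, c2]
    simp only [add_mul, smul_mul_assoc, smul_add, smul_smul]
    module

/-- second order conjugation formula -/
theorem mul_ex {a X Y Z : R} (ha : IsNilpotent a) (h1 : a * X - X * a = Y)
    (h2 : a * Y - Y * a = Z) (h3 : a * Z = Z * a) :
    X * ex a = ex a * (X - Y + (1 / 2 : ℂ) • Z) := by
  obtain ⟨k, hk⟩ := ha
  have k1 : a ^ (k + 1) = 0 := by rw [pow_succ, hk, zero_mul]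
  have k2 : a ^ (k + 2) = 0 := by rw [pow_succ, k1, zero_mul]
  have := mul_exS h1 h2 h3 k
  rw [← ex_eq k2, ← ex_eq k1, ← ex_eq hk] at this
  rw [this, mul_add, mul_sub, mul_smul_comm]

/-- first order conjugation formula -/
theorem mul_ex1 {a X Y : R} (ha : IsNilpotent a) (h1 : a * X - X * a = Y) (h2 : a * Y = Y * a) :
    X * ex a = ex a * (X - Y) := by
  have := mul_ex (Z := 0) ha h1 (by rw [h2, sub_self]) (by simp)
  simpa using this

theorem mul_ex0 {a X : R} (ha : IsNilpotent a) (h1 : a * X = X * a) : X * ex a = ex a * X := by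
  have := mul_ex1 (Y := 0) ha (by rw [h1, sub_self]) (by simp)
  simpa using this

/-- an `sl₂` triple with nilpotent `L`, `Λ` -/
structure Tri (L Λ H : R) : Prop where
  nL : IsNilpotent L
  nΛ : IsNilpotent Λ
  LΛ : L * Λ - Λ * L = H
  HL : H * L - L * H = (2 : ℂ) • L
  HΛ : H * Λ - Λ * H = (-2 : ℂ) • Λ

/-- iterated commutators with `Λ` -/
def adp (Λ Z : R) : ℕ → R
  | 0 => Z
  | m + 1 => Λ * adp Λ Z m - adp Λ Z m * Λ

theorem adp_eq (Λ Z : R) (m : ℕ) :
    adp Λ Z m = ((LinearMap.mulLeft ℂ Λ - LinearMap.mulRight ℂ Λ) ^ m) Z := by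
  induction m with
  | zero => rfl
  | succ m ih => rw [pow_succ', adp, ih]; rfl

theorem exists_adp_zero {Λ : R} (h : IsNilpotent Λ) (Z : R) : ∃ m, adp Λ Z m = 0 := by
  have h1 : IsNilpotent (LinearMap.mulLeft ℂ Λ) := (LinearMap.isNilpotent_mulLeft_iff ℂ Λ).2 h
  have h2 : IsNilpotent (LinearMap.mulRight ℂ Λ) := (LinearMap.isNilpotent_mulRight_iff ℂ Λ).2 h
  obtain ⟨m, hm⟩ := (LinearMap.commute_mulLeft_right Λ Λ).isNilpotent_sub h1 h2
  exact ⟨m, by rw [adp_eq, hm]; rfl⟩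

namespace Tri

variable {L Λ H : R} (T : Tri L Λ H)
include T

theorem adp_wt {Z : R} {μ : ℂ} (hH : H * Z - Z * H = μ • Z) (m : ℕ) :
    H * adp Λ Z m - adp Λ Z m * H = (μ - 2 * m) • adp Λ Z m := by
  induction m with
  | zero => simpa [adp] using hH
  | succ m ih =>
    have e1 : H * Λ = Λ * H + (-2 : ℂ) • Λ := by rw [← T.HΛ]; abel
    have e2 : H * adp Λ Z m = adp Λ Z m * H + (μ - 2 * m) • adp Λ Z m := by rw [← ih]; abel
    simp only [adp]
    set U := adp Λ Z m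
    have : H * (Λ * U - U * Λ) = (H * Λ) * U - (H * U) * Λ := by noncomm_ring
    rw [this, e1, e2]
    have e3 : (Λ * H + (-2 : ℂ) • Λ) * U = Λ * (H * U) + (-2 : ℂ) • (Λ * U) := by
      rw [add_mul, smul_mul_assoc, mul_assoc]
    have e4 : (U * H + (μ - 2 * m) • U) * Λ = U * (H * Λ) + (μ - 2 * m) • (U * Λ) := by
      rw [add_mul, smul_mul_assoc, mul_assoc]
    rw [e3, e4, e1, e2]
    simp only [mul_add, mul_smul_comm, sub_mul, mul_assoc]
    push_cast
    module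

theorem L_adp {Z : R} {μ : ℂ} (hL : L * Z = Z * L) (hH : H * Z - Z * H = μ • Z) (m : ℕ) :
    L * adp Λ Z (m + 1) - adp Λ Z (m + 1) * L = (((m : ℂ) + 1) * (μ - m)) • adp Λ Z m := by
  have key : ∀ U : R, L * (Λ * U - U * Λ) - (Λ * U - U * Λ) * L =
      (H * U - U * H) + (Λ * (L * U - U * L) - (L * U - U * L) * Λ) := by
    intro U; rw [← T.LΛ]; noncomm_ring
  induction m with
  | zero =>
    simp only [adp]
    rw [key, hH, hL]
    simp
  | succ m ih =>
    rw [adp, key, ih, T.adp_wt hH, mul_smul_comm, smul_mul_assoc, ← smul_sub]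
    have : Λ * adp Λ Z m - adp Λ Z m * Λ = adp Λ Z (m + 1) := rfl
    rw [this, ← add_smul]
    congr 1
    push_cast
    ring

/-- an element commuting with `L` of negative weight vanishes -/
theorem hw_zero {Z : R} {k : ℕ} (hL : L * Z = Z * L)
    (hH : H * Z - Z * H = (-((k : ℂ) + 1)) • Z) : Z = 0 := by
  obtain ⟨m, hm⟩ := exists_adp_zero T.nΛ Z
  induction m with
  | zero => exact hm
  | succ m ih =>
    apply ih
    have h := T.L_adp hL hH m
    rw [hm, mul_zero, zero_mul, sub_zero] at h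
    have hc : ((m : ℂ) + 1) * (-((k : ℂ) + 1) - m) ≠ 0 := by
      refine mul_ne_zero (by exact_mod_cast Nat.succ_ne_zero m) ?_
      have : -((k : ℂ) + 1) - m = -(((k + m + 1 : ℕ) : ℂ)) := by push_cast; ring
      rw [this, neg_ne_zero]
      exact_mod_cast Nat.succ_ne_zero (k + m)
    have := congrArg (fun x => (((m : ℂ) + 1) * (-((k : ℂ) + 1) - m))⁻¹ • x) h
    simp only [smul_zero, smul_smul, inv_mul_cancel₀ hc, one_smul] at this
    exact this.symm

/-- `Λ` is determined by `L` and `H` -/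
theorem uniq {Λ' : R} (T' : Tri L Λ' H) : Λ' = Λ := by
  rw [← sub_eq_zero]
  refine T.hw_zero (k := 1) ?_ ?_
  · have := T.LΛ.trans T'.LΛ.symm
    rw [mul_sub, sub_mul, ← sub_eq_zero]
    calc L * Λ' - L * Λ - (Λ' * L - Λ * L) = (L * Λ' - Λ' * L) - (L * Λ - Λ * L) := by abel
      _ = 0 := by rw [this, sub_self]
  · rw [mul_sub, sub_mul, smul_sub]
    have h1 := T.HΛ
    have h2 := T'.HΛ
    have : (-((((1 : ℕ) : ℂ)) + 1)) = (-2 : ℂ) := by norm_num
    rw [this, ← h1, ← h2]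
    abel

end Tri

/-- the Weyl element -/
def wey (L Λ : R) : R := ex Λ * ex (-L) * ex Λ

/-- its inverse -/
def weyI (L Λ : R) : R := ex (-Λ) * ex L * ex (-Λ)

namespace Tri

variable {L Λ H : R} (T : Tri L Λ H)
include T

theorem wey_weyI : wey L Λ * weyI L Λ = 1 := by
  unfold wey weyI
  calc ex Λ * ex (-L) * ex Λ * (ex (-Λ) * ex L * ex (-Λ))
      = ex Λ * (ex (-L) * (ex Λ * ex (-Λ)) * ex L) * ex (-Λ) := by noncomm_ring
    _ = 1 := by rw [ex_mul_neg T.nΛ, mul_one, ex_neg_mul T.nL, mul_one, ex_mul_neg T.nΛ]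

theorem weyI_wey : weyI L Λ * wey L Λ = 1 := by
  unfold wey weyI
  calc ex (-Λ) * ex L * ex (-Λ) * (ex Λ * ex (-L) * ex Λ)
      = ex (-Λ) * (ex L * (ex (-Λ) * ex Λ) * ex (-L)) * ex Λ := by noncomm_ring
    _ = 1 := by rw [ex_neg_mul T.nΛ, mul_one, ex_mul_neg T.nL, mul_one, ex_neg_mul T.nΛ]

theorem conj3 {X X1 X2 X3 : R} (h1 : X * ex Λ = ex Λ * X1) (h2 : X1 * ex (-L) = ex (-L) * X2)
    (h3 : X2 * ex Λ = ex Λ * X3) : X * wey L Λ = wey L Λ * X3 := by
  unfold wey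
  calc X * (ex Λ * ex (-L) * ex Λ) = (X * ex Λ) * ex (-L) * ex Λ := by noncomm_ring
    _ = ex Λ * (X1 * ex (-L)) * ex Λ := by rw [h1]; noncomm_ring
    _ = ex Λ * ex (-L) * (X2 * ex Λ) := by rw [h2]; noncomm_ring
    _ = _ := by rw [h3]; noncomm_ring

/-- a highest weight vector of weight one generates a doublet -/
theorem doublet {X : R} (hL : L * X = X * L) (hH : H * X - X * H = X) :
    L * (Λ * X - X * Λ) - (Λ * X - X * Λ) * L = X ∧
      Λ * (Λ * X - X * Λ) = (Λ * X - X * Λ) * Λ := by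
  have hH' : H * X - X * H = (1 : ℂ) • X := by rw [one_smul]; exact hH
  have a0 := T.L_adp hL hH' 0
  have a1 := T.L_adp hL hH' 1
  have w2 := T.adp_wt hH' 2
  refine ⟨by simpa [adp] using a0, ?_⟩
  rw [← sub_eq_zero]
  refine T.hw_zero (Z := adp Λ X 2) (k := 2) ?_ ?_
  · rw [← sub_eq_zero]; simpa using a1
  · rw [w2]; congr 1; norm_num

/-- `X w = - w [Λ, X]` -/
theorem mul_wey {X : R} (hL : L * X = X * L) (hH : H * X - X * H = X) :
    X * wey L Λ = - (wey L Λ * (Λ * X - X * Λ)) := by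
  obtain ⟨d1, d2⟩ := T.doublet hL hH
  set Y := Λ * X - X * Λ with hY
  rw [← mul_neg]
  refine T.conj3 (X1 := X - Y) (X2 := -Y) (mul_ex1 T.nΛ rfl d2) ?_ (mul_ex0 T.nΛ ?_)
  · have := mul_ex1 (a := -L) (X := X - Y) (Y := X) T.nL.neg
      (by rw [← d1]; nth_rewrite 1 [d1]; nth_rewrite 1 [d1]
          have : -L * (X - Y) - (X - Y) * -L = (L * Y - Y * L) - (L * X - X * L) := by noncomm_ring
          rw [this, hL, sub_self, sub_zero])
      (by rw [neg_mul, mul_neg, hL])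
    rw [this]; congr 1; abel
  · rw [mul_neg, neg_mul, d2]

theorem ΛH : Λ * H - H * Λ = (2 : ℂ) • Λ := by
  rw [← neg_sub, T.HΛ, neg_smul, neg_neg]

theorem L_ex : L * ex Λ = ex Λ * (L + H - Λ) := by
  have := mul_ex (a := Λ) (X := L) (Y := -H) (Z := (-2 : ℂ) • Λ) T.nΛ
    (by rw [← T.LΛ]; abel) (by rw [← T.HΛ]; noncomm_ring)
    (by rw [mul_smul_comm, smul_mul_assoc])
  rw [this]; congr 1; module

theorem H_ex : H * ex Λ = ex Λ * (H - (2 : ℂ) • Λ) :=
  mul_ex1 T.nΛ T.ΛH (by rw [mul_smul_comm, smul_mul_assoc])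

theorem Lam_ex : Λ * ex (-L) = ex (-L) * (Λ + H - L) := by
  have := mul_ex (a := -L) (X := Λ) (Y := -H) (Z := (-2 : ℂ) • L) T.nL.neg
    (by rw [← T.LΛ]; noncomm_ring)
    (by rw [neg_smul, ← T.HL]; noncomm_ring)
    (by rw [mul_smul_comm, smul_mul_assoc, neg_mul, mul_neg])
  rw [this]; congr 1; module

theorem H_ex' : H * ex (-L) = ex (-L) * (H - (2 : ℂ) • L) :=
  mul_ex1 T.nL.neg (by rw [← T.HL]; noncomm_ring)
    (by rw [mul_smul_comm, smul_mul_assoc, neg_mul, mul_neg])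

theorem L_wey : L * wey L Λ = - (wey L Λ * Λ) := by
  rw [← mul_neg]
  refine T.conj3 T.L_ex (X2 := -Λ) ?_ (mul_ex0 T.nΛ (by rw [mul_neg, neg_mul]))
  rw [sub_mul, add_mul, T.H_ex', T.Lam_ex, mul_ex0 T.nL.neg (X := L) (by rw [neg_mul, mul_neg]),
    ← mul_add, ← mul_sub]
  congr 1; module

theorem Lam_wey : Λ * wey L Λ = - (wey L Λ * L) := by
  rw [← mul_neg]
  refine T.conj3 (mul_ex0 T.nΛ rfl) T.Lam_ex ?_
  rw [sub_mul, add_mul, T.H_ex, T.L_ex, mul_ex0 T.nΛ (X := Λ) rfl, ← mul_add, ← mul_sub]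
  congr 1; module

theorem H_wey : H * wey L Λ = - (wey L Λ * H) := by
  rw [← T.LΛ, sub_mul, mul_assoc, mul_assoc, T.Lam_wey, T.L_wey, mul_neg, mul_neg, ← mul_assoc,
    ← mul_assoc, T.Lam_wey, T.L_wey]
  noncomm_ring

theorem comm_wey {X : R} (h1 : L * X = X * L) (h2 : Λ * X = X * Λ) :
    X * wey L Λ = wey L Λ * X :=
  T.conj3 (mul_ex0 T.nΛ h2) (mul_ex0 T.nL.neg (by rw [neg_mul, mul_neg, h1])) (mul_ex0 T.nΛ h2)

end Tri

end

end Crest.Agent.X262.Kah
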